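import Crest.Agent.R232.Defs

/-! Exact statements of the lemmas of the proof of S0358 (all `sorry` here; each is a task). -/

set_option autoImplicit false

open Finset

namespace Crest.Agent.R232.BP

open Crest.Agent.R232

/-- T1a: two-point entropy inequality (`0 log 0 = 0`, `0/0 = 0`). -/
theorem entropy_two_point (a b : ℝ) (ha : 0 ≤ a) (hb : 0 ≤ b) :
    (a - b) ^ 2 / (2 * (a + b)) ≤
      a * Real.log a + b * Real.log b - 2 * ((a + b) / 2 * Real.log ((a + b) / 2)) := sorry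

/-- T1: the chain lemma. -/
theorem chain_operator {X : Type*} [Fintype X] [DecidableEq X] (hn : 2 ≤ Fintype.card X)
    (d : X → X → ℝ) (hd : IsDist d) (W : X × X → ℝ)
    (hW_symm : ∀ x y, W (x, y) = W (y, x)) (hW_diag : ∀ x, W (x, x) = 0)
    (hW_pos : ∀ x y, x ≠ y → 0 < W (x, y)) (hW_sum : ∑ e, W e = 1) :
    ∃ S : (X × X → ℝ) →ₗ[ℝ] (X → ℝ),
      (∀ (f : X → ℝ) (e : X × X), grad d (S (grad d f)) e = grad d f e) ∧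
      (∀ V : X × X → ℝ, ∑ e, W e * (grad d (S V) e) ^ 2 ≤ ∑ e, W e * (V e) ^ 2) ∧
      (∑ e, W e * ∑ e', |grad d (S (Pi.single e' 1)) e| ≤ 4 * Real.log (Fintype.card X)) := sorry

/-- T2: finite dimensional minimax. -/
theorem exists_le_of_forall_weights {V : Type*} [AddCommGroup V] [Module ℝ V] {E : Type*}
    [Fintype E] [Nonempty E] (K : Set V) (φ : E → V → ℝ)
    (hφ : ∀ e, ConvexOn ℝ K (φ e)) (c c' : ℝ) (hc : c < c')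
    (h : ∀ W : E → ℝ, (∀ e, 0 ≤ W e) → ∑ e, W e = 1 → ∃ k ∈ K, ∑ e, W e * φ e k ≤ c) :
    ∃ k ∈ K, ∀ e, φ e k ≤ c' := sorry

/-- T3: the operator theorem (from T1 and T2). -/
theorem operator_exists {X : Type*} [Fintype X] [DecidableEq X] (hn : 2 ≤ Fintype.card X)
    (d : X → X → ℝ) (hd : IsDist d) (Wout : X × X → ℝ) (h0 : ∀ e, 0 ≤ Wout e)
    (h1 : ∑ e, Wout e = 1) :
    ∃ (S : (X × X → ℝ) →ₗ[ℝ] (X → ℝ)) (Win : X × X → ℝ), (∀ e, 0 ≤ Win e) ∧ (∑ e, Win e ≤ 1) ∧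
      (∀ (f : X → ℝ) (e : X × X), grad d (S (grad d f)) e = grad d f e) ∧
      (∀ V : X × X → ℝ, ∑ e, Wout e * (grad d (S V) e) ^ 2 ≤ 6 * ∑ e, Win e * (V e) ^ 2) ∧
      (∀ V : X × X → ℝ, ∑ e, Wout e * |grad d (S V) e| ≤
        24 * Real.log (Fintype.card X) * ∑ e, Win e * |V e|) ∧
      (∀ (V : X × X → ℝ) (M : ℝ) (_ : ∀ e', |V e'| ≤ M) (e : X × X),
        |grad d (S V) e| ≤ 13 * Real.log (Fintype.card X) * M) := sorry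

/-- T4: level estimate for `p > 2` (the operator enters only through `T`, `Wout`, `Win`, `N`). -/
theorem levels_gt_two (p : ℝ) (hp : 2 < p) :
    ∃ C : ℝ, 0 < C ∧ ∀ (E : Type) [Fintype E] (T : (E → ℝ) →ₗ[ℝ] (E → ℝ)) (Wout Win : E → ℝ)
      (N : ℝ) (_ : 1 ≤ N) (_ : ∀ e, 0 ≤ Wout e) (_ : ∀ e, 0 ≤ Win e)
      (_ : ∀ V : E → ℝ, ∑ e, Wout e * (T V e) ^ 2 ≤ 6 * ∑ e, Win e * (V e) ^ 2)
      (_ : ∀ (V : E → ℝ) (M : ℝ) (_ : ∀ e', |V e'| ≤ M) (e : E), |T V e| ≤ N * M)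
      (v : E → ℝ) (_ : T v = v) (l : ℕ) (_ : 1 ≤ l) (K : Finset ℤ),
      ∑ e, Wout e * ∑ k ∈ K, ((2 : ℝ) ^ k) ^ (-p) * |mainF l v k e - T (mainF l v k) e| ^ p ≤
        C * N ^ (p - 2) * (l : ℝ) ^ (1 - p) * ∑ e, (Wout e + Win e) * |v e| ^ p := sorry

/-- T5: level estimate for `1 < p < 2`. -/
theorem levels_lt_two (p : ℝ) (hp1 : 1 < p) (hp : p < 2) :
    ∃ C : ℝ, 0 < C ∧ ∀ (E : Type) [Fintype E] (T : (E → ℝ) →ₗ[ℝ] (E → ℝ)) (Wout Win : E → ℝ)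
      (N : ℝ) (_ : 1 ≤ N) (_ : ∀ e, 0 ≤ Wout e) (_ : ∀ e, 0 ≤ Win e)
      (_ : ∀ V : E → ℝ, ∑ e, Wout e * (T V e) ^ 2 ≤ 6 * ∑ e, Win e * (V e) ^ 2)
      (_ : ∀ V : E → ℝ, ∑ e, Wout e * |T V e| ≤ N * ∑ e, Win e * |V e|)
      (v : E → ℝ) (_ : T v = v) (l : ℕ) (_ : 1 ≤ l) (K : Finset ℤ),
      ∑ e, Wout e * ∑ k ∈ K, ((2 : ℝ) ^ k) ^ (-p) * |mainF l v k e - T (mainF l v k) e| ^ p ≤
        C * N ^ (2 - p) * ∑ e, (Wout e + Win e) * |v e| ^ p := sorry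

/-- T6: outer minimax; assembles T3, T4, T5, T2. `B ω` is the main field, `grad d (F ω)` its gradient
approximation. -/
theorem outer (p : ℝ) (hp1 : 1 < p) (hp2 : p ≠ 2) (ε : ℝ) (hε : 0 < ε) :
    ∃ C : ℝ, 0 < C ∧ ∀ (X : Type) [Fintype X] [DecidableEq X] (_ : 2 ≤ Fintype.card X)
      (d : X → X → ℝ) (_ : IsDist d) (A : Type) [Fintype A] (m : A → ℝ) (_ : ∀ a, 0 ≤ m a)
      (f : A → X → ℝ) (_ : ∀ x y, x ≠ y → ∑ a, m a * |f a x - f a y| ^ p = d x y ^ p),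
      ∃ (Λ : ℝ) (Ω : Type) (_ : Fintype Ω) (μ : Ω → ℝ) (B : Ω → X × X → ℝ) (F : Ω → X → ℝ),
        1 ≤ Λ ∧ Real.log (Fintype.card X) ≤ Λ ∧
        Λ ≤ Real.exp (C * Real.log (Fintype.card X) ^ gam p) ∧
        (∀ ω, 0 ≤ μ ω) ∧
        ∀ x y, x ≠ y →
          (∑ ω, μ ω * |B ω (x, y)| ^ p = 1) ∧
          (∑ ω ∈ univ.filter (fun ω => B ω (x, y) ≠ 0), μ ω ≤ Λ) ∧
          (∑ ω, μ ω * |grad d (F ω) (x, y) - B ω (x, y)| ^ p ≤ ε) ∧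
          (∑ ω, μ ω * (grad d (F ω) (x, y) - B ω (x, y)) ^ 2 ≤ Λ) ∧
          (∑ ω, μ ω * (grad d (F ω) (x, y)) ^ 2 ≤ Λ) ∧
          (∀ ω, |grad d (F ω) (x, y)| ≤ Λ) := sorry

/-- T7: moments of sparse sums: list entries `(q, (b, a))`, `b` main part, `a` true value. -/
theorem moment (p : ℝ) (hp1 : 1 < p) (η : ℝ) (hη : 0 < η) (hη1 : η < 1) :
    ∃ ε : ℝ, 0 < ε ∧ ∃ C : ℝ, 1 ≤ C ∧ ∀ (Λ : ℝ) (_ : 1 ≤ Λ) (κ : ℝ) (_ : 0 < κ)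
      (_ : κ ≤ (C * Λ) ^ (-C)) (l : List (ℝ × (ℝ × ℝ))) (_ : ∀ x ∈ l, 0 ≤ x.1 ∧ x.1 ≤ 1)
      (_ : (l.map fun x => x.1 * |x.2.1| ^ p).sum = κ)
      (_ : ((l.filter fun x => x.2.1 ≠ 0).map fun x => x.1).sum ≤ κ * Λ)
      (_ : (l.map fun x => x.1 * |x.2.2 - x.2.1| ^ p).sum ≤ κ * ε)
      (_ : (l.map fun x => x.1 * (x.2.2 - x.2.1) ^ 2).sum ≤ κ * Λ),
      (1 - η) * κ ≤ EE l (fun s => |s.2| ^ p) ∧ EE l (fun s => |s.2| ^ p) ≤ (1 + η) * κ := sorry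

/-- T7c: exponential moments. -/
theorem cosh_moment (l : List (ℝ × ℝ)) (hl : ∀ x ∈ l, 0 ≤ x.1 ∧ x.1 ≤ 1) (t : ℝ)
    (ht : ∀ x ∈ l, |t * x.2| ≤ 1) :
    EE l (fun s => Real.cosh (t * s)) ≤ Real.exp (t ^ 2 * (l.map fun x => x.1 * x.2 ^ 2).sum) :=
  sorry

/-- T8: sampling (derandomised Chernoff bound by a potential function). -/
theorem sampling {V : Type*} [AddCommGroup V] (l : List (ℝ × V))
    (hl : ∀ x ∈ l, 0 ≤ x.1 ∧ x.1 ≤ 1) {E : Type*} [Fintype E] [Nonempty E] (Y : E → V → ℝ)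
    (hY0 : ∀ e s, 0 ≤ Y e s) (hY1 : ∀ e s, Y e s ≤ 1) (b : V → ℝ) (hb : ∀ s, 0 ≤ b s)
    (η : ℝ) (hη : 0 < η) (hη1 : η ≤ 1) (m : ℝ) (hm : 0 < m) (hmY : ∀ e, m ≤ EE l (Y e))
    (D : ℕ) (hD0 : 0 < D) (hD : 4 * Real.log (4 * Fintype.card E) / (η ^ 2 * m) ≤ D)
    (hbD : EE l b ≤ 1 / (4 * D)) :
    ∃ s : Fin D → V, (∀ j, b (s j) < 1) ∧ ∀ e,
      (1 - η) * (D * EE l (Y e)) ≤ ∑ j, Y e (s j) ∧
        ∑ j, Y e (s j) ≤ (1 + η) * (D * EE l (Y e)) := sorry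

/-- T9: from the data of T6 to a map into `ℓ_p^D` with `D ≤ C Λ^C` (uses T7, T7c, T8). -/
theorem sparse (p : ℝ) (hp1 : 1 < p) (η : ℝ) (hη : 0 < η) (hη1 : η < 1) :
    ∃ ε : ℝ, 0 < ε ∧ ∃ C : ℝ, 1 ≤ C ∧ ∀ (X : Type) [Fintype X] [DecidableEq X]
      (_ : 2 ≤ Fintype.card X) (d : X → X → ℝ) (_ : IsDist d) (Λ : ℝ) (Ω : Type) [Fintype Ω]
      (μ : Ω → ℝ) (B : Ω → X × X → ℝ) (F : Ω → X → ℝ)
      (_ : 1 ≤ Λ) (_ : Real.log (Fintype.card X) ≤ Λ) (_ : ∀ ω, 0 ≤ μ ω)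
      (_ : ∀ x y, x ≠ y →
          (∑ ω, μ ω * |B ω (x, y)| ^ p = 1) ∧
          (∑ ω ∈ univ.filter (fun ω => B ω (x, y) ≠ 0), μ ω ≤ Λ) ∧
          (∑ ω, μ ω * |grad d (F ω) (x, y) - B ω (x, y)| ^ p ≤ ε) ∧
          (∑ ω, μ ω * (grad d (F ω) (x, y) - B ω (x, y)) ^ 2 ≤ Λ) ∧
          (∑ ω, μ ω * (grad d (F ω) (x, y)) ^ 2 ≤ Λ) ∧
          (∀ ω, |grad d (F ω) (x, y)| ≤ Λ)),
      ∃ (D : ℕ) (y : X → Fin D → ℝ), (D : ℝ) ≤ C * Λ ^ C ∧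
        ∀ x x', x ≠ x' → (1 - η) * d x x' ^ p ≤ ∑ j, |y x j - y x' j| ^ p ∧
          ∑ j, |y x j - y x' j| ^ p ≤ (1 + η) * d x x' ^ p := sorry

open MeasureTheory in
/-- T10: discretisation of finitely many points of `L^p`. -/
theorem discretize (p : ENNReal) [Fact (1 ≤ p)] (hptop : p ≠ ⊤) (D : ℝ) (hD : 1 < D) (n : ℕ)
    {α : Type*} [MeasurableSpace α] (μ : Measure α) (x : Fin n → Lp ℝ p μ)
    (hx : Function.Injective x) :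
    ∃ (A : Type) (_ : Fintype A) (m : A → ℝ) (f : A → Fin n → ℝ), (∀ a, 0 ≤ m a) ∧
      ∀ i j, i ≠ j → ‖x i - x j‖ ≤ D * (∑ a, m a * |f a i - f a j| ^ p.toReal) ^ (1 / p.toReal) ∧
        (∑ a, m a * |f a i - f a j| ^ p.toReal) ^ (1 / p.toReal) ≤ D * ‖x i - x j‖ := sorry

end Crest.Agent.R232.BP
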