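import Crest.Agent.R232.Defs

/-! Definitions for the chain lemma T1 (lazy reversible chain on a finite set). -/

set_option autoImplicit false

open Finset

namespace Crest.Agent.R232

/-- standing assumptions: `π` the stationary weights, `c x y = π x * P x y` (`x ≠ y`) the symmetric
conductances of one step, laziness `P x x ≥ 1/2`. -/
structure IsChain {X : Type*} [Fintype X] (π : X → ℝ) (c : X → X → ℝ) : Prop where
  pi_pos : ∀ x, 0 < π x
  c_nonneg : ∀ x y, 0 ≤ c x y
  c_symm : ∀ x y, c x y = c y x
  c_diag : ∀ x, c x x = 0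
  lazy : ∀ x, ∑ y, c x y ≤ π x / 2

/-- one step of the chain: `P q x = q x - (π x)⁻¹ * ∑ y, c x y * (q x - q y)` -/
noncomputable def stepL {X : Type*} [Fintype X] (π : X → ℝ) (c : X → X → ℝ) :
    (X → ℝ) →ₗ[ℝ] (X → ℝ) where
  toFun q x := q x - (π x)⁻¹ * ∑ y, c x y * (q x - q y)
  map_add' f g := by
    funext x
    simp only [Pi.add_apply]
    have : ∑ y, c x y * (f x + g x - (f y + g y)) =
        ∑ y, c x y * (f x - f y) + ∑ y, c x y * (g x - g y) := by
      rw [← Finset.sum_add_distrib]
      refine Finset.sum_congr rfl fun y _ => by ring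
    rw [this]; ring
  map_smul' a f := by
    funext x
    simp only [Pi.smul_apply, smul_eq_mul, RingHom.id_apply]
    have : ∑ y, c x y * (a * f x - a * f y) = a * ∑ y, c x y * (f x - f y) := by
      rw [Finset.mul_sum]
      refine Finset.sum_congr rfl fun y _ => by ring
    rw [this]; ring

theorem stepL_apply {X : Type*} [Fintype X] (π : X → ℝ) (c : X → X → ℝ) (q : X → ℝ) (x : X) :
    stepL π c q x = q x - (π x)⁻¹ * ∑ y, c x y * (q x - q y) := rfl

end Crest.Agent.R232
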