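import Crest.Agent.R232.ChainDefs

/-! L² theory of the lazy reversible chain: self-adjointness, positivity, energy identity, the
operator `S_K = δ ∑_{k<2K} P^k D*` and its L² bound. -/

set_option autoImplicit false

open Finset

namespace Crest.Agent.R232

variable {X : Type*} [Fintype X]

/-- the weighted bilinear form `∑ π f g` -/
noncomputable def bil (π : X → ℝ) (f g : X → ℝ) : ℝ := ∑ x, π x * (f x * g x)

theorem bil_comm (π : X → ℝ) (f g : X → ℝ) : bil π f g = bil π g f := by
  unfold bil; exact Finset.sum_congr rfl fun x _ => by ring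

theorem bil_add_left (π : X → ℝ) (f g h : X → ℝ) : bil π (f + g) h = bil π f h + bil π g h := by
  unfold bil
  rw [← Finset.sum_add_distrib]
  exact Finset.sum_congr rfl fun x _ => by simp only [Pi.add_apply]; ring

theorem bil_sub_left (π : X → ℝ) (f g h : X → ℝ) : bil π (f - g) h = bil π f h - bil π g h := by
  unfold bil
  rw [← Finset.sum_sub_distrib]
  exact Finset.sum_congr rfl fun x _ => by simp only [Pi.sub_apply]; ring

theorem bil_smul_left (π : X → ℝ) (a : ℝ) (f h : X → ℝ) : bil π (a • f) h = a * bil π f h := by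
  unfold bil
  rw [Finset.mul_sum]
  exact Finset.sum_congr rfl fun x _ => by simp only [Pi.smul_apply, smul_eq_mul]; ring

theorem bil_smul_right (π : X → ℝ) (a : ℝ) (f h : X → ℝ) : bil π f (a • h) = a * bil π f h := by
  rw [bil_comm, bil_smul_left, bil_comm]

theorem bil_sum_right {ι : Type*} (π : X → ℝ) (f : X → ℝ) (s : Finset ι) (g : ι → X → ℝ) :
    bil π f (∑ i ∈ s, g i) = ∑ i ∈ s, bil π f (g i) := by
  unfold bil
  rw [Finset.sum_comm]
  refine Finset.sum_congr rfl fun x _ => ?_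
  rw [Finset.sum_apply, Finset.mul_sum, Finset.mul_sum]

theorem bil_self_nonneg {π : X → ℝ} (h : ∀ x, 0 ≤ π x) (f : X → ℝ) : 0 ≤ bil π f f :=
  Finset.sum_nonneg fun x _ => mul_nonneg (h x) (mul_self_nonneg _)

/-- energy identity -/
theorem bil_sub_step {π : X → ℝ} {c : X → X → ℝ} (h : IsChain π c) (f g : X → ℝ) :
    bil π (f - stepL π c f) g = (1 / 2) * ∑ x, ∑ y, c x y * ((f x - f y) * (g x - g y)) := by
  have h1 : bil π (f - stepL π c f) g = ∑ x, ∑ y, c x y * ((f x - f y) * g x) := by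
    unfold bil
    refine Finset.sum_congr rfl fun x _ => ?_
    have hx : π x ≠ 0 := (h.pi_pos x).ne'
    rw [Pi.sub_apply, stepL_apply]
    have : ∑ y, c x y * ((f x - f y) * g x) = (∑ y, c x y * (f x - f y)) * g x := by
      rw [Finset.sum_mul]
      exact Finset.sum_congr rfl fun y _ => by ring
    rw [this]
    field_simp
    ring
  have h2 : ∑ x, ∑ y, c x y * ((f x - f y) * g x) = - ∑ x, ∑ y, c x y * ((f x - f y) * g y) := by
    rw [Finset.sum_comm, ← Finset.sum_neg_distrib]
    refine Finset.sum_congr rfl fun x _ => ?_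
    rw [← Finset.sum_neg_distrib]
    refine Finset.sum_congr rfl fun y _ => ?_
    rw [h.c_symm y x]; ring
  have h3 : ∑ x, ∑ y, c x y * ((f x - f y) * (g x - g y)) =
      ∑ x, ∑ y, c x y * ((f x - f y) * g x) - ∑ x, ∑ y, c x y * ((f x - f y) * g y) := by
    rw [← Finset.sum_sub_distrib]
    refine Finset.sum_congr rfl fun x _ => ?_
    rw [← Finset.sum_sub_distrib]
    refine Finset.sum_congr rfl fun y _ => ?_
    ring
  rw [h1, h3]
  linarith [h2]

theorem step_selfAdj {π : X → ℝ} {c : X → X → ℝ} (h : IsChain π c) (f g : X → ℝ) :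
    bil π (stepL π c f) g = bil π f (stepL π c g) := by
  have e1 := bil_sub_step h f g
  have e2 := bil_sub_step h g f
  rw [bil_sub_left] at e1 e2
  have e3 : ∑ x, ∑ y, c x y * ((f x - f y) * (g x - g y)) =
      ∑ x, ∑ y, c x y * ((g x - g y) * (f x - f y)) :=
    Finset.sum_congr rfl fun x _ => Finset.sum_congr rfl fun y _ => by ring
  rw [bil_comm π g f, bil_comm π (stepL π c g) f] at e2
  linarith [e1, e2, e3]

theorem step_pow_selfAdj {π : X → ℝ} {c : X → X → ℝ} (h : IsChain π c) (k : ℕ) (f g : X → ℝ) :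
    bil π (((stepL π c) ^ k) f) g = bil π f (((stepL π c) ^ k) g) := by
  induction k generalizing f g with
  | zero => simp
  | succ k ih =>
    rw [pow_succ, Module.End.mul_apply, ih, step_selfAdj h, ← Module.End.mul_apply, ← pow_succ',
      pow_succ]

/-- positivity of the lazy chain -/
theorem step_pos {π : X → ℝ} {c : X → X → ℝ} (h : IsChain π c) (f : X → ℝ) :
    0 ≤ bil π (stepL π c f) f := by
  have e1 := bil_sub_step h f f
  rw [bil_sub_left] at e1
  have e2 : (1 / 2 : ℝ) * ∑ x, ∑ y, c x y * ((f x - f y) * (f x - f y)) ≤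
      ∑ x, ∑ y, c x y * (f x * f x + f y * f y) := by
    rw [Finset.mul_sum]
    refine Finset.sum_le_sum fun x _ => ?_
    rw [Finset.mul_sum]
    refine Finset.sum_le_sum fun y _ => ?_
    nlinarith [h.c_nonneg x y, mul_nonneg (h.c_nonneg x y) (mul_self_nonneg (f x + f y))]
  have e3 : ∑ x, ∑ y, c x y * (f x * f x + f y * f y) = 2 * ∑ x, (∑ y, c x y) * (f x * f x) := by
    have a1 : ∑ x, ∑ y, c x y * (f x * f x + f y * f y) =
        ∑ x, ∑ y, c x y * (f x * f x) + ∑ x, ∑ y, c x y * (f y * f y) := by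
      rw [← Finset.sum_add_distrib]
      refine Finset.sum_congr rfl fun x _ => ?_
      rw [← Finset.sum_add_distrib]
      exact Finset.sum_congr rfl fun y _ => by ring
    have a2 : ∑ x, ∑ y, c x y * (f y * f y) = ∑ x, ∑ y, c x y * (f x * f x) := by
      rw [Finset.sum_comm]
      refine Finset.sum_congr rfl fun x _ => Finset.sum_congr rfl fun y _ => ?_
      rw [h.c_symm y x]
    rw [a1, a2, two_mul]
    congr 1 <;> exact Finset.sum_congr rfl fun x _ => by rw [Finset.sum_mul]
  have e4 : 2 * ∑ x, (∑ y, c x y) * (f x * f x) ≤ bil π f f := by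
    unfold bil
    rw [Finset.mul_sum]
    refine Finset.sum_le_sum fun x _ => ?_
    nlinarith [h.lazy x, mul_self_nonneg (f x)]
  linarith

theorem step_pow_pos {π : X → ℝ} {c : X → X → ℝ} (h : IsChain π c) (k : ℕ) (f : X → ℝ) :
    0 ≤ bil π (((stepL π c) ^ k) f) f := by
  rcases Nat.even_or_odd' k with ⟨m, rfl | rfl⟩
  · have : bil π (((stepL π c) ^ (2 * m)) f) f =
        bil π (((stepL π c) ^ m) f) (((stepL π c) ^ m) f) := by
      rw [two_mul, pow_add, Module.End.mul_apply, step_pow_selfAdj h]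
    rw [this]
    exact bil_self_nonneg (fun x => (h.pi_pos x).le) _
  · have : bil π (((stepL π c) ^ (2 * m + 1)) f) f =
        bil π (stepL π c (((stepL π c) ^ m) f)) (((stepL π c) ^ m) f) := by
      rw [show 2 * m + 1 = m + (1 + m) by ring, pow_add, Module.End.mul_apply,
        step_pow_selfAdj h, pow_add, Module.End.mul_apply, pow_one]
    rw [this]
    exact step_pos h _

/-- adjoint of `grad d` (antisymmetrising): `D* V x = (π x)⁻¹ ∑ y, W (x,y) (V (x,y) - V (y,x))/2 / d x y` -/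
noncomputable def dstar (d : X → X → ℝ) (W : X × X → ℝ) (π : X → ℝ) :
    (X × X → ℝ) →ₗ[ℝ] (X → ℝ) where
  toFun V x := (π x)⁻¹ * ∑ y, W (x, y) * ((V (x, y) - V (y, x)) / 2) / d x y
  map_add' f g := by
    funext x
    simp only [Pi.add_apply]
    rw [← mul_add, ← Finset.sum_add_distrib]
    congr 1
    refine Finset.sum_congr rfl fun y _ => by ring
  map_smul' a f := by
    funext x
    simp only [Pi.smul_apply, smul_eq_mul, RingHom.id_apply]
    rw [mul_left_comm, Finset.mul_sum (a := a)]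
    congr 1
    refine Finset.sum_congr rfl fun y _ => by ring

theorem dstar_apply (d : X → X → ℝ) (W : X × X → ℝ) (π : X → ℝ) (V : X × X → ℝ) (x : X) :
    dstar d W π V x = (π x)⁻¹ * ∑ y, W (x, y) * ((V (x, y) - V (y, x)) / 2) / d x y := rfl

theorem bil_dstar (d : X → X → ℝ) (hd : IsDist d) (W : X × X → ℝ)
    (hW_symm : ∀ x y, W (x, y) = W (y, x)) (π : X → ℝ) (hπ : ∀ x, 0 < π x)
    (V : X × X → ℝ) (g : X → ℝ) :
    bil π (dstar d W π V) g = (1 / 2) * ∑ e, W e * (V e * grad d g e) := by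
  have h1 : bil π (dstar d W π V) g =
      ∑ x, ∑ y, W (x, y) * ((V (x, y) - V (y, x)) / 2) / d x y * g x := by
    unfold bil
    refine Finset.sum_congr rfl fun x _ => ?_
    have hx : π x ≠ 0 := (hπ x).ne'
    rw [dstar_apply, ← Finset.sum_mul]
    field_simp
  have h2 : ∑ e, W e * (V e * grad d g e) =
      ∑ x, ∑ y, W (x, y) * V (x, y) / d x y * g x -
        ∑ x, ∑ y, W (x, y) * V (x, y) / d x y * g y := by
    rw [← Finset.sum_sub_distrib, Fintype.sum_prod_type]
    refine Finset.sum_congr rfl fun x _ => ?_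
    rw [← Finset.sum_sub_distrib]
    refine Finset.sum_congr rfl fun y _ => ?_
    simp only [grad]; ring
  have h3 : ∑ x, ∑ y, W (x, y) * V (x, y) / d x y * g y =
      ∑ x, ∑ y, W (x, y) * V (y, x) / d x y * g x := by
    rw [Finset.sum_comm]
    refine Finset.sum_congr rfl fun x _ => Finset.sum_congr rfl fun y _ => ?_
    rw [hW_symm y x, hd.symm y x]
  rw [h1, h2, h3, ← Finset.sum_sub_distrib, Finset.mul_sum]
  refine Finset.sum_congr rfl fun x _ => ?_
  rw [← Finset.sum_sub_distrib, Finset.mul_sum]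
  refine Finset.sum_congr rfl fun y _ => by ring

theorem energy_grad (d : X → X → ℝ) (W : X × X → ℝ) (δ : ℝ) (π : X → ℝ) (c : X → X → ℝ)
    (hc : ∀ x y, c x y = δ * (W (x, y) / d x y ^ 2)) (h : IsChain π c) (f g : X → ℝ) :
    bil π (f - stepL π c f) g = δ / 2 * ∑ e, W e * (grad d f e * grad d g e) := by
  rw [bil_sub_step h, Fintype.sum_prod_type, Finset.mul_sum, Finset.mul_sum]
  refine Finset.sum_congr rfl fun x _ => ?_
  rw [Finset.mul_sum, Finset.mul_sum]
  refine Finset.sum_congr rfl fun y _ => ?_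
  rw [hc]; simp only [grad]
  ring

theorem dstar_grad (d : X → X → ℝ) (hd : IsDist d) (W : X × X → ℝ) (δ : ℝ) (hδ : 0 < δ)
    (π : X → ℝ) (c : X → X → ℝ)
    (hc : ∀ x y, c x y = δ * (W (x, y) / d x y ^ 2)) (f : X → ℝ) :
    δ • dstar d W π (grad d f) = f - stepL π c f := by
  funext x
  simp only [Pi.smul_apply, smul_eq_mul, Pi.sub_apply, stepL_apply, dstar_apply]
  rw [sub_sub_cancel, mul_left_comm, Finset.mul_sum]
  congr 1
  refine Finset.sum_congr rfl fun y _ => ?_
  rw [grad_swap hd f x y, hc]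
  simp only [grad]
  by_cases hxy : d x y = 0
  · simp [hxy]
  · field_simp
    ring

/-- `S_K V = δ ∑_{k<2K} P^k D* V` -/
noncomputable def chainS (d : X → X → ℝ) (W : X × X → ℝ) (δ : ℝ) (π : X → ℝ) (c : X → X → ℝ)
    (K : ℕ) : (X × X → ℝ) →ₗ[ℝ] (X → ℝ) :=
  δ • ((∑ k ∈ range (2 * K), (stepL π c) ^ k) ∘ₗ dstar d W π)

theorem chainS_apply (d : X → X → ℝ) (W : X × X → ℝ) (δ : ℝ) (π : X → ℝ) (c : X → X → ℝ)
    (K : ℕ) (V : X × X → ℝ) :
    chainS d W δ π c K V = ∑ k ∈ range (2 * K), δ • ((stepL π c) ^ k) (dstar d W π V) := by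
  unfold chainS
  rw [LinearMap.smul_apply, LinearMap.comp_apply, LinearMap.sum_apply, Finset.smul_sum]

theorem chainS_sub_step (d : X → X → ℝ) (W : X × X → ℝ) (δ : ℝ) (π : X → ℝ) (c : X → X → ℝ)
    (K : ℕ) (V : X × X → ℝ) :
    chainS d W δ π c K V - stepL π c (chainS d W δ π c K V) =
      δ • (dstar d W π V - ((stepL π c) ^ (2 * K)) (dstar d W π V)) := by
  have key : (1 - stepL π c) * (∑ k ∈ range (2 * K), (stepL π c) ^ k) =
      1 - (stepL π c) ^ (2 * K) := by
    have := mul_neg_geom_sum (stepL π c) (2 * K)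
    exact this
  have := congrArg (fun L : Module.End ℝ (X → ℝ) => L (dstar d W π V)) key
  simp only [Module.End.mul_apply, LinearMap.sub_apply, Module.End.one_apply] at this
  unfold chainS
  rw [LinearMap.smul_apply, LinearMap.comp_apply, map_smul, ← smul_sub, this]

theorem chainS_grad (d : X → X → ℝ) (hd : IsDist d) (W : X × X → ℝ) (δ : ℝ) (hδ : 0 < δ)
    (π : X → ℝ) (c : X → X → ℝ)
    (hc : ∀ x y, c x y = δ * (W (x, y) / d x y ^ 2)) (K : ℕ) (f : X → ℝ) :
    chainS d W δ π c K (grad d f) = f - ((stepL π c) ^ (2 * K)) f := by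
  have key : (∑ k ∈ range (2 * K), (stepL π c) ^ k) * (1 - stepL π c) =
      1 - (stepL π c) ^ (2 * K) := geom_sum_mul_neg (stepL π c) (2 * K)
  have := congrArg (fun L : Module.End ℝ (X → ℝ) => L f) key
  simp only [Module.End.mul_apply, LinearMap.sub_apply, Module.End.one_apply] at this
  unfold chainS
  rw [LinearMap.smul_apply, LinearMap.comp_apply, ← map_smul, dstar_grad d hd W δ hδ π c hc, this]

/-- the L² bound -/
theorem chainS_L2 (d : X → X → ℝ) (hd : IsDist d) (W : X × X → ℝ)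
    (hW_symm : ∀ x y, W (x, y) = W (y, x)) (hW0 : ∀ e, 0 ≤ W e)
    (δ : ℝ) (hδ : 0 < δ) (π : X → ℝ) (c : X → X → ℝ)
    (hc : ∀ x y, c x y = δ * (W (x, y) / d x y ^ 2)) (h : IsChain π c) (K : ℕ)
    (V : X × X → ℝ) :
    ∑ e, W e * (grad d (chainS d W δ π c K V) e) ^ 2 ≤ ∑ e, W e * (V e) ^ 2 := by
  set u := chainS d W δ π c K V with hu
  set g := dstar d W π V with hg
  have e1 : bil π (u - stepL π c u) u = δ / 2 * ∑ e, W e * (grad d u e * grad d u e) :=
    energy_grad d W δ π c hc h u u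
  have e2 : bil π (u - stepL π c u) u = δ * (bil π g u - bil π (((stepL π c) ^ (2 * K)) g) u) := by
    rw [hu, chainS_sub_step, bil_smul_left, bil_sub_left]
  have e3 : 0 ≤ bil π (((stepL π c) ^ (2 * K)) g) u := by
    have : u = ∑ k ∈ range (2 * K), δ • ((stepL π c) ^ k) g := chainS_apply d W δ π c K V
    rw [this, bil_sum_right]
    refine Finset.sum_nonneg fun k _ => ?_
    rw [bil_smul_right]
    refine mul_nonneg hδ.le ?_
    rw [← step_pow_selfAdj h, ← Module.End.mul_apply, ← pow_add]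
    exact step_pow_pos h _ _
  have e4 : bil π g u = (1 / 2) * ∑ e, W e * (V e * grad d u e) :=
    bil_dstar d hd W hW_symm π h.pi_pos V u
  have e5 : ∑ e, W e * (grad d u e * grad d u e) ≤ ∑ e, W e * (V e * grad d u e) := by
    have : δ / 2 * ∑ e, W e * (grad d u e * grad d u e) ≤
        δ / 2 * ∑ e, W e * (V e * grad d u e) := by
      rw [← e1, e2]
      have : bil π g u - bil π (((stepL π c) ^ (2 * K)) g) u ≤ bil π g u := by linarith
      calc δ * (bil π g u - bil π (((stepL π c) ^ (2 * K)) g) u) ≤ δ * bil π g u :=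
            mul_le_mul_of_nonneg_left this hδ.le
        _ = δ / 2 * ∑ e, W e * (V e * grad d u e) := by rw [e4]; ring
    exact le_of_mul_le_mul_left this (by positivity)
  have e6 : ∑ e, W e * (V e * grad d u e) ≤
      (1 / 2) * ∑ e, W e * (V e) ^ 2 + (1 / 2) * ∑ e, W e * (grad d u e * grad d u e) := by
    rw [Finset.mul_sum, Finset.mul_sum, ← Finset.sum_add_distrib]
    refine Finset.sum_le_sum fun e _ => ?_
    nlinarith [mul_nonneg (hW0 e) (mul_self_nonneg (V e - grad d u e))]
  have e7 : ∑ e, W e * (grad d u e) ^ 2 = ∑ e, W e * (grad d u e * grad d u e) :=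
    Finset.sum_congr rfl fun e _ => by ring
  rw [e7]
  linarith

end Crest.Agent.R232
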