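import Mathlib

/-!
# R232 (S0358): shared definitions

`X` is a finite set of points, `E = X × X` ordered pairs, `d : X → X → ℝ` symmetric and positive off the
diagonal.  A *field* is a function `V : X × X → ℝ`.  `grad d f` is the discrete gradient field of
`f : X → ℝ` (it vanishes on the diagonal since there the numerator is `0`).
-/

set_option autoImplicit false

namespace Crest.Agent.R232

/-- discrete gradient: `(f x - f y) / d x y` -/
noncomputable def grad {X : Type*} (d : X → X → ℝ) (f : X → ℝ) (e : X × X) : ℝ :=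
  (f e.1 - f e.2) / d e.1 e.2

/-- standing assumptions on the distance-like function (no triangle inequality needed) -/
structure IsDist {X : Type*} (d : X → X → ℝ) : Prop where
  symm : ∀ x y, d x y = d y x
  pos : ∀ x y, x ≠ y → 0 < d x y

theorem grad_diag {X : Type*} (d : X → X → ℝ) (f : X → ℝ) (x : X) : grad d f (x, x) = 0 := by
  simp [grad]

theorem grad_swap {X : Type*} {d : X → X → ℝ} (hd : IsDist d) (f : X → ℝ) (x y : X) :
    grad d f (y, x) = - grad d f (x, y) := by
  simp only [grad, hd.symm y x]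
  ring

theorem grad_add {X : Type*} (d : X → X → ℝ) (f g : X → ℝ) (e : X × X) :
    grad d (f + g) e = grad d f e + grad d g e := by
  simp only [grad, Pi.add_apply]; ring

theorem grad_sub {X : Type*} (d : X → X → ℝ) (f g : X → ℝ) (e : X × X) :
    grad d (f - g) e = grad d f e - grad d g e := by
  simp only [grad, Pi.sub_apply]; ring

theorem grad_smul {X : Type*} (d : X → X → ℝ) (c : ℝ) (f : X → ℝ) (e : X × X) :
    grad d (c • f) e = c * grad d f e := by
  simp only [grad, Pi.smul_apply, smul_eq_mul]; ring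

/-- the dyadic level field `v^{≥ j}` : keep the entries of size at least `2^j` -/
noncomputable def lev {E : Type*} (v : E → ℝ) (j : ℤ) (e : E) : ℝ :=
  if (2 : ℝ) ^ j ≤ |v e| then v e else 0

/-- tent function on `ℤ`, supported on `0 < m < 2 * l`, with slopes `1 / l` and values in `[0, 1]`
(the window length is `L = 2 l`) -/
noncomputable def tent (l : ℕ) (m : ℤ) : ℝ :=
  max 0 (min ((m : ℝ) / l) ((2 * l - m : ℝ) / l))

/-- main field of amplitude index `k` : `2^k * φ (log₂|v| + k) * v` -/
noncomputable def mainF {E : Type*} (l : ℕ) (v : E → ℝ) (k : ℤ) (e : E) : ℝ :=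
  (2 : ℝ) ^ k * tent l (Int.log 2 |v e| + k) * v e

/-- `EE l g` : expectation of `g S` where `S` is the sum over the list entries `(q, a)` of independent
signs `ξ a`, `P(ξ = 1) = P(ξ = -1) = q / 2`, `P(ξ = 0) = 1 - q`. -/
noncomputable def EE {V : Type*} [AddCommGroup V] : List (ℝ × V) → (V → ℝ) → ℝ
  | [], g => g 0
  | (q, a) :: l, g =>
      (1 - q) * EE l g + q / 2 * EE l (fun s => g (s + a)) + q / 2 * EE l (fun s => g (s - a))

/- the equation lemmas of `EE` are generated here, once -/
theorem EE_nil_defs {V : Type*} [AddCommGroup V] (g : V → ℝ) :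
    EE ([] : List (ℝ × V)) g = g 0 := by
  rw [EE.eq_def]

theorem EE_nil_defs' {V : Type*} [AddCommGroup V] (g : V → ℝ) :
    EE ([] : List (ℝ × V)) g = g 0 := by
  rw [EE]

theorem EE_cons_defs {V : Type*} [AddCommGroup V] (q : ℝ) (a : V) (l : List (ℝ × V)) (g : V → ℝ) :
    EE ((q, a) :: l) g =
      (1 - q) * EE l g + q / 2 * EE l (fun s => g (s + a)) + q / 2 * EE l (fun s => g (s - a)) := by
  rw [EE]

theorem EE_nil_defs'' {V : Type*} [AddCommGroup V] (g : V → ℝ) :
    EE ([] : List (ℝ × V)) g = g 0 := by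
  simp only [EE]

theorem grad_defs {X : Type*} (d : X → X → ℝ) (f : X → ℝ) (e : X × X) :
    grad d f e = (f e.1 - f e.2) / d e.1 e.2 := by
  rw [grad.eq_def]

theorem grad_defs' {X : Type*} (d : X → X → ℝ) (f : X → ℝ) (e : X × X) :
    grad d f e = (f e.1 - f e.2) / d e.1 e.2 := by
  simp only [grad]

theorem lev_defs {E : Type*} (v : E → ℝ) (j : ℤ) (e : E) :
    lev v j e = if (2 : ℝ) ^ j ≤ |v e| then v e else 0 := by
  rw [lev.eq_def]

theorem lev_defs' {E : Type*} (v : E → ℝ) (j : ℤ) (e : E) :
    lev v j e = if (2 : ℝ) ^ j ≤ |v e| then v e else 0 := by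
  simp only [lev]

theorem tent_defs (l : ℕ) (m : ℤ) :
    tent l m = max 0 (min ((m : ℝ) / l) ((2 * l - m : ℝ) / l)) := by
  rw [tent.eq_def]

theorem tent_defs' (l : ℕ) (m : ℤ) :
    tent l m = max 0 (min ((m : ℝ) / l) ((2 * l - m : ℝ) / l)) := by
  simp only [tent]

theorem mainF_defs {E : Type*} (l : ℕ) (v : E → ℝ) (k : ℤ) (e : E) :
    mainF l v k e = (2 : ℝ) ^ k * tent l (Int.log 2 |v e| + k) * v e := by
  rw [mainF.eq_def]

theorem mainF_defs' {E : Type*} (l : ℕ) (v : E → ℝ) (k : ℤ) (e : E) :
    mainF l v k e = (2 : ℝ) ^ k * tent l (Int.log 2 |v e| + k) * v e := by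
  simp only [mainF]

/-- the exponent of the theorem -/
noncomputable def gam (p : ℝ) : ℝ := if p < 2 then 2 - p else 1 - 2 / p

theorem gam_defs (p : ℝ) : gam p = if p < 2 then 2 - p else 1 - 2 / p := by
  rw [gam.eq_def]

theorem gam_defs' (p : ℝ) : gam p = if p < 2 then 2 - p else 1 - 2 / p := by
  simp only [gam]

end Crest.Agent.R232
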