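import Crest.Agent.R232.Defs

/-! Basic facts on the expectation `EE l g` (R232). -/

set_option autoImplicit false

open Finset

namespace Crest.Agent.R232

variable {V : Type*} [AddCommGroup V]

@[simp] theorem EE_nil (g : V → ℝ) : EE ([] : List (ℝ × V)) g = g 0 := rfl

theorem EE_cons (q : ℝ) (a : V) (l : List (ℝ × V)) (g : V → ℝ) :
    EE ((q, a) :: l) g =
      (1 - q) * EE l g + q / 2 * EE l (fun s => g (s + a)) + q / 2 * EE l (fun s => g (s - a)) :=
  rfl

theorem EE_const (l : List (ℝ × V)) (c : ℝ) : EE l (fun _ => c) = c := by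
  induction l with
  | nil => rfl
  | cons x l ih =>
    obtain ⟨q, a⟩ := x
    rw [EE_cons, ih]; ring

theorem EE_add (l : List (ℝ × V)) : ∀ (g h : V → ℝ),
    EE l (fun s => g s + h s) = EE l g + EE l h := by
  induction l with
  | nil => intro g h; rfl
  | cons x l ih =>
    intro g h
    obtain ⟨q, a⟩ := x
    rw [EE_cons, EE_cons, EE_cons, ih g h, ih (fun s => g (s + a)) (fun s => h (s + a)),
      ih (fun s => g (s - a)) (fun s => h (s - a))]
    ring

theorem EE_smul (l : List (ℝ × V)) (c : ℝ) : ∀ (g : V → ℝ),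
    EE l (fun s => c * g s) = c * EE l g := by
  induction l with
  | nil => intro g; rfl
  | cons x l ih =>
    intro g
    obtain ⟨q, a⟩ := x
    rw [EE_cons, EE_cons, ih g, ih (fun s => g (s + a)), ih (fun s => g (s - a))]
    ring

theorem EE_mul_const (l : List (ℝ × V)) (c : ℝ) (g : V → ℝ) :
    EE l (fun s => g s * c) = EE l g * c := by
  have := EE_smul l c g
  simp only [mul_comm] at this ⊢
  exact this

theorem EE_neg (l : List (ℝ × V)) (g : V → ℝ) : EE l (fun s => - g s) = - EE l g := by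
  have := EE_smul l (-1) g
  simpa using this

theorem EE_sub (l : List (ℝ × V)) (g h : V → ℝ) :
    EE l (fun s => g s - h s) = EE l g - EE l h := by
  have h1 := EE_add l g (fun s => - h s)
  rw [EE_neg] at h1
  simpa [sub_eq_add_neg] using h1

theorem EE_sum (l : List (ℝ × V)) {E : Type*} (t : Finset E) (g : E → V → ℝ) :
    EE l (fun s => ∑ e ∈ t, g e s) = ∑ e ∈ t, EE l (g e) := by
  classical
  induction t using Finset.induction_on with
  | empty => simpa using EE_const l 0
  | insert e t he ih =>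
    rw [Finset.sum_insert he, ← ih, ← EE_add]
    congr 1
    funext s
    rw [Finset.sum_insert he]

theorem EE_mono (l : List (ℝ × V)) (hl : ∀ x ∈ l, 0 ≤ x.1 ∧ x.1 ≤ 1) : ∀ (g h : V → ℝ),
    (∀ s, g s ≤ h s) → EE l g ≤ EE l h := by
  induction l with
  | nil => intro g h hgh; exact hgh 0
  | cons x l ih =>
    intro g h hgh
    obtain ⟨q, a⟩ := x
    have hq := hl (q, a) (by simp)
    have ih' := ih (fun y hy => hl y (by simp [hy]))
    rw [EE_cons, EE_cons]
    have h1 := ih' g h hgh
    have h2 := ih' (fun s => g (s + a)) (fun s => h (s + a)) (fun s => hgh _)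
    have h3 := ih' (fun s => g (s - a)) (fun s => h (s - a)) (fun s => hgh _)
    have e1 := mul_le_mul_of_nonneg_left h1 (by linarith [hq.2] : (0:ℝ) ≤ 1 - q)
    have e2 := mul_le_mul_of_nonneg_left h2 (by linarith [hq.1] : (0:ℝ) ≤ q / 2)
    have e3 := mul_le_mul_of_nonneg_left h3 (by linarith [hq.1] : (0:ℝ) ≤ q / 2)
    linarith

theorem EE_nonneg (l : List (ℝ × V)) (hl : ∀ x ∈ l, 0 ≤ x.1 ∧ x.1 ≤ 1) (g : V → ℝ)
    (hg : ∀ s, 0 ≤ g s) : 0 ≤ EE l g := by
  have := EE_mono l hl (fun _ => 0) g hg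
  rwa [EE_const] at this

theorem EE_exists_le (l : List (ℝ × V)) (hl : ∀ x ∈ l, 0 ≤ x.1 ∧ x.1 ≤ 1) (g : V → ℝ) :
    ∃ s, g s ≤ EE l g := by
  revert g
  induction l with
  | nil => intro g; exact ⟨0, le_refl _⟩
  | cons x l ih =>
    intro g
    obtain ⟨q, a⟩ := x
    have hq := hl (q, a) (by simp)
    have ih' := ih (fun y hy => hl y (by simp [hy]))
    obtain ⟨s1, h1⟩ := ih' g
    obtain ⟨s2, h2⟩ := ih' (fun s => g (s + a))
    obtain ⟨s3, h3⟩ := ih' (fun s => g (s - a))
    by_contra hcon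
    push Not at hcon
    have k1 := hcon s1
    have k2 := hcon (s2 + a)
    have k3 := hcon (s3 - a)
    rw [EE_cons] at k1 k2 k3 hcon
    set A := EE l g
    set B := EE l (fun s => g (s + a))
    set C := EE l (fun s => g (s - a))
    have hA : (1 - q) * A + q / 2 * B + q / 2 * C < A := lt_of_lt_of_le k1 h1
    have hB : (1 - q) * A + q / 2 * B + q / 2 * C < B := lt_of_lt_of_le k2 h2
    have hC : (1 - q) * A + q / 2 * B + q / 2 * C < C := lt_of_lt_of_le k3 h3
    have e1 := mul_le_mul_of_nonneg_left hA.le (by linarith [hq.2] : (0:ℝ) ≤ 1 - q)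
    have e2 := mul_le_mul_of_nonneg_left hB.le (by linarith [hq.1] : (0:ℝ) ≤ q / 2)
    have e3 := mul_le_mul_of_nonneg_left hC.le (by linarith [hq.1] : (0:ℝ) ≤ q / 2)
    rcases lt_or_eq_of_le hq.2 with hlt | heq
    · have e1' := mul_lt_mul_of_pos_left hA (by linarith : (0:ℝ) < 1 - q)
      nlinarith
    · simp only at heq
      subst heq
      have e2' := mul_lt_mul_of_pos_left hB (by norm_num : (0:ℝ) < 1 / 2)
      nlinarith

theorem EE_map {W : Type*} [AddCommGroup W] (A : V →+ W) (l : List (ℝ × V)) : ∀ (g : W → ℝ),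
    EE (l.map fun x => (x.1, A x.2)) g = EE l (fun s => g (A s)) := by
  induction l with
  | nil => intro g; simp
  | cons x l ih =>
    intro g
    obtain ⟨q, a⟩ := x
    rw [List.map_cons, EE_cons, EE_cons, ih, ih, ih]
    simp only [map_add, map_sub]

end Crest.Agent.R232
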