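import Mathlib
import Crest.Agent.R232.Defs

/-!
R232 / EEBasic: elementary properties of the expectation `EE`.
-/

set_option autoImplicit false

namespace Crest.Agent.R232.EEB

open Crest.Agent.R232

variable {V : Type*} [AddCommGroup V]

theorem EE_nil (g : V → ℝ) : EE [] g = g 0 := rfl

theorem EE_cons (q : ℝ) (a : V) (l : List (ℝ × V)) (g : V → ℝ) :
    EE ((q, a) :: l) g = (1 - q) * EE l g + q / 2 * EE l (fun s => g (s + a)) +
      q / 2 * EE l (fun s => g (s - a)) := rfl

theorem EE_add (l : List (ℝ × V)) (g h : V → ℝ) :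
    EE l (fun s => g s + h s) = EE l g + EE l h := by
  induction l generalizing g h with
  | nil => rfl
  | cons x l ih =>
    obtain ⟨q, a⟩ := x
    rw [EE_cons, EE_cons, EE_cons, ih, ih (fun s => g (s + a)), ih (fun s => g (s - a))]
    ring

theorem EE_mul (l : List (ℝ × V)) (c : ℝ) (g : V → ℝ) :
    EE l (fun s => c * g s) = c * EE l g := by
  induction l generalizing g with
  | nil => rfl
  | cons x l ih =>
    obtain ⟨q, a⟩ := x
    rw [EE_cons, EE_cons, ih, ih (fun s => g (s + a)), ih (fun s => g (s - a))]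
    ring

theorem EE_neg (l : List (ℝ × V)) (g : V → ℝ) : EE l (fun s => - g s) = - EE l g := by
  have := EE_mul l (-1) g
  simpa using this

theorem EE_sub (l : List (ℝ × V)) (g h : V → ℝ) :
    EE l (fun s => g s - h s) = EE l g - EE l h := by
  have h1 : (fun s => g s - h s) = fun s => g s + (fun s => - h s) s := by
    funext s; ring
  rw [h1, EE_add, EE_neg]; ring

theorem EE_const (l : List (ℝ × V)) (c : ℝ) : EE l (fun _ : V => c) = c := by
  induction l with
  | nil => rfl
  | cons x l ih =>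
    obtain ⟨q, a⟩ := x
    rw [EE_cons, ih]; ring

theorem EE_sum {ι : Type*} (l : List (ℝ × V)) (t : Finset ι) (g : ι → V → ℝ) :
    EE l (fun s => ∑ i ∈ t, g i s) = ∑ i ∈ t, EE l (g i) := by
  classical
  induction t using Finset.induction_on with
  | empty => simpa using EE_const l 0
  | insert i t hi ih =>
    simp only [Finset.sum_insert hi]
    rw [EE_add, ih]

theorem EE_mono {l : List (ℝ × V)} (hl : ∀ x ∈ l, 0 ≤ x.1 ∧ x.1 ≤ 1) {g h : V → ℝ}
    (hgh : ∀ s, g s ≤ h s) : EE l g ≤ EE l h := by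
  induction l generalizing g h with
  | nil => exact hgh 0
  | cons x l ih =>
    obtain ⟨q, a⟩ := x
    have hq := hl (q, a) List.mem_cons_self
    simp only at hq
    have hl' : ∀ x ∈ l, 0 ≤ x.1 ∧ x.1 ≤ 1 := fun x hx => hl x (List.mem_cons_of_mem _ hx)
    rw [EE_cons, EE_cons]
    have h1 := ih hl' hgh
    have h2 := ih hl' (g := fun s => g (s + a)) (h := fun s => h (s + a)) (fun s => hgh _)
    have h3 := ih hl' (g := fun s => g (s - a)) (h := fun s => h (s - a)) (fun s => hgh _)
    have c1 : 0 ≤ 1 - q := by linarith [hq.2]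
    have c2 : 0 ≤ q / 2 := by linarith [hq.1]
    have := mul_le_mul_of_nonneg_left h1 c1
    have := mul_le_mul_of_nonneg_left h2 c2
    have := mul_le_mul_of_nonneg_left h3 c2
    linarith

theorem EE_nonneg {l : List (ℝ × V)} (hl : ∀ x ∈ l, 0 ≤ x.1 ∧ x.1 ≤ 1) {g : V → ℝ}
    (hg : ∀ s, 0 ≤ g s) : 0 ≤ EE l g := by
  have := EE_mono hl (g := fun _ => 0) (h := g) hg
  rwa [EE_const] at this

theorem EE_le_of_le {l : List (ℝ × V)} (hl : ∀ x ∈ l, 0 ≤ x.1 ∧ x.1 ≤ 1) {g : V → ℝ} {c : ℝ}
    (hg : ∀ s, g s ≤ c) : EE l g ≤ c := by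
  have := EE_mono hl (g := g) (h := fun _ => c) hg
  rwa [EE_const] at this

theorem le_EE_of_le {l : List (ℝ × V)} (hl : ∀ x ∈ l, 0 ≤ x.1 ∧ x.1 ≤ 1) {g : V → ℝ} {c : ℝ}
    (hg : ∀ s, c ≤ g s) : c ≤ EE l g := by
  have := EE_mono hl (g := fun _ => c) (h := g) hg
  rwa [EE_const] at this

/-- some value is at most the expectation -/
theorem exists_le_EE {l : List (ℝ × V)} (hl : ∀ x ∈ l, 0 ≤ x.1 ∧ x.1 ≤ 1) (g : V → ℝ) :
    ∃ s, g s ≤ EE l g := by
  induction l generalizing g with
  | nil => exact ⟨0, le_rfl⟩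
  | cons x l ih =>
    obtain ⟨q, a⟩ := x
    have hq := hl (q, a) List.mem_cons_self
    simp only at hq
    have hl' : ∀ x ∈ l, 0 ≤ x.1 ∧ x.1 ≤ 1 := fun x hx => hl x (List.mem_cons_of_mem _ hx)
    obtain ⟨s1, h1⟩ := ih hl' g
    obtain ⟨s2, h2⟩ := ih hl' (fun s => g (s + a))
    obtain ⟨s3, h3⟩ := ih hl' (fun s => g (s - a))
    rw [EE_cons]
    by_contra hc
    push Not at hc
    have k1 := hc s1
    have k2 := hc (s2 + a)
    have k3 := hc (s3 - a)
    set E := (1 - q) * EE l g + q / 2 * EE l (fun s => g (s + a)) +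
      q / 2 * EE l (fun s => g (s - a)) with hE
    have e1 : E < EE l g := lt_of_lt_of_le k1 h1
    have e2 : E < EE l (fun s => g (s + a)) := lt_of_lt_of_le k2 h2
    have e3 : E < EE l (fun s => g (s - a)) := lt_of_lt_of_le k3 h3
    have c1 : 0 ≤ 1 - q := by linarith [hq.2]
    have c2 : 0 ≤ q / 2 := by linarith [hq.1]
    rcases lt_or_ge 0 q with hq0 | hq0
    · have := mul_le_mul_of_nonneg_left e1.le c1
      have : q / 2 * E < q / 2 * EE l (fun s => g (s + a)) :=
        mul_lt_mul_of_pos_left e2 (by linarith)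
      have := mul_le_mul_of_nonneg_left e3.le c2
      linarith
    · have hq' : q = 0 := le_antisymm hq0 hq.1
      rw [hq'] at hE
      linarith

theorem EE_map {V' : Type*} [AddCommGroup V'] (A : V →+ V') (l : List (ℝ × V)) (g : V' → ℝ) :
    EE (l.map fun x => (x.1, A x.2)) g = EE l (fun s => g (A s)) := by
  induction l generalizing g with
  | nil => simp [EE_nil]
  | cons x l ih =>
    obtain ⟨q, a⟩ := x
    rw [List.map_cons, EE_cons, EE_cons, ih, ih (fun s => g (s + A a)), ih (fun s => g (s - A a))]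
    simp only [map_add, map_sub]

/-- one step, inside the expectation -/
theorem EE_cons' (q : ℝ) (a : V) (l : List (ℝ × V)) (g : V → ℝ) :
    EE ((q, a) :: l) g =
      EE l (fun s => (1 - q) * g s + q * ((g (s + a) + g (s - a)) / 2)) := by
  rw [EE_cons, EE_add, EE_mul, EE_mul]
  have : (fun s => (g (s + a) + g (s - a)) / 2) =
      fun s => (1 / 2) * (fun s => g (s + a) + g (s - a)) s := by
    funext s; ring
  rw [this, EE_mul, EE_add l (fun s => g (s + a)) (fun s => g (s - a))]
  ring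

end Crest.Agent.R232.EEB
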