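import Crest.Agent.R232.Defs

/-! # R232: basic facts on the expectation `EE` over independent sparse signs. -/

set_option autoImplicit false
set_option linter.unusedSectionVars false

open Finset

namespace Crest.Agent.R232.X

section
variable {V : Type*} [AddCommGroup V]

/-- standing assumption: all activation probabilities lie in `[0, 1]` -/
def IsProb (l : List (ℝ × V)) : Prop := ∀ x ∈ l, 0 ≤ x.1 ∧ x.1 ≤ 1

theorem IsProb.tail {x : ℝ × V} {l : List (ℝ × V)} (h : ∀ y ∈ x :: l, 0 ≤ y.1 ∧ y.1 ≤ 1) :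
    ∀ y ∈ l, 0 ≤ y.1 ∧ y.1 ≤ 1 := fun y hy => h y (List.mem_cons_of_mem _ hy)

theorem IsProb.head {x : ℝ × V} {l : List (ℝ × V)} (h : ∀ y ∈ x :: l, 0 ≤ y.1 ∧ y.1 ≤ 1) :
    0 ≤ x.1 ∧ x.1 ≤ 1 := h x (List.mem_cons_self)

@[simp] theorem EE_nil (g : V → ℝ) : EE ([] : List (ℝ × V)) g = g 0 := by
  rw [EE]

theorem EE_cons (x : ℝ × V) (l : List (ℝ × V)) (g : V → ℝ) :
    EE (x :: l) g = (1 - x.1) * EE l g + x.1 / 2 * EE l (fun s => g (s + x.2)) +
      x.1 / 2 * EE l (fun s => g (s - x.2)) := by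
  obtain ⟨q, a⟩ := x
  rw [EE]

theorem EE_add (l : List (ℝ × V)) (f g : V → ℝ) :
    EE l (fun s => f s + g s) = EE l f + EE l g := by
  induction l generalizing f g with
  | nil => simp
  | cons x l ih =>
    rw [EE_cons, EE_cons, EE_cons, ih, ih, ih]
    ring

theorem EE_const_mul (l : List (ℝ × V)) (c : ℝ) (g : V → ℝ) :
    EE l (fun s => c * g s) = c * EE l g := by
  induction l generalizing g with
  | nil => simp
  | cons x l ih =>
    rw [EE_cons, EE_cons, ih, ih, ih]
    ring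

theorem EE_mul_const (l : List (ℝ × V)) (c : ℝ) (g : V → ℝ) :
    EE l (fun s => g s * c) = EE l g * c := by
  have := EE_const_mul l c g
  simp only [mul_comm c] at this
  exact this

theorem EE_neg (l : List (ℝ × V)) (g : V → ℝ) :
    EE l (fun s => - g s) = - EE l g := by
  have := EE_const_mul l (-1) g
  simpa using this

theorem EE_sub (l : List (ℝ × V)) (f g : V → ℝ) :
    EE l (fun s => f s - g s) = EE l f - EE l g := by
  have h := EE_add l f (fun s => - g s)
  rw [EE_neg] at h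
  simpa [sub_eq_add_neg] using h

theorem EE_div_const (l : List (ℝ × V)) (c : ℝ) (g : V → ℝ) :
    EE l (fun s => g s / c) = EE l g / c := by
  simp only [div_eq_mul_inv]
  exact EE_mul_const l _ g

theorem EE_const (l : List (ℝ × V)) (c : ℝ) : EE l (fun _ => c) = c := by
  induction l with
  | nil => simp
  | cons x l ih =>
    rw [EE_cons, ih]
    ring

theorem EE_sum {ι : Type*} (t : Finset ι) (l : List (ℝ × V)) (g : ι → V → ℝ) :
    EE l (fun s => ∑ i ∈ t, g i s) = ∑ i ∈ t, EE l (g i) := by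
  classical
  induction t using Finset.induction_on with
  | empty => simp [EE_const]
  | insert i t hi ih =>
    simp only [Finset.sum_insert hi]
    rw [EE_add, ih]

theorem EE_mono {l : List (ℝ × V)} (hl : ∀ x ∈ l, 0 ≤ x.1 ∧ x.1 ≤ 1) {f g : V → ℝ}
    (h : ∀ s, f s ≤ g s) : EE l f ≤ EE l g := by
  induction l generalizing f g with
  | nil => simpa using h 0
  | cons x l ih =>
    have hx := IsProb.head hl
    have hl' := IsProb.tail hl
    rw [EE_cons, EE_cons]
    have h1 := mul_le_mul_of_nonneg_left (ih hl' h) (sub_nonneg.2 hx.2)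
    have hq : 0 ≤ x.1 / 2 := by linarith [hx.1]
    have h2 := mul_le_mul_of_nonneg_left (ih hl' (fun s => h (s + x.2))) hq
    have h3 := mul_le_mul_of_nonneg_left (ih hl' (fun s => h (s - x.2))) hq
    linarith

theorem EE_nonneg {l : List (ℝ × V)} (hl : ∀ x ∈ l, 0 ≤ x.1 ∧ x.1 ≤ 1) {g : V → ℝ}
    (h : ∀ s, 0 ≤ g s) : 0 ≤ EE l g := by
  have := EE_mono hl (f := fun _ => (0 : ℝ)) (g := g) h
  rwa [EE_const] at this

theorem EE_le_const {l : List (ℝ × V)} (hl : ∀ x ∈ l, 0 ≤ x.1 ∧ x.1 ≤ 1) {g : V → ℝ} {c : ℝ}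
    (h : ∀ s, g s ≤ c) : EE l g ≤ c := by
  have := EE_mono hl (g := fun _ => c) (f := g) h
  rwa [EE_const] at this

theorem const_le_EE {l : List (ℝ × V)} (hl : ∀ x ∈ l, 0 ≤ x.1 ∧ x.1 ≤ 1) {g : V → ℝ} {c : ℝ}
    (h : ∀ s, c ≤ g s) : c ≤ EE l g := by
  have := EE_mono hl (f := fun _ => c) (g := g) h
  rwa [EE_const] at this

theorem exists_le_of_EE_le {l : List (ℝ × V)} (hl : ∀ x ∈ l, 0 ≤ x.1 ∧ x.1 ≤ 1) {g : V → ℝ}
    {c : ℝ} (h : EE l g ≤ c) : ∃ s, g s ≤ c := by
  induction l generalizing g with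
  | nil => exact ⟨0, by simpa using h⟩
  | cons x l ih =>
    have hx := IsProb.head hl
    have hl' := IsProb.tail hl
    rw [EE_cons] at h
    by_contra hcon
    push Not at hcon
    have h1 : c < EE l g := by
      by_contra hc
      obtain ⟨s, hs⟩ := ih hl' (not_lt.1 hc)
      exact absurd (hcon s) (not_lt.2 hs)
    have h2 : c < EE l (fun s => g (s + x.2)) := by
      by_contra hc
      obtain ⟨s, hs⟩ := ih hl' (not_lt.1 hc)
      exact absurd (hcon (s + x.2)) (not_lt.2 hs)
    have h3 : c < EE l (fun s => g (s - x.2)) := by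
      by_contra hc
      obtain ⟨s, hs⟩ := ih hl' (not_lt.1 hc)
      exact absurd (hcon (s - x.2)) (not_lt.2 hs)
    obtain ⟨hx0, hx1⟩ := hx
    rcases eq_or_lt_of_le hx1 with h01 | h01
    · rw [h01] at h
      linarith
    · have hm1 : (1 - x.1) * c < (1 - x.1) * EE l g :=
        mul_lt_mul_of_pos_left h1 (by linarith)
      have hm2 : x.1 / 2 * c ≤ x.1 / 2 * EE l (fun s => g (s + x.2)) :=
        mul_le_mul_of_nonneg_left h2.le (by linarith)
      have hm3 : x.1 / 2 * c ≤ x.1 / 2 * EE l (fun s => g (s - x.2)) :=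
        mul_le_mul_of_nonneg_left h3.le (by linarith)
      linarith

theorem exists_lt_of_EE_lt {l : List (ℝ × V)} (hl : ∀ x ∈ l, 0 ≤ x.1 ∧ x.1 ≤ 1) {g : V → ℝ}
    {c : ℝ} (h : EE l g < c) : ∃ s, g s < c := by
  obtain ⟨s, hs⟩ := exists_le_of_EE_le hl (le_refl (EE l g))
  exact ⟨s, lt_of_le_of_lt hs h⟩

theorem exists_ge_of_le_EE {l : List (ℝ × V)} (hl : ∀ x ∈ l, 0 ≤ x.1 ∧ x.1 ≤ 1) {g : V → ℝ}
    {c : ℝ} (h : c ≤ EE l g) : ∃ s, c ≤ g s := by
  have h' : EE l (fun s => - g s) ≤ -c := by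
    rw [EE_neg]; linarith
  obtain ⟨s, hs⟩ := exists_le_of_EE_le hl h'
  exact ⟨s, by linarith⟩

/-- pushing forward along an additive map -/
theorem EE_map {W : Type*} [AddCommGroup W] (A : V →+ W) (l : List (ℝ × V)) (g : W → ℝ) :
    EE (l.map fun x => (x.1, A x.2)) g = EE l (fun s => g (A s)) := by
  induction l generalizing g with
  | nil => simp
  | cons x l ih =>
    rw [List.map_cons, EE_cons, EE_cons, ih, ih, ih]
    simp only [map_add, map_sub]

/-- each entry acts as the first one: `EE` of the list `x :: l` by first adding `x` -/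
theorem EE_cons' (x : ℝ × V) (l : List (ℝ × V)) (g : V → ℝ) :
    EE (x :: l) g =
      EE l (fun s => (1 - x.1) * g s + x.1 / 2 * g (s + x.2) + x.1 / 2 * g (s - x.2)) := by
  rw [EE_cons, EE_add, EE_add, EE_const_mul, EE_const_mul, EE_const_mul]

/-- `EE` is symmetric under `s ↦ -s` -/
theorem EE_comp_neg (l : List (ℝ × V)) (g : V → ℝ) :
    EE l (fun s => g (-s)) = EE l g := by
  induction l generalizing g with
  | nil => simp
  | cons x l ih =>
    rw [EE_cons, EE_cons, ih]
    have h1 : EE l (fun s => g (-(s + x.2))) = EE l (fun s => g (s - x.2)) := by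
      rw [← ih (fun s => g (s - x.2))]
      congr 1; funext s; congr 1; abel
    have h2 : EE l (fun s => g (-(s - x.2))) = EE l (fun s => g (s + x.2)) := by
      rw [← ih (fun s => g (s + x.2))]
      congr 1; funext s; congr 1; abel
    rw [h1, h2]; ring

theorem EE_append (l l' : List (ℝ × V)) (g : V → ℝ) :
    EE (l ++ l') g = EE l (fun s => EE l' (fun t => g (s + t))) := by
  induction l generalizing g with
  | nil => simp
  | cons x l ih =>
    rw [List.cons_append, EE_cons, EE_cons, ih, ih, ih]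
    have h1 : ∀ s t : V, s + t + x.2 = s + x.2 + t := fun s t => by abel
    have h2 : ∀ s t : V, s + t - x.2 = s - x.2 + t := fun s t => by abel
    simp only [h1, h2]

/-- triangle inequality -/
theorem abs_EE_le {l : List (ℝ × V)} (hl : ∀ x ∈ l, 0 ≤ x.1 ∧ x.1 ≤ 1) (g : V → ℝ) :
    |EE l g| ≤ EE l (fun s => |g s|) := by
  rw [abs_le]
  constructor
  · rw [← EE_neg]
    exact EE_mono hl (fun s => neg_abs_le (g s))
  · exact EE_mono hl (fun s => le_abs_self (g s))

end

end Crest.Agent.R232.X
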