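import Mathlib

set_option autoImplicit false
open MeasureTheory
open scoped ENNReal

namespace Crest.Agent.R232

universe u

/-- The simple function with values in `Fin n → ℝ` made of `n` simple functions. -/
noncomputable def piSF {α : Type u} [MeasurableSpace α] {n : ℕ} (f : Fin n → SimpleFunc α ℝ) :
    SimpleFunc α (Fin n → ℝ) where
  toFun a := fun i => f i a
  measurableSet_fiber' v := by
    have : (fun a => fun i => f i a) ⁻¹' {v} = ⋂ i, (f i) ⁻¹' {v i} := by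
      ext a
      simp [funext_iff]
    rw [this]
    exact MeasurableSet.iInter fun i => (f i).measurableSet_fiber (v i)
  finite_range' := by
    refine (Set.Finite.pi' (fun i => (f i).finite_range)).subset ?_
    rintro _ ⟨a, rfl⟩ i
    exact ⟨a, rfl⟩

/-- Norm of a difference of two members of the simple-function family as a finite sum. -/
theorem lintegral_piSF {α : Type u} [MeasurableSpace α] (μ : Measure α) {n : ℕ}
    (f : Fin n → SimpleFunc α ℝ) (q : ℝ) (i j : Fin n) :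
    ∫⁻ a, ‖f i a - f j a‖ₑ ^ q ∂μ =
      ∑ v ∈ (piSF f).range, ‖v i - v j‖ₑ ^ q * μ ((piSF f) ⁻¹' {v}) := by
  rw [← SimpleFunc.map_lintegral (fun v : Fin n → ℝ => ‖v i - v j‖ₑ ^ q) (piSF f),
    ← SimpleFunc.lintegral_eq_lintegral]
  rfl

theorem finApprox {p : ℝ≥0∞} [Fact (1 ≤ p)] (hptop : p ≠ ⊤) {α : Type u} [MeasurableSpace α]
    (μ : Measure α) {n : ℕ} (x : Fin n → Lp ℝ p μ) (hx : Function.Injective x)
    {ε : ℝ} (hε : 0 < ε) :
    ∃ (m : ℕ) (y : Fin n → Fin m → ℝ), ∀ i j,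
      (1 - ε) * ‖x i - x j‖ ≤ (∑ w, |y i w - y j w| ^ p.toReal) ^ (1 / p.toReal) ∧
      (∑ w, |y i w - y j w| ^ p.toReal) ^ (1 / p.toReal) ≤ (1 + ε) * ‖x i - x j‖ := by
  classical
  have hp1 : 1 ≤ p := Fact.out
  have hp0 : p ≠ 0 := (lt_of_lt_of_le one_pos hp1).ne'
  have hpr : 0 < p.toReal := ENNReal.toReal_pos hp0 hptop
  -- minimal distance
  obtain ⟨δ, hδ, hδle⟩ : ∃ δ > 0, ∀ i j, i ≠ j → 2 * δ ≤ ε * ‖x i - x j‖ := by
    have hfin : (Set.range (fun q : {q : Fin n × Fin n // q.1 ≠ q.2} =>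
        ε * ‖x q.1.1 - x q.1.2‖ / 2)).Finite := Set.finite_range _
    rcases isEmpty_or_nonempty {q : Fin n × Fin n // q.1 ≠ q.2} with he | hne
    · exact ⟨1, one_pos, fun i j hij => (he.false ⟨(i, j), hij⟩).elim⟩
    · obtain ⟨q, hq⟩ := Finite.exists_min (fun q : {q : Fin n × Fin n // q.1 ≠ q.2} =>
        ε * ‖x q.1.1 - x q.1.2‖ / 2)
      refine ⟨ε * ‖x q.1.1 - x q.1.2‖ / 2, ?_, fun i j hij => ?_⟩
      · have : 0 < ‖x q.1.1 - x q.1.2‖ := norm_pos_iff.mpr (sub_ne_zero.mpr (hx.ne q.2))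
        positivity
      · have := hq ⟨(i, j), hij⟩
        simp only at this
        linarith
  -- approximate
  have happ : ∀ i, ∃ s : Lp.simpleFunc ℝ p μ, ‖x i - (s : Lp ℝ p μ)‖ < δ := by
    intro i
    have := (Lp.simpleFunc.dense (E := ℝ) (μ := μ) hptop) (x i)
    rw [Metric.mem_closure_iff] at this
    obtain ⟨b, hb, hlt⟩ := this δ hδ
    exact ⟨⟨b, hb⟩, by rwa [dist_eq_norm] at hlt⟩
  choose s hs using happ
  let f : Fin n → SimpleFunc α ℝ := fun i => Lp.simpleFunc.toSimpleFunc (s i)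
  have hfs : ∀ i, (f i : α → ℝ) =ᵐ[μ] ((s i : Lp ℝ p μ) : α → ℝ) := fun i =>
    Lp.simpleFunc.toSimpleFunc_eq_toFun (s i)
  have hfm : ∀ i, MemLp (f i) p μ := fun i => Lp.simpleFunc.memLp (s i)
  let F := piSF f
  -- finite measure of the atoms
  have hatom : ∀ v ∈ F.range, v ≠ 0 → μ (F ⁻¹' {v}) < ⊤ := by
    intro v _ hv
    obtain ⟨i, hi⟩ : ∃ i, v i ≠ 0 := by
      by_contra hcon
      push Not at hcon
      exact hv (funext hcon)
    have h1 : F ⁻¹' {v} ⊆ (f i) ⁻¹' {v i} := by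
      intro a ha
      have ha' : (fun k => f k a) = v := ha
      simp [← ha']
    have h2 : μ ((f i) ⁻¹' {v i}) < ⊤ :=
      SimpleFunc.measure_preimage_lt_top_of_memLp hp0 hptop (f i) (hfm i) (v i) hi
    exact lt_of_le_of_lt (measure_mono h1) h2
  let e := F.range.equivFin
  refine ⟨F.range.card, fun i w =>
    ((μ (F ⁻¹' {((e.symm w : F.range) : Fin n → ℝ)})).toReal) ^ (1 / p.toReal) *
      ((e.symm w : F.range) : Fin n → ℝ) i, ?_⟩
  -- the finite sum is the norm of s i - s j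
  have hkey : ∀ i j, (∑ w, |((μ (F ⁻¹' {((e.symm w : F.range) : Fin n → ℝ)})).toReal)
        ^ (1 / p.toReal) * ((e.symm w : F.range) : Fin n → ℝ) i -
      ((μ (F ⁻¹' {((e.symm w : F.range) : Fin n → ℝ)})).toReal) ^ (1 / p.toReal) *
      ((e.symm w : F.range) : Fin n → ℝ) j| ^ p.toReal) ^ (1 / p.toReal) =
      ‖(s i : Lp ℝ p μ) - (s j : Lp ℝ p μ)‖ := by
    intro i j
    have h1 : ‖(s i : Lp ℝ p μ) - (s j : Lp ℝ p μ)‖ =
        ((∫⁻ a, ‖f i a - f j a‖ₑ ^ p.toReal ∂μ) ^ (1 / p.toReal)).toReal := by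
      rw [Lp.norm_def, eLpNorm_eq_lintegral_rpow_enorm_toReal hp0 hptop]
      congr 2
      apply lintegral_congr_ae
      filter_upwards [Lp.coeFn_sub (s i : Lp ℝ p μ) (s j : Lp ℝ p μ), hfs i, hfs j]
        with a h1 h2 h3
      rw [h1, Pi.sub_apply, h2, h3]
    rw [h1, lintegral_piSF μ f p.toReal i j, ← ENNReal.toReal_rpow]
    congr 1
    rw [ENNReal.toReal_sum]
    · rw [← Finset.sum_coe_sort F.range, ← Equiv.sum_comp e.symm]
      refine Finset.sum_congr rfl fun w _ => ?_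
      rw [← mul_sub, abs_mul, Real.mul_rpow (abs_nonneg _) (abs_nonneg _), ENNReal.toReal_mul,
        abs_of_nonneg (Real.rpow_nonneg ENNReal.toReal_nonneg _),
        ← Real.rpow_mul ENNReal.toReal_nonneg, one_div, inv_mul_cancel₀ hpr.ne', Real.rpow_one,
        mul_comm]
      congr 1
      rw [← ENNReal.toReal_rpow, toReal_enorm, Real.norm_eq_abs]
    · intro v hv
      by_cases hv0 : v = 0
      · subst hv0
        simp [hpr]
      · exact ENNReal.mul_ne_top (ENNReal.rpow_ne_top_of_nonneg hpr.le (by simp))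
          (hatom v hv hv0).ne
  intro i j
  rw [hkey i j]
  by_cases hij : i = j
  · subst hij
    simp
  have hd := hδle i j hij
  have htri : |‖(s i : Lp ℝ p μ) - (s j : Lp ℝ p μ)‖ - ‖x i - x j‖| ≤ 2 * δ := by
    refine (abs_norm_sub_norm_le _ _).trans ?_
    have : (s i : Lp ℝ p μ) - (s j : Lp ℝ p μ) - (x i - x j) =
        (x j - (s j : Lp ℝ p μ)) - (x i - (s i : Lp ℝ p μ)) := by abel
    rw [this]
    refine (norm_sub_le _ _).trans ?_
    linarith [hs i, hs j]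
  rw [abs_le] at htri
  constructor
  · nlinarith [htri.1]
  · nlinarith [htri.2]

end Crest.Agent.R232
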