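import Mathlib

/-!
# Finite models of finite subsets of `L^p` spaces

Every finite family of distinct points of an `L^p` space (`1 ≤ p < ∞`) can be replaced, up to a
factor `1 ± ε` on all distances, by a family of points of `ℓ^p_N`.
-/

set_option autoImplicit false

open MeasureTheory
open scoped ENNReal

namespace Crest.Agent.R232

universe u

/-- The joint simple function of a finite family. -/
noncomputable def jointSimple {α : Type u} [MeasurableSpace α] {n : ℕ} (s : Fin n → SimpleFunc α ℝ) :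
    SimpleFunc α (Fin n → ℝ) where
  toFun a := fun i => s i a
  measurableSet_fiber' v := by
    have : (fun a => fun i => s i a) ⁻¹' {v} = ⋂ i, (s i) ⁻¹' {v i} := by
      ext a
      simp [funext_iff]
    rw [this]
    exact MeasurableSet.iInter fun i => (s i).measurableSet_fiber _
  finite_range' := by
    refine Set.Finite.subset (Set.Finite.pi' fun i => (s i).finite_range) ?_
    rintro _ ⟨a, rfl⟩ i
    exact ⟨a, rfl⟩

@[simp] theorem jointSimple_apply {α : Type u} [MeasurableSpace α] {n : ℕ}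
    (s : Fin n → SimpleFunc α ℝ) (a : α) (i : Fin n) : jointSimple s a i = s i a := rfl

/-- Isometric model for a finite family of simple functions. -/
theorem exists_model_simple (p : ℝ≥0∞) [hp1 : Fact (1 ≤ p)] (hptop : p ≠ ⊤)
    {α : Type u} [MeasurableSpace α] (μ : Measure α) {n : ℕ}
    (s : Fin n → SimpleFunc α ℝ) (hs : ∀ i, MemLp (s i) p μ) :
    ∃ (N : ℕ) (z : Fin n → PiLp p (fun _ : Fin N => ℝ)),
      ∀ i j, ‖z i - z j‖ = (eLpNorm (fun a => s i a - s j a) p μ).toReal := by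
  classical
  have hp0 : p ≠ 0 := (zero_lt_one.trans_le hp1.out).ne'
  have hppos : 0 < p.toReal := ENNReal.toReal_pos hp0 hptop
  set S := jointSimple s with hS
  set R := S.range with hR
  let e : Fin R.card ≃ R := R.equivFin.symm
  refine ⟨R.card, fun i => WithLp.toLp p (fun k => (e k).1 i *
    (μ (S ⁻¹' {(e k).1})).toReal ^ (1 / p.toReal)), fun i j => ?_⟩
  have hfin : ∀ v : Fin n → ℝ, v i ≠ v j → μ (S ⁻¹' {v}) < ⊤ := by
    intro v hv
    have : v i ≠ 0 ∨ v j ≠ 0 := by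
      by_contra h
      push_neg at h
      exact hv (h.1.trans h.2.symm)
    have key : ∀ l : Fin n, v l ≠ 0 → μ (S ⁻¹' {v}) < ⊤ := by
      intro l hl
      refine lt_of_le_of_lt (measure_mono ?_)
        (SimpleFunc.measure_preimage_lt_top_of_memLp hp0 hptop (s l) (hs l) (v l) hl)
      intro a ha
      simp only [Set.mem_preimage, Set.mem_singleton_iff] at ha ⊢
      rw [← ha]
      rfl
    rcases this with h | h
    · exact key i h
    · exact key j h
  rw [PiLp.norm_eq_sum hppos, eLpNorm_eq_lintegral_rpow_enorm_toReal hp0 hptop,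
    ← ENNReal.toReal_rpow]
  congr 1
  have h1 : (fun a => ‖s i a - s j a‖ₑ ^ p.toReal) =
      (S.map (fun v : Fin n → ℝ => ‖v i - v j‖ₑ ^ p.toReal)) := by
    funext a
    rfl
  rw [h1, SimpleFunc.lintegral_eq_lintegral, SimpleFunc.map_lintegral, ← hR,
    ENNReal.toReal_sum]
  · rw [← Finset.sum_coe_sort R, ← Equiv.sum_comp e]
    refine Finset.sum_congr rfl fun k _ => ?_
    have h2 : ((WithLp.toLp p fun k => (e k).1 i * (μ (S ⁻¹' {(e k).1})).toReal ^ (1 / p.toReal)) -
        (WithLp.toLp p fun k => (e k).1 j * (μ (S ⁻¹' {(e k).1})).toReal ^ (1 / p.toReal)) :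
        PiLp p (fun _ : Fin R.card => ℝ)).ofLp k =
        ((e k).1 i - (e k).1 j) * (μ (S ⁻¹' {(e k).1})).toReal ^ (1 / p.toReal) := by
      simp [sub_mul]
    rw [h2, norm_mul, Real.mul_rpow (norm_nonneg _) (norm_nonneg _),
      Real.norm_of_nonneg (Real.rpow_nonneg ENNReal.toReal_nonneg _),
      ← Real.rpow_mul ENNReal.toReal_nonneg, one_div, inv_mul_cancel₀ hppos.ne', Real.rpow_one,
      ENNReal.toReal_mul, ← ENNReal.toReal_rpow]
    simp
  · intro v _
    by_cases hv : v i = v j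
    · simp [hv, hppos]
    · exact ENNReal.mul_ne_top (ENNReal.rpow_ne_top_of_nonneg hppos.le enorm_ne_top)
        (hfin v hv).ne

theorem exists_finite_model (p : ℝ≥0∞) [hp1 : Fact (1 ≤ p)] (hptop : p ≠ ⊤)
    {α : Type u} [MeasurableSpace α] (μ : Measure α) {n : ℕ} (x : Fin n → Lp ℝ p μ)
    (hx : Function.Injective x) (ε : ℝ) (hε : 0 < ε) :
    ∃ (N : ℕ) (z : Fin n → PiLp p (fun _ : Fin N => ℝ)),
      ∀ i j, (1 - ε) * ‖x i - x j‖ ≤ ‖z i - z j‖ ∧ ‖z i - z j‖ ≤ (1 + ε) * ‖x i - x j‖ := by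
  classical
  -- a positive lower bound for all distances
  obtain ⟨δ, hδ, hδx⟩ : ∃ δ : ℝ, 0 < δ ∧ ∀ i j, i ≠ j → δ ≤ ‖x i - x j‖ := by
    by_cases hne : ((Finset.univ : Finset (Fin n × Fin n)).filter (fun q => q.1 ≠ q.2)).Nonempty
    · obtain ⟨q, hq, hmin⟩ := Finset.exists_min_image _ (fun q : Fin n × Fin n => ‖x q.1 - x q.2‖) hne
      refine ⟨‖x q.1 - x q.2‖, ?_, fun i j hij => hmin (i, j) (by simp [hij])⟩
      have : q.1 ≠ q.2 := by simpa using hq
      exact norm_pos_iff.2 (sub_ne_zero.2 (hx.ne this))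
    · refine ⟨1, one_pos, fun i j hij => absurd ⟨(i, j), by simp [hij]⟩ hne⟩
  set η : ℝ := ε * δ / 2 with hη
  have hηpos : 0 < η := by positivity
  have hap : ∀ i, ∃ g : SimpleFunc α ℝ, eLpNorm ((x i : α → ℝ) - ⇑g) p μ < ENNReal.ofReal η ∧
      MemLp g p μ := fun i =>
    (Lp.memLp (x i)).exists_simpleFunc_eLpNorm_sub_lt hptop (by simpa using hηpos)
  choose s hs1 hs2 using hap
  obtain ⟨N, z, hz⟩ := exists_model_simple p hptop μ s hs2
  refine ⟨N, z, fun i j => ?_⟩
  have hnorm : ∀ i, ‖x i - (hs2 i).toLp (s i)‖ ≤ η := by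
    intro i
    rw [Lp.norm_def]
    have : eLpNorm (↑↑(x i - (hs2 i).toLp (s i))) p μ = eLpNorm ((x i : α → ℝ) - ⇑(s i)) p μ := by
      refine eLpNorm_congr_ae ?_
      filter_upwards [Lp.coeFn_sub (x i) ((hs2 i).toLp (s i)), (hs2 i).coeFn_toLp] with a h1 h2
      rw [h1, Pi.sub_apply, Pi.sub_apply, h2]
    rw [this]
    exact ENNReal.toReal_le_of_le_ofReal hηpos.le (hs1 i).le
  have hzz : ‖z i - z j‖ = ‖(hs2 i).toLp (s i) - (hs2 j).toLp (s j)‖ := by
    rw [hz i j, Lp.norm_def]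
    congr 1
    refine eLpNorm_congr_ae ?_
    filter_upwards [Lp.coeFn_sub ((hs2 i).toLp (s i)) ((hs2 j).toLp (s j)), (hs2 i).coeFn_toLp,
      (hs2 j).coeFn_toLp] with a h1 h2 h3
    rw [h1, Pi.sub_apply, h2, h3]
  rcases eq_or_ne i j with rfl | hij
  · simp
  · have hd := hδx i j hij
    have h1 : ‖x i - x j‖ ≤ ‖z i - z j‖ + 2 * η := by
      rw [hzz]
      have : x i - x j = (x i - (hs2 i).toLp (s i)) + ((hs2 i).toLp (s i) - (hs2 j).toLp (s j)) -
        (x j - (hs2 j).toLp (s j)) := by abel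
      calc ‖x i - x j‖ ≤ ‖(x i - (hs2 i).toLp (s i)) +
            ((hs2 i).toLp (s i) - (hs2 j).toLp (s j))‖ + ‖x j - (hs2 j).toLp (s j)‖ := by
            rw [this]; exact norm_sub_le _ _
        _ ≤ ‖x i - (hs2 i).toLp (s i)‖ + ‖(hs2 i).toLp (s i) - (hs2 j).toLp (s j)‖ +
            ‖x j - (hs2 j).toLp (s j)‖ := by gcongr; exact norm_add_le _ _
        _ ≤ _ := by linarith [hnorm i, hnorm j]
    have h2 : ‖z i - z j‖ ≤ ‖x i - x j‖ + 2 * η := by
      rw [hzz]
      have : (hs2 i).toLp (s i) - (hs2 j).toLp (s j) = (x i - x j) -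
        (x i - (hs2 i).toLp (s i)) + (x j - (hs2 j).toLp (s j)) := by abel
      calc ‖(hs2 i).toLp (s i) - (hs2 j).toLp (s j)‖ ≤ ‖(x i - x j) -
            (x i - (hs2 i).toLp (s i))‖ + ‖x j - (hs2 j).toLp (s j)‖ := by
            rw [this]; exact norm_add_le _ _
        _ ≤ ‖x i - x j‖ + ‖x i - (hs2 i).toLp (s i)‖ + ‖x j - (hs2 j).toLp (s j)‖ := by
            gcongr; exact norm_sub_le _ _
        _ ≤ _ := by linarith [hnorm i, hnorm j]
    have h3 : 2 * η ≤ ε * ‖x i - x j‖ := by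
      rw [hη]
      nlinarith
    constructor <;> linarith

end Crest.Agent.R232
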