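import Crest.Agent.R232.Defs

/-! # R232: dyadic levels, Abel summation for the main field (shared by T4 and T5) -/

set_option autoImplicit false

open Finset

namespace Crest.Agent.R232

/-! ## geometric sums -/

theorem two_rpow_neg_lt_one {r : ℝ} (hr : 0 < r) : (2 : ℝ) ^ (-r) < 1 :=
  Real.rpow_lt_one_of_one_lt_of_neg (by norm_num) (by linarith)

theorem one_sub_two_rpow_pos {r : ℝ} (hr : 0 < r) : 0 < 1 - (2 : ℝ) ^ (-r) := by
  have := two_rpow_neg_lt_one hr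
  linarith

theorem sum_dyadic_le (r : ℝ) (hr : 0 < r) (x : ℝ) (hx : 0 < x) (J : Finset ℤ) :
    ∑ j ∈ J with (2 : ℝ) ^ j ≤ x, ((2 : ℝ) ^ j) ^ r ≤ x ^ r / (1 - (2 : ℝ) ^ (-r)) := by
  set i : ℤ := Int.log 2 x with hi
  have hmem : ∀ j : ℤ, (2 : ℝ) ^ j ≤ x ↔ j ≤ i := fun j => by
    have := Int.zpow_le_iff_le_log (R := ℝ) (b := 2) (by norm_num) hx (x := j)
    simpa using this
  have hq0 : 0 ≤ (2 : ℝ) ^ (-r) := by positivity
  have hq1 := two_rpow_neg_lt_one hr
  have h2i : (2 : ℝ) ^ i ≤ x := (hmem i).2 le_rfl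
  have key : ∀ j ∈ J.filter (fun j => (2 : ℝ) ^ j ≤ x),
      ((2 : ℝ) ^ j) ^ r = ((2 : ℝ) ^ i) ^ r * ((2 : ℝ) ^ (-r)) ^ ((i - j).toNat) := by
    intro j hj
    have hji : j ≤ i := (hmem j).1 (mem_filter.1 hj).2
    have h1 : ((i - j).toNat : ℤ) = i - j := Int.toNat_of_nonneg (by omega)
    have h2 : (2 : ℝ) ^ j = (2 : ℝ) ^ i * ((2 : ℝ) ^ ((i - j).toNat))⁻¹ := by
      rw [← zpow_natCast, h1, ← zpow_neg, ← zpow_add₀ (by norm_num : (2 : ℝ) ≠ 0)]
      congr 1; ring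
    rw [h2, Real.mul_rpow (by positivity) (by positivity)]
    congr 1
    rw [Real.inv_rpow (by positivity), ← Real.rpow_natCast, ← Real.rpow_natCast,
      ← Real.rpow_mul (by norm_num), ← Real.rpow_mul (by norm_num), ← Real.rpow_neg (by norm_num)]
    congr 1; ring
  rw [sum_congr rfl key, ← mul_sum, div_eq_mul_inv]
  have hsum : ∑ j ∈ J.filter (fun j => (2 : ℝ) ^ j ≤ x), ((2 : ℝ) ^ (-r)) ^ ((i - j).toNat) ≤
      (1 - (2 : ℝ) ^ (-r))⁻¹ := by
    rw [← tsum_geometric_of_lt_one hq0 hq1]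
    have hinj : Set.InjOn (fun j : ℤ => (i - j).toNat)
        (J.filter (fun j => (2 : ℝ) ^ j ≤ x) : Finset ℤ) := by
      intro a ha b hb hab
      have h1 : a ≤ i := (hmem a).1 (mem_filter.1 (mem_coe.1 ha)).2
      have h2 : b ≤ i := (hmem b).1 (mem_filter.1 (mem_coe.1 hb)).2
      simp only at hab
      omega
    rw [← sum_image (f := fun n : ℕ => ((2 : ℝ) ^ (-r)) ^ n) hinj]
    exact (summable_geometric_of_lt_one hq0 hq1).sum_le_tsum _ (fun n _ => by positivity)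
  have h3 : ((2 : ℝ) ^ i) ^ r ≤ x ^ r := Real.rpow_le_rpow (by positivity) h2i hr.le
  have h4 : 0 ≤ (1 - (2 : ℝ) ^ (-r))⁻¹ := inv_nonneg.2 (one_sub_two_rpow_pos hr).le
  calc ((2 : ℝ) ^ i) ^ r * ∑ j ∈ J.filter (fun j => (2 : ℝ) ^ j ≤ x), ((2 : ℝ) ^ (-r)) ^ ((i - j).toNat)
      ≤ ((2 : ℝ) ^ i) ^ r * (1 - (2 : ℝ) ^ (-r))⁻¹ :=
        mul_le_mul_of_nonneg_left hsum (by positivity)
    _ ≤ x ^ r * (1 - (2 : ℝ) ^ (-r))⁻¹ := mul_le_mul_of_nonneg_right h3 h4

theorem sum_dyadic_gt_le (r : ℝ) (hr : 0 < r) (x : ℝ) (hx : 0 < x) (J : Finset ℤ) :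
    ∑ j ∈ J with x < (2 : ℝ) ^ j, ((2 : ℝ) ^ j) ^ (-r) ≤ x ^ (-r) / (1 - (2 : ℝ) ^ (-r)) := by
  have h := sum_dyadic_le r hr x⁻¹ (inv_pos.2 hx) (J.image (fun j => -j))
  have hx' : (x⁻¹) ^ r = x ^ (-r) := by
    rw [Real.inv_rpow hx.le, Real.rpow_neg hx.le]
  rw [hx'] at h
  refine le_trans ?_ h
  have hinj : Set.InjOn (fun j : ℤ => -j) (J.filter (fun j => x < (2 : ℝ) ^ j) : Finset ℤ) :=
    fun a _ b _ hab => neg_injective hab
  have h1 : ∑ j ∈ J.filter (fun j => x < (2 : ℝ) ^ j), ((2 : ℝ) ^ j) ^ (-r) =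
      ∑ j ∈ (J.filter (fun j => x < (2 : ℝ) ^ j)).image (fun j => -j), ((2 : ℝ) ^ j) ^ r := by
    rw [sum_image hinj]
    refine sum_congr rfl fun j _ => ?_
    rw [zpow_neg, Real.inv_rpow (by positivity), Real.rpow_neg (by positivity)]
  rw [h1]
  refine sum_le_sum_of_subset_of_nonneg ?_ (fun _ _ _ => by positivity)
  intro j hj
  obtain ⟨a, ha, rfl⟩ := mem_image.1 hj
  obtain ⟨haJ, hax⟩ := mem_filter.1 ha
  refine mem_filter.2 ⟨mem_image_of_mem _ haJ, ?_⟩
  rw [zpow_neg]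
  exact inv_anti₀ hx hax.le

/-! ## levels -/

section levels

variable {E : Type*}

/-- the part of `v` of size `< 2 ^ j` -/
noncomputable def low (v : E → ℝ) (j : ℤ) (e : E) : ℝ := v e - lev v j e

theorem low_apply (v : E → ℝ) (j : ℤ) (e : E) :
    low v j e = if |v e| < (2 : ℝ) ^ j then v e else 0 := by
  unfold low lev
  by_cases h : (2 : ℝ) ^ j ≤ |v e|
  · rw [if_pos h, if_neg (not_lt.2 h)]; ring
  · rw [if_neg h, if_pos (not_le.1 h)]; ring

theorem abs_low_le (v : E → ℝ) (j : ℤ) (e : E) : |low v j e| ≤ (2 : ℝ) ^ j := by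
  rw [low_apply]
  split_ifs with h
  · exact h.le
  · rw [abs_zero]; positivity

theorem abs_low_le_abs (v : E → ℝ) (j : ℤ) (e : E) : |low v j e| ≤ |v e| := by
  rw [low_apply]
  split_ifs with h
  · exact le_rfl
  · rw [abs_zero]; positivity

theorem abs_lev_le_abs (v : E → ℝ) (j : ℤ) (e : E) : |lev v j e| ≤ |v e| := by
  unfold lev
  split_ifs with h
  · exact le_rfl
  · rw [abs_zero]; positivity

theorem lev_add_low (v : E → ℝ) (j : ℤ) : lev v j + low v j = v := by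
  ext e; simp [low]

/-- level error -/
noncomputable def levErr (T : (E → ℝ) →ₗ[ℝ] (E → ℝ)) (v : E → ℝ) (j : ℤ) (e : E) : ℝ :=
  lev v j e - T (lev v j) e

theorem levErr_eq (T : (E → ℝ) →ₗ[ℝ] (E → ℝ)) (v : E → ℝ) (hT : T v = v) (j : ℤ) (e : E) :
    levErr T v j e = -(low v j e - T (low v j) e) := by
  have h1 : T (lev v j) + T (low v j) = v := by
    rw [← map_add, lev_add_low, hT]
  have h2 := congrFun h1 e
  have h3 := congrFun (lev_add_low v j) e
  simp only [Pi.add_apply] at h2 h3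
  unfold levErr
  linarith

/-! ## Abel summation -/

theorem tent_zero (l : ℕ) : tent l 0 = 0 := by
  unfold tent
  simp

theorem tent_of_nonpos (l : ℕ) (m : ℤ) (hm : m ≤ 0) : tent l m = 0 := by
  unfold tent
  have hm' : (m : ℝ) ≤ 0 := by exact_mod_cast hm
  have : (m : ℝ) / l ≤ 0 := div_nonpos_of_nonpos_of_nonneg hm' (by positivity)
  exact max_eq_left ((min_le_left _ _).trans this)

theorem tent_of_ge (l : ℕ) (m : ℤ) (hm : 2 * (l : ℤ) ≤ m) : tent l m = 0 := by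
  unfold tent
  have hm' : (2 * (l : ℝ)) ≤ m := by exact_mod_cast hm
  have : (2 * (l : ℝ) - m) / l ≤ 0 :=
    div_nonpos_of_nonpos_of_nonneg (by linarith) (by positivity)
  exact max_eq_left ((min_le_right _ _).trans this)

theorem tent_aux (a b h : ℝ) (hh : 0 ≤ h) :
    |max 0 (min (a + h) (b - h)) - max 0 (min a b)| ≤ h := by
  rw [abs_le]
  constructor
  · rcases le_total (min a b) 0 with h1 | h1
    · rw [max_eq_left h1]
      have := le_max_left 0 (min (a + h) (b - h))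
      linarith
    · rw [max_eq_right h1]
      have h2 : min a b - h ≤ min (a + h) (b - h) := by
        refine le_min ?_ ?_
        · have := min_le_left a b; linarith
        · have := min_le_right a b; linarith
      have := le_max_right 0 (min (a + h) (b - h))
      linarith
  · have h2 : min (a + h) (b - h) ≤ min a b + h := by
      rcases le_total a b with hab | hab
      · rw [min_eq_left hab]; exact min_le_left _ _
      · rw [min_eq_right hab]
        have := min_le_right (a + h) (b - h); linarith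
    have h3 : max 0 (min (a + h) (b - h)) ≤ max 0 (min a b) + h := by
      refine max_le ?_ ?_
      · have := le_max_left 0 (min a b); linarith
      · have := le_max_right 0 (min a b); linarith
    linarith

theorem abs_tent_sub_le (l : ℕ) (m : ℤ) : |tent l (m + 1) - tent l m| ≤ 1 / l := by
  have h := tent_aux ((m : ℝ) / l) ((2 * l - m : ℝ) / l) (1 / l) (by positivity)
  unfold tent
  convert h using 5
  · push_cast; ring
  · push_cast; ring

theorem sum_tent (l : ℕ) (t : ℤ) (ht : 0 ≤ t) (n : ℕ) :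
    ∑ m ∈ range n, (if (m : ℤ) + 1 ≤ t then tent l ((m : ℤ) + 1) - tent l m else 0) =
      tent l (min t n) := by
  induction n with
  | zero => simp [min_eq_right ht, tent_zero]
  | succ n ih =>
    rw [sum_range_succ, ih]
    by_cases h : (n : ℤ) + 1 ≤ t
    · rw [if_pos h, min_eq_right (by omega : (n : ℤ) ≤ t),
        min_eq_right (by push_cast; omega : ((n + 1 : ℕ) : ℤ) ≤ t)]
      push_cast
      ring
    · rw [if_neg h, min_eq_left (by omega : t ≤ (n : ℤ)),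
        min_eq_left (by push_cast; omega : t ≤ ((n + 1 : ℕ) : ℤ)), add_zero]

theorem sum_tent' (l : ℕ) (t : ℤ) :
    ∑ m ∈ range (2 * l), (if (m : ℤ) + 1 ≤ t then tent l ((m : ℤ) + 1) - tent l m else 0) =
      tent l t := by
  rcases le_total 0 t with ht | ht
  · rw [sum_tent l t ht]
    rcases le_total t (2 * l : ℕ) with h | h
    · rw [min_eq_left h]
    · rw [min_eq_right h, tent_of_ge l _ (by push_cast; rfl), tent_of_ge l t (by push_cast at h; omega)]
  · rw [tent_of_nonpos l t ht]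
    refine sum_eq_zero fun m _ => ?_
    rw [if_neg (by omega)]

theorem lev_eq (v : E → ℝ) (j : ℤ) (e : E) :
    lev v j e = if j ≤ Int.log 2 |v e| then v e else 0 := by
  unfold lev
  rcases eq_or_ne (v e) 0 with h | h
  · simp [h]
  · have := Int.zpow_le_iff_le_log (R := ℝ) (b := 2) (by norm_num) (abs_pos.2 h) (x := j)
    have h2 : (2 : ℝ) ^ j ≤ |v e| ↔ j ≤ Int.log 2 |v e| := by simpa using this
    simp only [h2]

theorem mainF_abel (l : ℕ) (v : E → ℝ) (k : ℤ) :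
    mainF l v k = ∑ m ∈ range (2 * l),
      ((2 : ℝ) ^ k * (tent l ((m : ℤ) + 1) - tent l m)) • lev v ((m : ℤ) + 1 - k) := by
  ext e
  rw [Finset.sum_apply]
  simp only [Pi.smul_apply, smul_eq_mul, mainF]
  rw [← sum_tent' l (Int.log 2 |v e| + k), mul_assoc, sum_mul, mul_sum]
  refine sum_congr rfl fun m _ => ?_
  rw [lev_eq]
  have : ((m : ℤ) + 1 - k ≤ Int.log 2 |v e|) ↔ ((m : ℤ) + 1 ≤ Int.log 2 |v e| + k) := by omega
  simp only [this]
  split_ifs <;> ring

theorem mainF_sub (T : (E → ℝ) →ₗ[ℝ] (E → ℝ)) (l : ℕ) (v : E → ℝ) (k : ℤ) (e : E) :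
    mainF l v k e - T (mainF l v k) e = ∑ m ∈ range (2 * l),
      ((2 : ℝ) ^ k * (tent l ((m : ℤ) + 1) - tent l m)) * levErr T v ((m : ℤ) + 1 - k) e := by
  rw [mainF_abel, map_sum, Finset.sum_apply, Finset.sum_apply, ← sum_sub_distrib]
  refine sum_congr rfl fun m _ => ?_
  rw [map_smul, Pi.smul_apply, Pi.smul_apply, smul_eq_mul, smul_eq_mul, levErr]
  ring

theorem abel_bound₀ (T : (E → ℝ) →ₗ[ℝ] (E → ℝ)) (l : ℕ) (v : E → ℝ) (k : ℤ) (e : E) :
    |mainF l v k e - T (mainF l v k) e| ≤ (2 : ℝ) ^ k * ((l : ℝ)⁻¹ *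
      ∑ m ∈ range (2 * l), |levErr T v ((m : ℤ) + 1 - k) e|) := by
  rw [mainF_sub, mul_sum, mul_sum]
  refine (abs_sum_le_sum_abs _ _).trans (sum_le_sum fun m _ => ?_)
  rw [abs_mul, abs_mul, abs_of_pos (by positivity : (0 : ℝ) < 2 ^ k), mul_assoc]
  refine mul_le_mul_of_nonneg_left ?_ (by positivity)
  refine mul_le_mul_of_nonneg_right ?_ (abs_nonneg _)
  simpa using abs_tent_sub_le l m

theorem abel_bound (T : (E → ℝ) →ₗ[ℝ] (E → ℝ)) (l : ℕ) (v : E → ℝ) (k : ℤ) (e : E) (p : ℝ)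
    (hp : 0 < p) :
    ((2 : ℝ) ^ k) ^ (-p) * |mainF l v k e - T (mainF l v k) e| ^ p ≤ (l : ℝ) ^ (-p) *
      (∑ m ∈ range (2 * l), |levErr T v ((m : ℤ) + 1 - k) e|) ^ p := by
  have h := Real.rpow_le_rpow (abs_nonneg _) (abel_bound₀ T l v k e) hp.le
  have hs : 0 ≤ ∑ m ∈ range (2 * l), |levErr T v ((m : ℤ) + 1 - k) e| :=
    sum_nonneg fun _ _ => abs_nonneg _
  rw [Real.mul_rpow (by positivity) (by positivity), Real.mul_rpow (by positivity) hs] at h
  have h2 : ((2 : ℝ) ^ k) ^ (-p) * ((2 : ℝ) ^ k) ^ p = 1 := by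
    rw [← Real.rpow_add (by positivity)]; simp
  have h3 : ((l : ℝ)⁻¹) ^ p = (l : ℝ) ^ (-p) := by
    rw [Real.inv_rpow (by positivity), Real.rpow_neg (by positivity)]
  calc ((2 : ℝ) ^ k) ^ (-p) * |mainF l v k e - T (mainF l v k) e| ^ p
      ≤ ((2 : ℝ) ^ k) ^ (-p) * (((2 : ℝ) ^ k) ^ p * (((l : ℝ)⁻¹) ^ p *
          (∑ m ∈ range (2 * l), |levErr T v ((m : ℤ) + 1 - k) e|) ^ p)) :=
        mul_le_mul_of_nonneg_left h (by positivity)
    _ = _ := by rw [← mul_assoc, h2, one_mul, h3]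

end levels

end Crest.Agent.R232
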