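import Crest.Agent.R232.Defs

/-! # R232: common part of the level estimates (T4, T5)

Abel summation for `mainF`, facts on `tent`, geometric series over finite sets of integers. -/

set_option autoImplicit false

open Finset

namespace Crest.Agent.R232.L5

open Crest.Agent.R232

/-! ### tent -/

theorem tent_eq_zero_of_nonpos {l : ℕ} {m : ℤ} (hm : m ≤ 0) : tent l m = 0 := by
  have h1 : (m : ℝ) / l ≤ 0 := div_nonpos_of_nonpos_of_nonneg (by exact_mod_cast hm) (by positivity)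
  rw [tent, max_eq_left]
  exact (min_le_left _ _).trans h1

theorem tent_eq_zero_of_ge {l : ℕ} {m : ℤ} (hm : 2 * (l : ℤ) ≤ m) : tent l m = 0 := by
  have h1 : ((2 * l - m : ℝ)) / l ≤ 0 := by
    apply div_nonpos_of_nonpos_of_nonneg _ (by positivity)
    have : (2 * (l : ℝ)) ≤ m := by exact_mod_cast hm
    linarith
  rw [tent, max_eq_left]
  exact (min_le_right _ _).trans h1

theorem tent_nonneg (l : ℕ) (m : ℤ) : 0 ≤ tent l m := le_max_left _ _

theorem abs_tent_sub_le {l : ℕ} (hl : 1 ≤ l) (m : ℤ) : |tent l (m + 1) - tent l m| ≤ 1 / l := by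
  have hl0 : (0 : ℝ) < l := by exact_mod_cast hl
  unfold tent
  refine (abs_max_sub_max_le_max _ _ _ _).trans ?_
  rw [sub_self, abs_zero, max_eq_right (abs_nonneg _)]
  refine (abs_min_sub_min_le_max _ _ _ _).trans ?_
  apply max_le
  · rw [← sub_div]
    push_cast
    rw [add_sub_cancel_left, abs_of_nonneg (by positivity)]
  · rw [← sub_div]
    push_cast
    rw [show (2 * (l : ℝ) - (m + 1) - (2 * l - m)) = -1 by ring, abs_div, abs_neg, abs_one,
      abs_of_pos hl0]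

/-! ### levels -/

theorem lev_zero_of_eq {E : Type*} {v : E → ℝ} {j : ℤ} {e : E} (h : v e = 0) : lev v j e = 0 := by
  simp [lev, h]

theorem abs_lev_le {E : Type*} (v : E → ℝ) (j : ℤ) (e : E) : |lev v j e| ≤ |v e| := by
  unfold lev
  split_ifs <;> simp

theorem abs_sub_lev_le {E : Type*} (v : E → ℝ) (j : ℤ) (e : E) : |v e - lev v j e| ≤ |v e| := by
  unfold lev
  split_ifs <;> simp

theorem abs_sub_lev_le' {E : Type*} (v : E → ℝ) (j : ℤ) (e : E) :
    |v e - lev v j e| ≤ (2 : ℝ) ^ j := by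
  unfold lev
  split_ifs with h
  · simp only [sub_self, abs_zero]; positivity
  · push Not at h
    rw [sub_zero]; exact h.le

theorem two_zpow_le_iff {x : ℝ} (hx : 0 < x) (j : ℤ) : (2 : ℝ) ^ j ≤ x ↔ j ≤ Int.log 2 x := by
  have := Int.zpow_le_iff_le_log (R := ℝ) (b := 2) (by norm_num) (x := j) (r := x) hx
  simpa using this

/-- telescoping with a cut -/
theorem sum_range_cut (g : ℤ → ℝ) (t : ℤ) (n : ℕ) :
    ∑ m ∈ range n, (g (m + 1) - g m) * (if ((m : ℤ) + 1) ≤ t then 1 else 0) =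
      if 0 ≤ t then g (min n t) - g 0 else 0 := by
  induction n with
  | zero =>
    simp only [range_zero, sum_empty, Nat.cast_zero]
    split_ifs with h
    · rw [min_eq_left h, sub_self]
    · rfl
  | succ n ih =>
    rw [sum_range_succ, ih]
    by_cases h0 : 0 ≤ t
    · rw [if_pos h0, if_pos h0]
      by_cases h1 : ((n : ℤ) + 1) ≤ t
      · rw [if_pos h1, mul_one, min_eq_left (by omega), min_eq_left (by push_cast; omega)]
        push_cast
        ring
      · rw [if_neg h1, mul_zero, add_zero, min_eq_right (by omega),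
          min_eq_right (by push_cast; omega)]
    · rw [if_neg h0, if_neg h0, if_neg (by omega), mul_zero, add_zero]

/-- **Abel summation**: the main field is an average of level fields. -/
theorem mainF_eq_sum {E : Type*} {l : ℕ} (v : E → ℝ) (k : ℤ) (e : E) :
    mainF l v k e = (2 : ℝ) ^ k *
      ∑ m ∈ range (2 * l), (tent l (m + 1) - tent l m) * lev v (m + 1 - k) e := by
  by_cases hv : v e = 0
  · simp [mainF, lev, hv]
  · have hpos : 0 < |v e| := abs_pos.mpr hv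
    set i := Int.log 2 |v e| with hi
    have hlev : ∀ m : ℕ, lev v ((m : ℤ) + 1 - k) e =
        (if ((m : ℤ) + 1) ≤ i + k then 1 else 0) * v e := by
      intro m
      unfold lev
      have : (2 : ℝ) ^ ((m : ℤ) + 1 - k) ≤ |v e| ↔ ((m : ℤ) + 1) ≤ i + k := by
        rw [two_zpow_le_iff hpos]
        constructor <;> intro h <;> omega
      by_cases h : ((m : ℤ) + 1) ≤ i + k
      · rw [if_pos (this.mpr h), if_pos h, one_mul]
      · rw [if_neg (fun h' => h (this.mp h')), if_neg h, zero_mul]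
    have hsum := sum_range_cut (tent l) (i + k) (2 * l)
    have : ∑ m ∈ range (2 * l), (tent l (m + 1) - tent l m) * lev v (m + 1 - k) e =
        (∑ m ∈ range (2 * l), (tent l (m + 1) - tent l m) *
          (if ((m : ℤ) + 1) ≤ i + k then 1 else 0)) * v e := by
      rw [sum_mul]
      refine sum_congr rfl fun m _ => ?_
      rw [hlev m]; ring
    rw [this, hsum]
    unfold mainF
    rw [← hi, mul_assoc]
    congr 2
    split_ifs with h0
    · rw [tent_eq_zero_of_nonpos (le_refl 0), sub_zero]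
      rcases le_total ((2 * l : ℕ) : ℤ) (i + k) with h | h
      · rw [min_eq_left h, tent_eq_zero_of_ge (by push_cast at h; exact h),
          tent_eq_zero_of_ge (by push_cast; exact le_refl _)]
      · rw [min_eq_right h]
    · exact tent_eq_zero_of_nonpos (by omega)

/-- The level error `v^{≥ j} - T v^{≥ j}`. -/
noncomputable def levErr {E : Type*} (T : (E → ℝ) →ₗ[ℝ] (E → ℝ)) (v : E → ℝ) (j : ℤ) (e : E) : ℝ :=
  lev v j e - T (lev v j) e

theorem mainF_eq_smul_sum {E : Type*} {l : ℕ} (v : E → ℝ) (k : ℤ) :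
    mainF l v k = (2 : ℝ) ^ k •
      ∑ m ∈ range (2 * l), (tent l ((m : ℤ) + 1) - tent l m) • lev v ((m : ℤ) + 1 - k) := by
  ext e
  rw [mainF_eq_sum]
  simp [Finset.sum_apply]

theorem mainF_sub_eq {E : Type*} {l : ℕ} (T : (E → ℝ) →ₗ[ℝ] (E → ℝ)) (v : E → ℝ) (k : ℤ) (e : E) :
    mainF l v k e - T (mainF l v k) e = (2 : ℝ) ^ k *
      ∑ m ∈ range (2 * l), (tent l (m + 1) - tent l m) * levErr T v (m + 1 - k) e := by
  have h1 : T (mainF l v k) e = (2 : ℝ) ^ k *
      ∑ m ∈ range (2 * l), (tent l (m + 1) - tent l m) * T (lev v (m + 1 - k)) e := by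
    rw [mainF_eq_smul_sum]
    simp [Finset.sum_apply]
  rw [h1, mainF_eq_sum, ← mul_sub, ← sum_sub_distrib]
  congr 1
  refine sum_congr rfl fun m _ => ?_
  unfold levErr
  ring

theorem abs_mainF_sub_le {E : Type*} {l : ℕ} (hl : 1 ≤ l) (T : (E → ℝ) →ₗ[ℝ] (E → ℝ)) (v : E → ℝ)
    (k : ℤ) (e : E) :
    |mainF l v k e - T (mainF l v k) e| ≤ (2 : ℝ) ^ k * (1 / l *
      ∑ m ∈ range (2 * l), |levErr T v (m + 1 - k) e|) := by
  rw [mainF_sub_eq, abs_mul, abs_of_pos (by positivity : (0 : ℝ) < 2 ^ k)]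
  refine mul_le_mul_of_nonneg_left ?_ (by positivity)
  refine (abs_sum_le_sum_abs _ _).trans ?_
  rw [mul_sum]
  refine sum_le_sum fun m _ => ?_
  rw [abs_mul]
  exact mul_le_mul_of_nonneg_right (abs_tent_sub_le hl m) (abs_nonneg _)

/-- the level error through the low levels, using `T v = v` -/
theorem levErr_eq_low {E : Type*} {T : (E → ℝ) →ₗ[ℝ] (E → ℝ)} {v : E → ℝ} (hT : T v = v) (j : ℤ)
    (e : E) : levErr T v j e = -((v e - lev v j e) - T (fun e => v e - lev v j e) e) := by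
  have : (fun e => v e - lev v j e) = v - lev v j := rfl
  rw [this, map_sub, hT]
  simp only [levErr, Pi.sub_apply]
  ring

/-! ### geometric series over finite sets of integers -/

theorem sum_pow_toNat_le {q : ℝ} (hq0 : 0 ≤ q) (hq1 : q < 1) (J : Finset ℤ) (i : ℤ)
    (hJ : ∀ j ∈ J, j ≤ i) : ∑ j ∈ J, q ^ (i - j).toNat ≤ (1 - q)⁻¹ := by
  have hinj : Set.InjOn (fun j : ℤ => (i - j).toNat) (J : Set ℤ) := by
    intro a ha b hb hab
    have h1 := hJ a ha
    have h2 := hJ b hb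
    simp only at hab
    omega
  rw [← sum_image (f := fun n : ℕ => q ^ n) (g := fun j : ℤ => (i - j).toNat) (s := J) hinj]
  rw [← tsum_geometric_of_lt_one hq0 hq1]
  exact (summable_geometric_of_lt_one hq0 hq1).sum_le_tsum _ (fun n _ => pow_nonneg hq0 n)

theorem two_zpow_rpow (j : ℤ) (s : ℝ) : ((2 : ℝ) ^ j) ^ s = (2 : ℝ) ^ ((j : ℝ) * s) := by
  rw [Real.rpow_mul (by norm_num), Real.rpow_intCast]

/-- `∑_{2^j ≤ x} 2^{js} ≤ x^s / (1 - 2^{-s})` -/
theorem sum_le_of_low {s : ℝ} (hs : 0 < s) {x : ℝ} (hx : 0 < x) (J : Finset ℤ) :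
    ∑ j ∈ J with (2 : ℝ) ^ j ≤ x, ((2 : ℝ) ^ j) ^ s ≤ x ^ s * (1 - (2 : ℝ) ^ (-s))⁻¹ := by
  set i := Int.log 2 x
  have hi : (2 : ℝ) ^ i ≤ x := (two_zpow_le_iff hx i).mpr (le_refl _)
  have hq0 : (0 : ℝ) ≤ (2 : ℝ) ^ (-s) := by positivity
  have hq1 : (2 : ℝ) ^ (-s) < 1 := Real.rpow_lt_one_of_one_lt_of_neg (by norm_num) (by linarith)
  have hle : ∀ j ∈ J.filter (fun j : ℤ => (2 : ℝ) ^ j ≤ x), j ≤ i := by
    intro j hj
    exact (two_zpow_le_iff hx j).mp (mem_filter.mp hj).2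
  calc ∑ j ∈ J with (2 : ℝ) ^ j ≤ x, ((2 : ℝ) ^ j) ^ s
      ≤ ∑ j ∈ J with (2 : ℝ) ^ j ≤ x, x ^ s * ((2 : ℝ) ^ (-s)) ^ (i - j).toNat := by
        refine sum_le_sum fun j hj => ?_
        have hji := hle j hj
        have h1 : ((2 : ℝ) ^ j) ^ s = ((2 : ℝ) ^ i) ^ s * ((2 : ℝ) ^ (-s)) ^ (i - j).toNat := by
          rw [two_zpow_rpow, two_zpow_rpow, ← Real.rpow_natCast, ← Real.rpow_mul (by norm_num),
            ← Real.rpow_add (by norm_num)]
          congr 1
          have : (((i - j).toNat : ℕ) : ℝ) = (i : ℝ) - j := by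
            have h2 : (((i - j).toNat : ℕ) : ℤ) = i - j := Int.toNat_of_nonneg (by omega)
            exact_mod_cast h2
          rw [this]; ring
        rw [h1]
        refine mul_le_mul_of_nonneg_right ?_ (by positivity)
        exact Real.rpow_le_rpow (by positivity) hi hs.le
    _ = x ^ s * ∑ j ∈ J with (2 : ℝ) ^ j ≤ x, ((2 : ℝ) ^ (-s)) ^ (i - j).toNat := by
        rw [mul_sum]
    _ ≤ x ^ s * (1 - (2 : ℝ) ^ (-s))⁻¹ := by
        refine mul_le_mul_of_nonneg_left ?_ (by positivity)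
        exact sum_pow_toNat_le hq0 hq1 _ i hle

/-- `∑_{2^j > x} 2^{-js} ≤ x^{-s} / (1 - 2^{-s})` -/
theorem sum_le_of_high {s : ℝ} (hs : 0 < s) {x : ℝ} (hx : 0 < x) (J : Finset ℤ) :
    ∑ j ∈ J with ¬ (2 : ℝ) ^ j ≤ x, ((2 : ℝ) ^ j) ^ (-s) ≤ x ^ (-s) * (1 - (2 : ℝ) ^ (-s))⁻¹ := by
  set i := Int.log 2 x
  have hi : x < (2 : ℝ) ^ (i + 1) := by
    by_contra h
    push Not at h
    have := (two_zpow_le_iff hx (i + 1)).mp h
    omega
  have hq0 : (0 : ℝ) ≤ (2 : ℝ) ^ (-s) := by positivity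
  have hq1 : (2 : ℝ) ^ (-s) < 1 := Real.rpow_lt_one_of_one_lt_of_neg (by norm_num) (by linarith)
  have hle : ∀ j ∈ J.filter (fun j : ℤ => ¬ (2 : ℝ) ^ j ≤ x), i + 1 ≤ j := by
    intro j hj
    have h1 := (mem_filter.mp hj).2
    rw [two_zpow_le_iff hx j] at h1
    omega
  have hinj : Set.InjOn (fun j : ℤ => -j) ((J.filter (fun j : ℤ => ¬ (2 : ℝ) ^ j ≤ x) : Finset ℤ) : Set ℤ) :=
    fun a _ b _ h => neg_injective h
  calc ∑ j ∈ J with ¬ (2 : ℝ) ^ j ≤ x, ((2 : ℝ) ^ j) ^ (-s)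
      ≤ ∑ j ∈ J with ¬ (2 : ℝ) ^ j ≤ x, x ^ (-s) * ((2 : ℝ) ^ (-s)) ^ (j - (i + 1)).toNat := by
        refine sum_le_sum fun j hj => ?_
        have hji := hle j hj
        have h1 : ((2 : ℝ) ^ j) ^ (-s) =
            ((2 : ℝ) ^ (i + 1)) ^ (-s) * ((2 : ℝ) ^ (-s)) ^ (j - (i + 1)).toNat := by
          rw [two_zpow_rpow, two_zpow_rpow, ← Real.rpow_natCast, ← Real.rpow_mul (by norm_num),
            ← Real.rpow_add (by norm_num)]
          congr 1
          have : (((j - (i + 1)).toNat : ℕ) : ℝ) = (j : ℝ) - ((i + 1 : ℤ) : ℝ) := by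
            have h2 : (((j - (i + 1)).toNat : ℕ) : ℤ) = j - (i + 1) := Int.toNat_of_nonneg (by omega)
            exact_mod_cast h2
          rw [this]; ring
        rw [h1]
        refine mul_le_mul_of_nonneg_right ?_ (by positivity)
        exact Real.rpow_le_rpow_of_nonpos hx hi.le (by linarith)
    _ = x ^ (-s) * ∑ j ∈ J with ¬ (2 : ℝ) ^ j ≤ x, ((2 : ℝ) ^ (-s)) ^ (j - (i + 1)).toNat := by
        rw [mul_sum]
    _ = x ^ (-s) * ∑ j ∈ (J.filter (fun j : ℤ => ¬ (2 : ℝ) ^ j ≤ x)).image (fun j => -j),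
          ((2 : ℝ) ^ (-s)) ^ (-(i + 1) - j).toNat := by
        rw [sum_image hinj]
        congr 1
        refine sum_congr rfl fun j _ => ?_
        congr 2
        ring
    _ ≤ x ^ (-s) * (1 - (2 : ℝ) ^ (-s))⁻¹ := by
        refine mul_le_mul_of_nonneg_left ?_ (by positivity)
        apply sum_pow_toNat_le hq0 hq1
        intro j hj
        rw [mem_image] at hj
        obtain ⟨a, ha, rfl⟩ := hj
        have := hle a ha
        omega

end Crest.Agent.R232.L5
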