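import Crest.Agent.R232.Defs

/-! R232 (S0358): pointwise facts on the main fields `mainF` (used in T6). -/

set_option autoImplicit false

open Finset

namespace Crest.Agent.R232

/-- `∑_m tent(m)^p` -/
noncomputable def tentSum (l : ℕ) (p : ℝ) : ℝ := ∑ m ∈ Finset.Ioo (0 : ℤ) (2 * l), tent l m ^ p

/-- the amplitudes `k` for which `mainF` can be nonzero at a value `x ≠ 0` -/
noncomputable def win (l : ℕ) (x : ℝ) : Finset ℤ :=
  Finset.Ioo (-Int.log 2 |x|) (2 * l - Int.log 2 |x|)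

theorem tent_nonneg (l : ℕ) (m : ℤ) : 0 ≤ tent l m := le_max_left _ _

theorem tent_le_one {l : ℕ} (hl : 1 ≤ l) (m : ℤ) : tent l m ≤ 1 := by
  have hl' : (0 : ℝ) < l := by exact_mod_cast hl
  unfold tent
  refine max_le zero_le_one ?_
  rcases le_total (m : ℝ) l with h | h
  · exact (min_le_left _ _).trans ((div_le_one hl').mpr h)
  · refine (min_le_right _ _).trans ((div_le_one hl').mpr ?_)
    linarith

theorem tent_eq_zero_of_nonpos {l : ℕ} {m : ℤ} (hm : m ≤ 0) : tent l m = 0 := by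
  unfold tent
  have : (m : ℝ) / l ≤ 0 := div_nonpos_of_nonpos_of_nonneg (by exact_mod_cast hm) (by positivity)
  exact max_eq_left ((min_le_left _ _).trans this)

theorem tent_eq_zero_of_ge {l : ℕ} {m : ℤ} (hm : 2 * l ≤ m) : tent l m = 0 := by
  unfold tent
  have h1 : (2 * l - m : ℝ) ≤ 0 := by
    have : (2 * l : ℝ) ≤ m := by exact_mod_cast hm
    linarith
  have : (2 * l - m : ℝ) / l ≤ 0 := div_nonpos_of_nonpos_of_nonneg h1 (by positivity)
  exact max_eq_left ((min_le_right _ _).trans this)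

theorem tent_ne_zero {l : ℕ} {m : ℤ} (h : tent l m ≠ 0) : 0 < m ∧ m < 2 * l := by
  constructor
  · by_contra hm
    exact h (tent_eq_zero_of_nonpos (by omega))
  · by_contra hm
    exact h (tent_eq_zero_of_ge (by omega))

theorem half_le_tent {l : ℕ} (hl : 1 ≤ l) {m : ℤ} (h1 : (l : ℤ) ≤ 2 * m) (h2 : 2 * m ≤ 3 * l) :
    1 / 2 ≤ tent l m := by
  have hl' : (0 : ℝ) < l := by exact_mod_cast hl
  unfold tent
  refine le_max_of_le_right (le_min ?_ ?_)
  · rw [le_div_iff₀ hl']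
    have : (l : ℝ) ≤ 2 * m := by exact_mod_cast h1
    linarith
  · rw [le_div_iff₀ hl']
    have : (2 * m : ℝ) ≤ 3 * l := by exact_mod_cast h2
    linarith

theorem tentSum_le {l : ℕ} (hl : 1 ≤ l) {p : ℝ} (hp : 0 ≤ p) : tentSum l p ≤ 2 * l := by
  unfold tentSum
  calc ∑ m ∈ Finset.Ioo (0 : ℤ) (2 * l), tent l m ^ p
      ≤ ∑ m ∈ Finset.Ioo (0 : ℤ) (2 * l), (1 : ℝ) :=
        Finset.sum_le_sum fun m _ => Real.rpow_le_one (tent_nonneg l m) (tent_le_one hl m) hp
    _ = ((2 * l - 0 - 1 : ℤ).toNat : ℝ) := by simp [Int.card_Ioo]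
    _ ≤ 2 * l := by
        have : (2 * l - 0 - 1 : ℤ).toNat ≤ 2 * l := by omega
        exact_mod_cast this

theorem le_tentSum {l : ℕ} (hl : 1 ≤ l) {p : ℝ} (hp : 0 ≤ p) :
    l * (1 / 2) ^ p ≤ tentSum l p := by
  unfold tentSum
  have hsub : Finset.Ico (((l + 1) / 2 : ℕ) : ℤ) ((l + 1) / 2 + l : ℕ) ⊆
      Finset.Ioo (0 : ℤ) (2 * l) := by
    intro m hm
    simp only [mem_Ico, mem_Ioo] at hm ⊢
    omega
  calc (l : ℝ) * (1 / 2) ^ p
      = ∑ m ∈ Finset.Ico (((l + 1) / 2 : ℕ) : ℤ) ((l + 1) / 2 + l : ℕ), (1 / 2 : ℝ) ^ p := by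
        rw [Finset.sum_const, Int.card_Ico, nsmul_eq_mul]
        congr 2
        omega
    _ ≤ ∑ m ∈ Finset.Ico (((l + 1) / 2 : ℕ) : ℤ) ((l + 1) / 2 + l : ℕ), tent l m ^ p := by
        refine Finset.sum_le_sum fun m hm => ?_
        refine Real.rpow_le_rpow (by norm_num) (half_le_tent hl ?_ ?_) hp
        · simp only [mem_Ico] at hm
          omega
        · simp only [mem_Ico] at hm
          omega
    _ ≤ _ := Finset.sum_le_sum_of_subset_of_nonneg hsub
        fun m _ _ => Real.rpow_nonneg (tent_nonneg l m) _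

section mainF

variable {E : Type*} {l : ℕ} {v : E → ℝ} {e : E} {k : ℤ}

theorem log_le {x : ℝ} (hx : 0 < x) : (2 : ℝ) ^ Int.log 2 x ≤ x := by
  have := Int.zpow_log_le_self (b := 2) (r := x) (by norm_num) hx
  simpa using this

theorem lt_log_succ {x : ℝ} : x < (2 : ℝ) ^ (Int.log 2 x + 1) := by
  have := Int.lt_zpow_succ_log_self (b := 2) (by norm_num) x
  simpa using this

theorem mainF_ne_zero (h : mainF l v k e ≠ 0) : v e ≠ 0 ∧ k ∈ win l (v e) := by
  have h1 : v e ≠ 0 := fun h0 => h (by simp [mainF, h0])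
  have h2 : tent l (Int.log 2 |v e| + k) ≠ 0 := fun h0 => h (by simp [mainF, h0])
  refine ⟨h1, ?_⟩
  have := tent_ne_zero h2
  simp only [win, mem_Ioo]
  omega

theorem mainF_eq_zero_of_not_mem (h : k ∉ win l (v e)) : mainF l v k e = 0 := by
  by_contra h0
  exact h (mainF_ne_zero h0).2

theorem abs_mainF (l : ℕ) (v : E → ℝ) (k : ℤ) (e : E) :
    |mainF l v k e| = (2 : ℝ) ^ k * tent l (Int.log 2 |v e| + k) * |v e| := by
  unfold mainF
  rw [abs_mul, abs_mul, abs_of_pos (by positivity : (0 : ℝ) < 2 ^ k), abs_of_nonneg (tent_nonneg _ _)]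

/-- sup bound -/
theorem main_abs (hl : 1 ≤ l) (v : E → ℝ) (k : ℤ) (e : E) :
    |mainF l v k e| ≤ 2 ^ (2 * l) := by
  by_cases h : mainF l v k e = 0
  · rw [h, abs_zero]; positivity
  obtain ⟨hv, hk⟩ := mainF_ne_zero h
  simp only [win, mem_Ioo] at hk
  have hv' : 0 < |v e| := abs_pos.mpr hv
  rw [abs_mainF]
  calc (2 : ℝ) ^ k * tent l (Int.log 2 |v e| + k) * |v e|
      ≤ (2 : ℝ) ^ k * 1 * (2 : ℝ) ^ (Int.log 2 |v e| + 1) := by
        gcongr
        · exact tent_le_one hl _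
        · exact lt_log_succ.le
    _ = (2 : ℝ) ^ (k + Int.log 2 |v e| + 1) := by
        rw [mul_one, ← zpow_add₀ (by norm_num), add_assoc]
    _ ≤ (2 : ℝ) ^ ((2 * l : ℕ) : ℤ) := by
        apply zpow_le_zpow_right₀ (by norm_num)
        push_cast
        omega
    _ = _ := by rw [zpow_natCast]

theorem weight_mul_rpow (p : ℝ) (k : ℤ) {x : ℝ} (hx : 0 ≤ x) :
    ((2 : ℝ) ^ k) ^ (-p) * ((2 : ℝ) ^ k * x) ^ p = x ^ p := by
  have h2 : (0 : ℝ) < 2 ^ k := by positivity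
  rw [Real.mul_rpow h2.le hx, ← mul_assoc, ← Real.rpow_add h2]
  simp

/-- exact energy identity -/
theorem main_energy {p : ℝ} (hp : 0 < p) (v : E → ℝ) (e : E) (K : Finset ℤ)
    (hK : v e ≠ 0 → win l (v e) ⊆ K) :
    ∑ k ∈ K, ((2 : ℝ) ^ k) ^ (-p) * |mainF l v k e| ^ p = tentSum l p * |v e| ^ p := by
  by_cases hv : v e = 0
  · have : ∀ k ∈ K, ((2 : ℝ) ^ k) ^ (-p) * |mainF l v k e| ^ p = 0 := by
      intro k _
      have : mainF l v k e = 0 := by simp [mainF, hv]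
      rw [this, abs_zero, Real.zero_rpow hp.ne', mul_zero]
    rw [Finset.sum_eq_zero this, hv, abs_zero, Real.zero_rpow hp.ne', mul_zero]
  have hterm : ∀ k : ℤ, ((2 : ℝ) ^ k) ^ (-p) * |mainF l v k e| ^ p =
      tent l (Int.log 2 |v e| + k) ^ p * |v e| ^ p := by
    intro k
    rw [abs_mainF]
    have : (2 : ℝ) ^ k * tent l (Int.log 2 |v e| + k) * |v e| =
      (2 : ℝ) ^ k * (tent l (Int.log 2 |v e| + k) * |v e|) := by ring
    rw [this, weight_mul_rpow p k (mul_nonneg (tent_nonneg _ _) (abs_nonneg _)),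
      Real.mul_rpow (tent_nonneg _ _) (abs_nonneg _)]
  rw [← Finset.sum_subset (hK hv)]
  · rw [Finset.sum_congr rfl fun k _ => hterm k, ← Finset.sum_mul]
    congr 1
    unfold tentSum win
    refine Finset.sum_nbij' (fun k => Int.log 2 |v e| + k) (fun m => m - Int.log 2 |v e|)
      ?_ ?_ ?_ ?_ ?_
    · intro k hk
      simp only [mem_Ioo] at hk ⊢
      omega
    · intro k hk
      simp only [mem_Ioo] at hk ⊢
      omega
    · intro k _; ring
    · intro k _; ring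
    · intro k _; rfl
  · intro k _ hk
    rw [mainF_eq_zero_of_not_mem hk, abs_zero, Real.zero_rpow hp.ne', mul_zero]

/-- square sum -/
theorem main_sq {p : ℝ} (hp : 0 < p) (hl : 1 ≤ l) (v : E → ℝ) (e : E) (K : Finset ℤ) :
    ∑ k ∈ K, ((2 : ℝ) ^ k) ^ (-p) * (mainF l v k e) ^ 2 ≤ 2 * l * 4 ^ (2 * l) * |v e| ^ p := by
  by_cases hv : v e = 0
  · have : ∀ k ∈ K, ((2 : ℝ) ^ k) ^ (-p) * (mainF l v k e) ^ 2 = 0 := by
      intro k _
      have : mainF l v k e = 0 := by simp [mainF, hv]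
      rw [this]; simp
    rw [Finset.sum_eq_zero this, hv, abs_zero, Real.zero_rpow hp.ne', mul_zero]
  have hv' : 0 < |v e| := abs_pos.mpr hv
  have hterm : ∀ k ∈ win l (v e), ((2 : ℝ) ^ k) ^ (-p) * (mainF l v k e) ^ 2 ≤
      4 ^ (2 * l) * |v e| ^ p := by
    intro k hk
    simp only [win, mem_Ioo] at hk
    have h2 : (0 : ℝ) < 2 ^ k := by positivity
    set y : ℝ := (2 : ℝ) ^ k * |v e| with hy
    have hy0 : 0 < y := by positivity
    have hy1 : 1 ≤ y := by
      calc (1 : ℝ) ≤ (2 : ℝ) ^ (k + Int.log 2 |v e|) :=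
            one_le_zpow₀ (by norm_num) (by omega)
        _ = (2 : ℝ) ^ k * (2 : ℝ) ^ Int.log 2 |v e| := zpow_add₀ (by norm_num) _ _
        _ ≤ y := by
            rw [hy]; gcongr; exact log_le hv'
    have hy2 : y ≤ 2 ^ (2 * l) := by
      calc y ≤ (2 : ℝ) ^ k * (2 : ℝ) ^ (Int.log 2 |v e| + 1) := by
            rw [hy]; gcongr; exact lt_log_succ.le
        _ = (2 : ℝ) ^ (k + Int.log 2 |v e| + 1) := by
            rw [← zpow_add₀ (by norm_num), add_assoc]
        _ ≤ (2 : ℝ) ^ ((2 * l : ℕ) : ℤ) := by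
            apply zpow_le_zpow_right₀ (by norm_num)
            push_cast
            omega
        _ = _ := by rw [zpow_natCast]
    have h3 : (mainF l v k e) ^ 2 ≤ y ^ 2 := by
      rw [← sq_abs, abs_mainF]
      have h4 : (2 : ℝ) ^ k * tent l (Int.log 2 |v e| + k) * |v e| ≤ y := by
        rw [hy]
        have := tent_le_one hl (Int.log 2 |v e| + k)
        calc (2 : ℝ) ^ k * tent l (Int.log 2 |v e| + k) * |v e| ≤ (2 : ℝ) ^ k * 1 * |v e| := by
              gcongr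
          _ = _ := by ring
      have h5 : 0 ≤ (2 : ℝ) ^ k * tent l (Int.log 2 |v e| + k) * |v e| := by
        have := tent_nonneg l (Int.log 2 |v e| + k)
        positivity
      gcongr
    have h4 : ((2 : ℝ) ^ k) ^ (-p) * y ^ p = |v e| ^ p := by
      rw [hy]; exact weight_mul_rpow p k (abs_nonneg _)
    have h5 : y ^ 2 ≤ 4 ^ (2 * l) * y ^ p := by
      have h6 : 1 ≤ y ^ p := Real.one_le_rpow hy1 hp.le
      have h7 : y ^ 2 ≤ 4 ^ (2 * l) := by
        calc y ^ 2 ≤ (2 ^ (2 * l)) ^ 2 := by gcongr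
          _ = 4 ^ (2 * l) := by
            rw [← pow_mul, mul_comm (2 * l) 2, pow_mul]; norm_num
      nlinarith [Real.rpow_pos_of_pos hy0 p, (by positivity : (0 : ℝ) < 4 ^ (2 * l))]
    calc ((2 : ℝ) ^ k) ^ (-p) * (mainF l v k e) ^ 2
        ≤ ((2 : ℝ) ^ k) ^ (-p) * (4 ^ (2 * l) * y ^ p) := by
          have := Real.rpow_nonneg h2.le (-p)
          gcongr
          exact h3.trans h5
      _ = 4 ^ (2 * l) * (((2 : ℝ) ^ k) ^ (-p) * y ^ p) := by ring
      _ = _ := by rw [h4]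
  have hsub : ∑ k ∈ K, ((2 : ℝ) ^ k) ^ (-p) * (mainF l v k e) ^ 2 ≤
      ∑ k ∈ win l (v e), ((2 : ℝ) ^ k) ^ (-p) * (mainF l v k e) ^ 2 := by
    rw [← Finset.sum_filter_add_sum_filter_not K (fun k => k ∈ win l (v e))]
    have h0 : ∑ k ∈ K with k ∉ win l (v e), ((2 : ℝ) ^ k) ^ (-p) * (mainF l v k e) ^ 2 = 0 := by
      refine Finset.sum_eq_zero fun k hk => ?_
      rw [mainF_eq_zero_of_not_mem (Finset.mem_filter.mp hk).2]
      simp
    rw [h0, add_zero]
    refine Finset.sum_le_sum_of_subset_of_nonneg ?_ ?_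
    · intro k hk
      exact (Finset.mem_filter.mp hk).2
    · intro k _ _
      have : (0 : ℝ) < 2 ^ k := by positivity
      have := Real.rpow_nonneg this.le (-p)
      positivity
  calc _ ≤ _ := hsub
    _ ≤ ∑ k ∈ win l (v e), 4 ^ (2 * l) * |v e| ^ p := Finset.sum_le_sum hterm
    _ = ((win l (v e)).card : ℝ) * (4 ^ (2 * l) * |v e| ^ p) := by
        rw [Finset.sum_const, nsmul_eq_mul]
    _ ≤ (2 * l) * (4 ^ (2 * l) * |v e| ^ p) := by
        have : ((win l (v e)).card : ℝ) ≤ 2 * l := by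
          rw [win, Int.card_Ioo]
          have : (2 * l - Int.log 2 |v e| - -Int.log 2 |v e| - 1 : ℤ).toNat ≤ 2 * l := by omega
          exact_mod_cast this
        have h0 : 0 ≤ |v e| ^ p := by positivity
        gcongr
    _ = _ := by ring

theorem weight_succ {p : ℝ} (hp : 1 ≤ p) (k : ℤ) :
    2 * ((2 : ℝ) ^ (k + 1)) ^ (-p) ≤ ((2 : ℝ) ^ k) ^ (-p) := by
  have h2 : (0 : ℝ) < 2 ^ k := by positivity
  rw [zpow_add₀ (by norm_num), zpow_one, Real.mul_rpow h2.le (by norm_num)]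
  have h3 : 2 * (2 : ℝ) ^ (-p) ≤ 1 := by
    rw [Real.rpow_neg (by norm_num), ← div_eq_mul_inv, div_le_one (by positivity)]
    calc (2 : ℝ) = 2 ^ (1 : ℝ) := by rw [Real.rpow_one]
      _ ≤ 2 ^ p := Real.rpow_le_rpow_of_exponent_le (by norm_num) hp
  have h4 : 0 ≤ ((2 : ℝ) ^ k) ^ (-p) := by positivity
  nlinarith

theorem sum_weight_le {p : ℝ} (hp : 1 ≤ p) (a : ℤ) (n : ℕ) :
    ∑ j ∈ Finset.range n, ((2 : ℝ) ^ (a + j + 1)) ^ (-p) ≤
      ((2 : ℝ) ^ a) ^ (-p) - ((2 : ℝ) ^ (a + n)) ^ (-p) := by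
  induction n with
  | zero => simp
  | succ n ih =>
    rw [Finset.sum_range_succ]
    have := weight_succ hp (a + n)
    have h : a + ((n + 1 : ℕ) : ℤ) = a + n + 1 := by push_cast; ring
    rw [h]
    linarith

/-- activity bound -/
theorem main_activity {p : ℝ} (hp : 1 ≤ p) (l : ℕ) (v : E → ℝ) (e : E) (K : Finset ℤ) :
    ∑ k ∈ K.filter (fun k => mainF l v k e ≠ 0), ((2 : ℝ) ^ k) ^ (-p) ≤ |v e| ^ p := by
  by_cases hv : v e = 0
  · have : K.filter (fun k => mainF l v k e ≠ 0) = ∅ := by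
      refine Finset.filter_eq_empty_iff.mpr fun k _ => ?_
      simp [mainF, hv]
    rw [this, Finset.sum_empty]
    positivity
  have hv' : 0 < |v e| := abs_pos.mpr hv
  have hpos : ∀ k : ℤ, 0 ≤ ((2 : ℝ) ^ k) ^ (-p) := fun k => by positivity
  calc ∑ k ∈ K.filter (fun k => mainF l v k e ≠ 0), ((2 : ℝ) ^ k) ^ (-p)
      ≤ ∑ k ∈ win l (v e), ((2 : ℝ) ^ k) ^ (-p) := by
        refine Finset.sum_le_sum_of_subset_of_nonneg ?_ fun k _ _ => hpos k
        intro k hk
        exact (mainF_ne_zero (Finset.mem_filter.mp hk).2).2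
    _ ≤ ∑ k ∈ (Finset.range (2 * l)).image (fun j : ℕ => -Int.log 2 |v e| + j + 1),
          ((2 : ℝ) ^ k) ^ (-p) := by
        refine Finset.sum_le_sum_of_subset_of_nonneg ?_ fun k _ _ => hpos k
        intro k hk
        simp only [win, mem_Ioo] at hk
        simp only [mem_image, mem_range]
        refine ⟨(k - 1 + Int.log 2 |v e|).toNat, ?_, ?_⟩
        · omega
        · rw [Int.toNat_of_nonneg (by omega)]; ring
    _ = ∑ j ∈ Finset.range (2 * l), ((2 : ℝ) ^ (-Int.log 2 |v e| + j + 1)) ^ (-p) := by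
        rw [Finset.sum_image]
        intro i _ j _ hij
        simpa using hij
    _ ≤ ((2 : ℝ) ^ (-Int.log 2 |v e|)) ^ (-p) := by
        have := sum_weight_le hp (-Int.log 2 |v e|) (2 * l)
        have h := hpos (-Int.log 2 |v e| + (2 * l : ℕ))
        linarith
    _ = ((2 : ℝ) ^ (Int.log 2 |v e|)) ^ p := by
        rw [zpow_neg, Real.inv_rpow (by positivity), Real.rpow_neg (by positivity), inv_inv]
    _ ≤ |v e| ^ p := Real.rpow_le_rpow (by positivity) (log_le hv') (by linarith)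

end mainF

end Crest.Agent.R232
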