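import Mathlib

/-!
R232 / S359: isometric embeddings of `4 m + 1` points of `ℓ^p (m × m)` into `ℓ^p_d` need `m ^ 2 ≤ d`.
-/

set_option autoImplicit false

open MeasureTheory
open scoped ENNReal

namespace Crest.Agent.R232

/-! ### real inequalities -/

lemma abs_rpow_eq (a : ℝ) (q : ℝ) : |a| ^ q = (a ^ 2) ^ (q / 2) := by
  rw [← sq_abs, ← Real.rpow_natCast (|a|) 2, ← Real.rpow_mul (abs_nonneg a)]
  congr 1
  push_cast
  ring

lemma super {x y r : ℝ} (hx : 0 < x) (hy : 0 < y) (hr : 1 < r) : x ^ r + y ^ r < (x + y) ^ r := by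
  have hxy : 0 < x + y := by linarith
  have e : ∀ t : ℝ, 0 < t → t ^ r = t * t ^ (r - 1) := by
    intro t ht
    rw [Real.rpow_sub_one ht.ne']; field_simp
  rw [e x hx, e y hy, e (x + y) hxy, add_mul]
  have h1 : x ^ (r - 1) < (x + y) ^ (r - 1) := Real.rpow_lt_rpow hx.le (by linarith) (by linarith)
  have h2 : y ^ (r - 1) < (x + y) ^ (r - 1) := Real.rpow_lt_rpow hy.le (by linarith) (by linarith)
  nlinarith

lemma sub {x y r : ℝ} (hx : 0 < x) (hy : 0 < y) (hr : r < 1) : (x + y) ^ r < x ^ r + y ^ r := by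
  have hxy : 0 < x + y := by linarith
  have e : ∀ t : ℝ, 0 < t → t ^ r = t * t ^ (r - 1) := by
    intro t ht
    rw [Real.rpow_sub_one ht.ne']; field_simp
  rw [e x hx, e y hy, e (x + y) hxy, add_mul]
  have h1 : (x + y) ^ (r - 1) < x ^ (r - 1) := Real.rpow_lt_rpow_of_neg hx (by linarith) (by linarith)
  have h2 : (x + y) ^ (r - 1) < y ^ (r - 1) := Real.rpow_lt_rpow_of_neg hy (by linarith) (by linarith)
  nlinarith

/-- the defect in Clarkson's equality -/
noncomputable def cl (q a b : ℝ) : ℝ := |a + b| ^ q + |a - b| ^ q - 2 * |a| ^ q - 2 * |b| ^ q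

lemma cl_pos {q a b : ℝ} (hq : 2 < q) (ha : a ≠ 0) (hb : b ≠ 0) : 0 < cl q a b := by
  unfold cl
  rw [abs_rpow_eq (a + b), abs_rpow_eq (a - b), abs_rpow_eq a, abs_rpow_eq b]
  have ha2 : 0 < a ^ 2 := by positivity
  have hb2 : 0 < b ^ 2 := by positivity
  have h1 := super ha2 hb2 (r := q / 2) (by linarith)
  have m1 : (a + b) ^ 2 ∈ Set.Ici (0 : ℝ) := by rw [Set.mem_Ici]; positivity
  have m2 : (a - b) ^ 2 ∈ Set.Ici (0 : ℝ) := by rw [Set.mem_Ici]; positivity
  have h2 := (convexOn_rpow (p := q / 2) (by linarith)).2 m1 m2 (show (0 : ℝ) ≤ 1 / 2 by norm_num)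
    (show (0 : ℝ) ≤ 1 / 2 by norm_num) (by norm_num)
  simp only [smul_eq_mul] at h2
  have h3 : 1 / 2 * (a + b) ^ 2 + 1 / 2 * (a - b) ^ 2 = a ^ 2 + b ^ 2 := by ring
  rw [h3] at h2
  linarith

lemma cl_neg {q a b : ℝ} (hq0 : 0 ≤ q) (hq : q < 2) (ha : a ≠ 0) (hb : b ≠ 0) : cl q a b < 0 := by
  unfold cl
  rw [abs_rpow_eq (a + b), abs_rpow_eq (a - b), abs_rpow_eq a, abs_rpow_eq b]
  have ha2 : 0 < a ^ 2 := by positivity
  have hb2 : 0 < b ^ 2 := by positivity
  have h1 := sub ha2 hb2 (r := q / 2) (by linarith)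
  have m1 : (a + b) ^ 2 ∈ Set.Ici (0 : ℝ) := by rw [Set.mem_Ici]; positivity
  have m2 : (a - b) ^ 2 ∈ Set.Ici (0 : ℝ) := by rw [Set.mem_Ici]; positivity
  have h2 := (Real.concaveOn_rpow (p := q / 2) (by linarith) (by linarith)).2 m1 m2
    (show (0 : ℝ) ≤ 1 / 2 by norm_num) (show (0 : ℝ) ≤ 1 / 2 by norm_num) (by norm_num)
  simp only [smul_eq_mul] at h2
  have h3 : 1 / 2 * (a + b) ^ 2 + 1 / 2 * (a - b) ^ 2 = a ^ 2 + b ^ 2 := by ring
  rw [h3] at h2
  linarith

lemma cl_zero {q a b : ℝ} (hq : 0 < q) (h : a = 0 ∨ b = 0) : cl q a b = 0 := by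
  unfold cl
  rcases h with rfl | rfl
  · simp [Real.zero_rpow hq.ne']; ring
  · simp [Real.zero_rpow hq.ne']; ring

/-- equality in a sum of Clarkson defects forces disjoint supports -/
lemma cl_sum_zero {ι : Type*} [Fintype ι] {q : ℝ} (hq : 0 < q) (hq2 : q ≠ 2) (a b : ι → ℝ)
    (h : ∑ k, cl q (a k) (b k) = 0) (k : ι) : a k = 0 ∨ b k = 0 := by
  rcases lt_or_gt_of_ne hq2 with h2 | h2
  · have hle : ∀ k ∈ Finset.univ, cl q (a k) (b k) ≤ 0 := by
      intro k _
      by_cases hk : a k = 0 ∨ b k = 0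
      · rw [cl_zero hq hk]
      · push Not at hk
        exact (cl_neg hq.le h2 hk.1 hk.2).le
    have := (Finset.sum_eq_zero_iff_of_nonpos hle).mp h k (Finset.mem_univ k)
    by_contra hk
    push Not at hk
    exact absurd this (cl_neg hq.le h2 hk.1 hk.2).ne
  · have hle : ∀ k ∈ Finset.univ, 0 ≤ cl q (a k) (b k) := by
      intro k _
      by_cases hk : a k = 0 ∨ b k = 0
      · rw [cl_zero hq hk]
      · push Not at hk
        exact (cl_pos h2 hk.1 hk.2).le
    have := (Finset.sum_eq_zero_iff_of_nonneg hle).mp h k (Finset.mem_univ k)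
    by_contra hk
    push Not at hk
    exact absurd this (cl_pos h2 hk.1 hk.2).ne'

/-- strict convexity: equality forces opposite values -/
lemma opp_lt {q a b : ℝ} (hq : 1 < q) (h : a + b ≠ 0) :
    |a - b| ^ q < 2 ^ q * ((|a| ^ q + |b| ^ q) / 2) := by
  have hq0 : 0 < q := by linarith
  have key : (|a - b| / 2) ^ q < (|a| ^ q + |b| ^ q) / 2 := by
    by_cases hab : |a| = |b|
    · rcases abs_eq_abs.mp hab with e | e
      · subst e
        have ha : a ≠ 0 := by
          rintro rfl; exact h (by ring)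
        simp only [sub_self, abs_zero, zero_div, Real.zero_rpow hq0.ne']
        have : 0 < |a| ^ q := Real.rpow_pos_of_pos (abs_pos.mpr ha) _
        linarith
      · exact absurd (by rw [e]; ring) h
    · have m1 : |a| ∈ Set.Ici (0 : ℝ) := by rw [Set.mem_Ici]; positivity
      have m2 : |b| ∈ Set.Ici (0 : ℝ) := by rw [Set.mem_Ici]; positivity
      have h2 := (strictConvexOn_rpow hq).2 m1 m2 hab
        (show (0 : ℝ) < 1 / 2 by norm_num) (show (0 : ℝ) < 1 / 2 by norm_num) (by norm_num)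
      simp only [smul_eq_mul] at h2
      have h3 : (|a - b| / 2) ^ q ≤ (1 / 2 * |a| + 1 / 2 * |b|) ^ q := by
        apply Real.rpow_le_rpow (by positivity) _ hq0.le
        have := abs_sub a b
        linarith
      linarith
  have e : |a - b| ^ q = 2 ^ q * (|a - b| / 2) ^ q := by
    rw [← Real.mul_rpow (by norm_num) (by positivity)]
    congr 1; ring
  rw [e]
  exact mul_lt_mul_of_pos_left key (Real.rpow_pos_of_pos (by norm_num) _)

lemma opp_le {q a b : ℝ} (hq : 1 < q) :
    |a - b| ^ q ≤ 2 ^ q * ((|a| ^ q + |b| ^ q) / 2) := by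
  by_cases h : a + b = 0
  · have hb : b = -a := by linarith
    subst hb
    rw [abs_neg, sub_neg_eq_add, ← two_mul, abs_mul, Real.mul_rpow (abs_nonneg _) (abs_nonneg _)]
    simp
  · exact (opp_lt hq h).le

lemma opp_sum {ι : Type*} [Fintype ι] {q : ℝ} (hq : 1 < q) (a b : ι → ℝ) {M : ℝ}
    (ha : ∑ k, |a k| ^ q = M) (hb : ∑ k, |b k| ^ q = M) (hab : ∑ k, |a k - b k| ^ q = 2 ^ q * M)
    (k : ι) : b k = - a k := by
  by_contra hc
  have hk : a k + b k ≠ 0 := by
    intro e; exact hc (by linarith)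
  have h1 : ∑ k, |a k - b k| ^ q < ∑ k, 2 ^ q * ((|a k| ^ q + |b k| ^ q) / 2) :=
    Finset.sum_lt_sum (fun k _ => opp_le hq) ⟨k, Finset.mem_univ k, opp_lt hq hk⟩
  rw [← Finset.mul_sum, ← Finset.sum_div, Finset.sum_add_distrib, ha, hb, hab] at h1
  have : 2 ^ q * ((M + M) / 2) = 2 ^ q * M := by ring
  linarith

/-! ### the combinatorial core -/

/-- indicator of a row -/
def row {m : ℕ} (i : Fin m) : Fin m × Fin m → ℝ := fun ω => if ω.1 = i then 1 else 0
/-- indicator of a column -/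
def col {m : ℕ} (j : Fin m) : Fin m × Fin m → ℝ := fun ω => if ω.2 = j then 1 else 0

/-- the set of points -/
def pts (m : ℕ) : Set (Fin m × Fin m → ℝ) :=
  {0} ∪ (Set.range row ∪ Set.range (fun i => -row i)) ∪ (Set.range col ∪ Set.range (fun i => -col i))

theorem core {m d : ℕ} {q : ℝ} (hq : 1 < q) (hq2 : q ≠ 2)
    (F : (Fin m × Fin m → ℝ) → Fin d → ℝ) (c : ℝ) (hc : 0 < c)
    (hF : ∀ f ∈ pts m, ∀ g ∈ pts m, ∑ k, |F f k - F g k| ^ q = c * ∑ ω, |f ω - g ω| ^ q) :
    m ^ 2 ≤ d := by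
  have hq0 : 0 < q := by linarith
  have m0 : (0 : Fin m × Fin m → ℝ) ∈ pts m := by left; left; rfl
  have mr : ∀ i, row i ∈ pts m := fun i => by left; right; left; exact ⟨i, rfl⟩
  have mr' : ∀ i, -row i ∈ pts m := fun i => by left; right; right; exact ⟨i, rfl⟩
  have mc : ∀ i, col i ∈ pts m := fun i => by right; left; exact ⟨i, rfl⟩
  have mc' : ∀ i, -col i ∈ pts m := fun i => by right; right; exact ⟨i, rfl⟩
  -- translate
  set T : (Fin m × Fin m → ℝ) → Fin d → ℝ := fun f k => F f k - F 0 k with hT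
  have hTF : ∀ f ∈ pts m, ∀ g ∈ pts m, ∑ k, |T f k - T g k| ^ q = c * ∑ ω, |f ω - g ω| ^ q := by
    intro f hf g hg
    rw [← hF f hf g hg]
    refine Finset.sum_congr rfl (fun k _ => ?_)
    simp only [hT]
    congr 2
    ring
  have hT0 : ∀ f ∈ pts m, ∑ k, |T f k| ^ q = c * ∑ ω, |f ω| ^ q := by
    intro f hf
    have h1 := hTF f hf 0 m0
    have h2 : ∀ k, T 0 k = 0 := fun k => by simp [hT]
    simp only [h2, sub_zero, Pi.zero_apply] at h1
    exact h1
  have odd : ∀ f, f ∈ pts m → -f ∈ pts m → ∀ k, T (-f) k = - T f k := by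
    intro f hf hf' k
    apply opp_sum hq (T f) (T (-f)) (M := c * ∑ ω, |f ω| ^ q) (hT0 f hf)
    · rw [hT0 _ hf']; simp
    · rw [hTF f hf _ hf', Finset.mul_sum, Finset.mul_sum, Finset.mul_sum]
      refine Finset.sum_congr rfl (fun ω _ => ?_)
      have : f ω - (-f) ω = 2 * f ω := by simp; ring
      rw [this, abs_mul, Real.mul_rpow (abs_nonneg _) (abs_nonneg _)]
      simp
      ring
  have clT : ∀ f g, f ∈ pts m → g ∈ pts m → -g ∈ pts m →
      ∑ k, cl q (T f k) (T g k) = c * ∑ ω, cl q (f ω) (g ω) := by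
    intro f g hf hg hg'
    unfold cl
    simp only [Finset.sum_sub_distrib, Finset.sum_add_distrib, ← Finset.mul_sum]
    have h1 : ∑ k, |T f k + T g k| ^ q = c * ∑ ω, |f ω + g ω| ^ q := by
      have := hTF f hf (-g) hg'
      have h2 : ∀ k, T f k - T (-g) k = T f k + T g k := fun k => by
        rw [odd g hg hg' k]; ring
      simp only [h2, Pi.neg_apply, sub_neg_eq_add] at this
      exact this
    rw [h1, hTF f hf g hg, hT0 f hf, hT0 g hg]
    ring
  -- rows
  have rr : ∀ i i', i ≠ i' → ∀ k, T (row i) k = 0 ∨ T (row i') k = 0 := by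
    intro i i' hne
    apply cl_sum_zero hq0 hq2
    rw [clT _ _ (mr i) (mr i') (mr' i')]
    have : ∀ ω : Fin m × Fin m, cl q (row i ω) (row i' ω) = 0 := by
      intro ω
      apply cl_zero hq0
      unfold row
      by_cases h : ω.1 = i
      · right; rw [if_neg]; rw [h]; exact hne
      · left; rw [if_neg h]
    simp [this]
  have cc : ∀ i i', i ≠ i' → ∀ k, T (col i) k = 0 ∨ T (col i') k = 0 := by
    intro i i' hne
    apply cl_sum_zero hq0 hq2
    rw [clT _ _ (mc i) (mc i') (mc' i')]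
    have : ∀ ω : Fin m × Fin m, cl q (col i ω) (col i' ω) = 0 := by
      intro ω
      apply cl_zero hq0
      unfold col
      by_cases h : ω.2 = i
      · right; rw [if_neg]; rw [h]; exact hne
      · left; rw [if_neg h]
    simp [this]
  have rc : ∀ i j, ∃ k, T (row i) k ≠ 0 ∧ T (col j) k ≠ 0 := by
    intro i j
    by_contra hno
    push Not at hno
    have h1 : ∑ k, cl q (T (row i) k) (T (col j) k) = 0 := by
      refine Finset.sum_eq_zero (fun k _ => cl_zero hq0 ?_)
      by_cases h : T (row i) k = 0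
      · left; exact h
      · right; exact hno k h
    rw [clT _ _ (mr i) (mc j) (mc' j)] at h1
    have h2 : ∑ ω : Fin m × Fin m, cl q (row i ω) (col j ω) = 0 := by
      rcases mul_eq_zero.mp h1 with h | h
      · exact absurd h hc.ne'
      · exact h
    rcases cl_sum_zero hq0 hq2 (fun ω => row i ω) (fun ω => col j ω) h2 (i, j) with h | h
    · simp [row] at h
    · simp [col] at h
  choose κ hκ using rc
  have hinj : Function.Injective (fun ω : Fin m × Fin m => κ ω.1 ω.2) := by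
    rintro ⟨i, j⟩ ⟨i', j'⟩ h
    simp only at h
    have hi : i = i' := by
      by_contra hne
      rcases rr i i' hne (κ i j) with h1 | h1
      · exact (hκ i j).1 h1
      · rw [h] at h1; exact (hκ i' j').1 h1
    have hj : j = j' := by
      by_contra hne
      rcases cc j j' hne (κ i j) with h1 | h1
      · exact (hκ i j).2 h1
      · rw [h] at h1; exact (hκ i' j').2 h1
    rw [hi, hj]
  have := Fintype.card_le_of_injective _ hinj
  simpa [sq] using this

end Crest.Agent.R232
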