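import Crest.Agent.R232.T1Ent

/-! # T1, part 3: the chain operator -/

set_option autoImplicit false
open Finset

namespace Crest.Agent.R232.T1

open Crest.Agent.R232

variable {X : Type*} [Fintype X]
variable {π : X → ℝ} {c : X → X → ℝ} {δ : ℝ}

noncomputable def alp (W : X × X → ℝ) (d : X → X → ℝ) (q : X → ℝ) : ℝ :=
  ∑ e, W e * |grad d q e|

omit [Fintype X] in
theorem grad_sum {ι : Type*} (s : Finset ι) (d : X → X → ℝ) (r : ι → ℝ) (f : ι → X → ℝ)
    (e : X × X) :
    grad d (fun x => ∑ z ∈ s, r z * f z x) e = ∑ z ∈ s, r z * grad d (f z) e := by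
  simp only [grad]
  rw [← Finset.sum_sub_distrib, Finset.sum_div]
  exact Finset.sum_congr rfl fun z _ => by ring

theorem alp_sq_le {d : X → X → ℝ} (hd : IsDist d) {W : X × X → ℝ} (hW0 : ∀ e, 0 ≤ W e)
    (hW_symm : ∀ x y, W (x, y) = W (y, x)) (hW_diag : ∀ x, W (x, x) = 0)
    (hπ : ∀ x, π x = ∑ y, W (x, y)) (hc : ∀ x y, c x y = W (x, y) / d x y ^ 2)
    (q : X → ℝ) (hq : ∀ x, 0 ≤ q x) (hq1 : ip π q (fun _ => 1) = 1) :
    alp W d q ^ 2 ≤ 2 * J c q := by
  have hcs := Finset.sum_sq_le_sum_mul_sum_of_sq_le_mul (Finset.univ : Finset (X × X))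
    (r := fun e => W e * |grad d q e|) (f := fun e => W e * (q e.1 + q e.2))
    (g := fun e => c e.1 e.2 * ((q e.1 - q e.2) ^ 2 / (q e.1 + q e.2)))
    (fun e _ => mul_nonneg (hW0 e) (add_nonneg (hq _) (hq _)))
    (fun e _ => mul_nonneg (by rw [hc]; exact div_nonneg (hW0 _) (sq_nonneg _))
      (div_nonneg (sq_nonneg _) (add_nonneg (hq _) (hq _))))
    (by
      rintro ⟨x, y⟩ _
      by_cases hxy : x = y
      · subst hxy; simp [hW_diag]
      · have hdp := hd.pos x y hxy
        simp only [hc, grad]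
        rw [mul_pow, sq_abs]
        rcases eq_or_lt_of_le (add_nonneg (hq x) (hq y)) with h0 | h0
        · have hx : q x = 0 := by have := hq x; have := hq y; linarith
          have hy : q y = 0 := by have := hq x; have := hq y; linarith
          simp [hx, hy]
        · refine le_of_eq ?_
          have := h0.ne'
          field_simp)
  have hf : ∑ e : X × X, W e * (q e.1 + q e.2) = 2 := by
    rw [Fintype.sum_prod_type]
    have e1 : ∑ x, ∑ y, W (x, y) * (q x + q y)
        = ∑ x, ∑ y, W (x, y) * q x + ∑ x, ∑ y, W (x, y) * q y := by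
      rw [← Finset.sum_add_distrib]
      refine Finset.sum_congr rfl fun x _ => ?_
      rw [← Finset.sum_add_distrib]
      exact Finset.sum_congr rfl fun y _ => by ring
    have e2 : ∑ x, ∑ y, W (x, y) * q y = ∑ x, ∑ y, W (x, y) * q x := by
      rw [Finset.sum_comm]
      refine Finset.sum_congr rfl fun x _ => Finset.sum_congr rfl fun y _ => ?_
      rw [hW_symm y x]
    have e3 : ∑ x, ∑ y, W (x, y) * q x = 1 := by
      rw [← hq1]; unfold ip
      refine Finset.sum_congr rfl fun x _ => ?_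
      rw [hπ x, ← Finset.sum_mul]; ring
    simp only
    rw [e1, e2, e3]; norm_num
  have hg : ∑ e : X × X, c e.1 e.2 * ((q e.1 - q e.2) ^ 2 / (q e.1 + q e.2)) = J c q := by
    rw [Fintype.sum_prod_type]; rfl
  rw [hf, hg] at hcs
  exact hcs

variable [DecidableEq X]

/-- mixed second difference of the heat kernel -/
noncomputable def HH (π : X → ℝ) (c : X → X → ℝ) (δ : ℝ) (d : X → X → ℝ) (k : ℕ)
    (e' e : X × X) : ℝ :=
  grad d (fun x => grad d (fun a => hk π c δ k a x) e') e

theorem HH_eq (h : IsChain π c δ) (d : X → X → ℝ) (i j : ℕ) (e' e : X × X) :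
    HH π c δ d (i + j) e' e
      = ∑ z, π z * (grad d (hk π c δ i z) e' * grad d (hk π c δ j z) e) := by
  have h1 : ∀ x, grad d (fun a => hk π c δ (i + j) a x) e'
      = ∑ z, (π z * grad d (hk π c δ i z) e') * hk π c δ j z x := by
    intro x
    have : (fun a => hk π c δ (i + j) a x)
        = fun a => ∑ z, (π z * hk π c δ j z x) * hk π c δ i z a := by
      funext a
      rw [hk_add h]
      exact Finset.sum_congr rfl fun z _ => by ring
    rw [this, grad_sum]
    exact Finset.sum_congr rfl fun z _ => by ring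
  unfold HH
  simp only [h1]
  rw [grad_sum]
  exact Finset.sum_congr rfl fun z _ => by ring

/-- row sums at level `k` -/
noncomputable def RR (π : X → ℝ) (c : X → X → ℝ) (δ : ℝ) (d : X → X → ℝ) (W : X × X → ℝ)
    (k : ℕ) : ℝ := ∑ e, ∑ e', W e * (W e' * |HH π c δ d k e' e|)

theorem RR_le (h : IsChain π c δ) (d : X → X → ℝ) {W : X × X → ℝ} (hW0 : ∀ e, 0 ≤ W e)
    (i j : ℕ) :
    RR π c δ d W (i + j)
      ≤ ∑ z, π z * (alp W d (hk π c δ i z) * alp W d (hk π c δ j z)) := by
  unfold RR
  have h1 : ∀ e e', W e * (W e' * |HH π c δ d (i + j) e' e|)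
      ≤ ∑ z, π z * ((W e' * |grad d (hk π c δ i z) e'|) * (W e * |grad d (hk π c δ j z) e|)) := by
    intro e e'
    rw [HH_eq h]
    have h2 : |∑ z, π z * (grad d (hk π c δ i z) e' * grad d (hk π c δ j z) e)|
        ≤ ∑ z, π z * (|grad d (hk π c δ i z) e'| * |grad d (hk π c δ j z) e|) := by
      refine (Finset.abs_sum_le_sum_abs _ _).trans (le_of_eq ?_)
      refine Finset.sum_congr rfl fun z _ => ?_
      rw [abs_mul, abs_mul, abs_of_pos (h.pos z)]
    refine (mul_le_mul_of_nonneg_left (mul_le_mul_of_nonneg_left h2 (hW0 e')) (hW0 e)).trans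
      (le_of_eq ?_)
    rw [Finset.mul_sum, Finset.mul_sum]
    exact Finset.sum_congr rfl fun z _ => by ring
  refine (Finset.sum_le_sum fun e _ => Finset.sum_le_sum fun e' _ => h1 e e').trans (le_of_eq ?_)
  calc ∑ e, ∑ e', ∑ z, π z *
        ((W e' * |grad d (hk π c δ i z) e'|) * (W e * |grad d (hk π c δ j z) e|))
      = ∑ z, ∑ e, ∑ e', π z *
        ((W e' * |grad d (hk π c δ i z) e'|) * (W e * |grad d (hk π c δ j z) e|)) := by
        rw [Finset.sum_comm]
        conv_rhs => rw [Finset.sum_comm]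
        rw [Finset.sum_comm]
        refine Finset.sum_congr rfl fun e _ => ?_
        rw [Finset.sum_comm]
    _ = _ := by
        refine Finset.sum_congr rfl fun z _ => ?_
        unfold alp
        rw [Finset.sum_mul_sum, Finset.mul_sum]
        rw [Finset.sum_comm]
        refine Finset.sum_congr rfl fun e _ => ?_
        rw [Finset.mul_sum]

/-- `A_m` -/
noncomputable def AA (π : X → ℝ) (c : X → X → ℝ) (δ : ℝ) (d : X → X → ℝ) (W : X × X → ℝ)
    (m : ℕ) : ℝ := ∑ z, π z * alp W d (hk π c δ m z) ^ 2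

theorem AA_nonneg (h : IsChain π c δ) (d : X → X → ℝ) (W : X × X → ℝ) (m : ℕ) :
    0 ≤ AA π c δ d W m :=
  Finset.sum_nonneg fun z _ => mul_nonneg (h.pos z).le (sq_nonneg _)

theorem RR_even (h : IsChain π c δ) (d : X → X → ℝ) {W : X × X → ℝ} (hW0 : ∀ e, 0 ≤ W e)
    (m : ℕ) : RR π c δ d W (2 * m) ≤ AA π c δ d W m := by
  rw [two_mul]
  refine (RR_le h d hW0 m m).trans (le_of_eq ?_)
  exact Finset.sum_congr rfl fun z _ => by ring

theorem RR_odd (h : IsChain π c δ) (d : X → X → ℝ) {W : X × X → ℝ} (hW0 : ∀ e, 0 ≤ W e)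
    (m : ℕ) : RR π c δ d W (2 * m + 1) ≤ 1 / 2 * (AA π c δ d W m + AA π c δ d W (m + 1)) := by
  have : 2 * m + 1 = m + (m + 1) := by ring
  rw [this]
  refine (RR_le h d hW0 m (m + 1)).trans ?_
  unfold AA
  rw [← Finset.sum_add_distrib, Finset.mul_sum]
  refine Finset.sum_le_sum fun z _ => ?_
  have hz := h.pos z
  set a := alp W d (hk π c δ m z)
  set b := alp W d (hk π c δ (m + 1) z)
  have : a * b ≤ (a ^ 2 + b ^ 2) / 2 := by nlinarith [sq_nonneg (a - b)]
  calc π z * (a * b) ≤ π z * ((a ^ 2 + b ^ 2) / 2) := mul_le_mul_of_nonneg_left this hz.le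
    _ = _ := by ring

theorem sum_RR_le (h : IsChain π c δ) (d : X → X → ℝ) {W : X × X → ℝ} (hW0 : ∀ e, 0 ≤ W e)
    (K : ℕ) : ∑ k ∈ range (2 * K), RR π c δ d W k + 3 / 2 * AA π c δ d W K
      ≤ 2 * ∑ m ∈ range (K + 1), AA π c δ d W m := by
  induction K with
  | zero => simp; have := AA_nonneg h d W 0; linarith
  | succ K ih =>
    have e : 2 * (K + 1) = 2 * K + 1 + 1 := by ring
    rw [e, Finset.sum_range_succ, Finset.sum_range_succ, Finset.sum_range_succ _ (K + 1)]
    have h1 := RR_even h d hW0 K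
    have h2 := RR_odd h d hW0 K
    linarith

/-- the entropy bound on the row sums -/
theorem sum_AA_le [Nonempty X] (h : IsChain π c δ) {d : X → X → ℝ} (hd : IsDist d)
    {W : X × X → ℝ} (hW0 : ∀ e, 0 ≤ W e)
    (hW_symm : ∀ x y, W (x, y) = W (y, x)) (hW_diag : ∀ x, W (x, x) = 0)
    (hπ : ∀ x, π x = ∑ y, W (x, y)) (hc : ∀ x y, c x y = W (x, y) / d x y ^ 2) (K : ℕ) :
    δ * ∑ m ∈ range K, AA π c δ d W m ≤ 4 * Real.log (Fintype.card X) := by
  have h1 : ∀ z, δ * ∑ m ∈ range K, alp W d (hk π c δ m z) ^ 2 ≤ 4 * (- Real.log (π z)) := by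
    intro z
    have h2 : ∑ m ∈ range K, alp W d (hk π c δ m z) ^ 2
        ≤ ∑ m ∈ range K, 2 * J c (hk π c δ m z) :=
      Finset.sum_le_sum fun m _ => alp_sq_le hd hW0 hW_symm hW_diag hπ hc _ (hk_nonneg h m z)
        (hk_mass h m z)
    rw [← Finset.mul_sum] at h2
    have h3 := sum_J_le h z K
    have h4 := mul_le_mul_of_nonneg_left h2 h.δpos.le
    linarith
  calc δ * ∑ m ∈ range K, AA π c δ d W m
      = ∑ z, π z * (δ * ∑ m ∈ range K, alp W d (hk π c δ m z) ^ 2) := by
        unfold AA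
        rw [Finset.sum_comm, Finset.mul_sum]
        refine Finset.sum_congr rfl fun z _ => ?_
        rw [← Finset.mul_sum]; ring
    _ ≤ ∑ z, π z * (4 * (- Real.log (π z))) :=
        Finset.sum_le_sum fun z _ => mul_le_mul_of_nonneg_left (h1 z) (h.pos z).le
    _ = 4 * ∑ z, π z * (- Real.log (π z)) := by
        rw [Finset.mul_sum]; exact Finset.sum_congr rfl fun z _ => by ring
    _ ≤ 4 * Real.log (Fintype.card X) :=
        mul_le_mul_of_nonneg_left (sum_entropy_le h.pos h.sum_one) (by norm_num)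

/-- `D*` as a linear map -/
noncomputable def Dst (π : X → ℝ) (W : X × X → ℝ) (d : X → X → ℝ) :
    (X × X → ℝ) →ₗ[ℝ] (X → ℝ) where
  toFun V := fun x => (π x)⁻¹ * ∑ y, W (x, y) / (2 * d x y) * (V (x, y) - V (y, x))
  map_add' V V' := by
    funext x
    simp only [Pi.add_apply]
    rw [← mul_add, ← Finset.sum_add_distrib]
    congr 1
    exact Finset.sum_congr rfl fun y _ => by ring
  map_smul' r V := by
    funext x
    simp only [Pi.smul_apply, smul_eq_mul, RingHom.id_apply]
    rw [mul_left_comm, Finset.mul_sum (a := r)]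
    congr 1
    exact Finset.sum_congr rfl fun y _ => by ring

omit [DecidableEq X] in
theorem Dst_apply (π : X → ℝ) (W : X × X → ℝ) (d : X → X → ℝ) (V : X × X → ℝ) (x : X) :
    Dst π W d V x = (π x)⁻¹ * ∑ y, W (x, y) / (2 * d x y) * (V (x, y) - V (y, x)) := rfl

omit [DecidableEq X] in
theorem ip_Dst (hπ : ∀ x, 0 < π x) {W : X × X → ℝ} {d : X → X → ℝ} (hd : IsDist d)
    (hW_symm : ∀ x y, W (x, y) = W (y, x)) (V : X × X → ℝ) (g : X → ℝ) :
    ip π (Dst π W d V) g = 1 / 2 * ∑ e, W e * (V e * grad d g e) := by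
  have h1 : ip π (Dst π W d V) g = ∑ x, ∑ y, W (x, y) / (2 * d x y) * (V (x, y) - V (y, x)) * g x := by
    unfold ip
    refine Finset.sum_congr rfl fun x _ => ?_
    rw [Dst_apply, ← Finset.sum_mul]
    have := (hπ x).ne'
    field_simp
  have h2 : ∑ x, ∑ y, W (x, y) / (2 * d x y) * (V (x, y) - V (y, x)) * g x
      = ∑ x, ∑ y, W (x, y) / (2 * d x y) * V (x, y) * g x
        - ∑ x, ∑ y, W (x, y) / (2 * d x y) * V (y, x) * g x := by
    rw [← Finset.sum_sub_distrib]
    refine Finset.sum_congr rfl fun x _ => ?_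
    rw [← Finset.sum_sub_distrib]
    exact Finset.sum_congr rfl fun y _ => by ring
  have h3 : ∑ x, ∑ y, W (x, y) / (2 * d x y) * V (y, x) * g x
      = ∑ x, ∑ y, W (x, y) / (2 * d x y) * V (x, y) * g y := by
    rw [Finset.sum_comm]
    refine Finset.sum_congr rfl fun x _ => Finset.sum_congr rfl fun y _ => ?_
    rw [hW_symm y x, hd.symm y x]
  rw [h1, h2, h3, ← Finset.sum_sub_distrib, Fintype.sum_prod_type, Finset.mul_sum]
  refine Finset.sum_congr rfl fun x _ => ?_
  rw [← Finset.sum_sub_distrib, Finset.mul_sum]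
  refine Finset.sum_congr rfl fun y _ => ?_
  simp only [grad]
  by_cases hxy : d x y = 0
  · simp [hxy]
  · field_simp

omit [DecidableEq X] in
theorem Dst_grad {W : X × X → ℝ} {d : X → X → ℝ} (hd : IsDist d)
    (hc : ∀ x y, c x y = W (x, y) / d x y ^ 2) (f : X → ℝ) :
    Dst π W d (grad d f) = Lop π c f := by
  funext x
  rw [Dst_apply, Lop_apply]
  congr 1
  refine Finset.sum_congr rfl fun y _ => ?_
  rw [grad_swap hd f x y, hc]
  simp only [grad]
  by_cases hxy : d x y = 0
  · simp [hxy]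
  · field_simp; ring

theorem Dst_single {W : X × X → ℝ} {d : X → X → ℝ} (hd : IsDist d)
    (hW_symm : ∀ x y, W (x, y) = W (y, x)) (e' : X × X) :
    Dst π W d (Pi.single e' 1)
      = (W e' / (2 * d e'.1 e'.2)) • (Pi.single e'.1 (π e'.1)⁻¹ - Pi.single e'.2 (π e'.2)⁻¹) := by
  obtain ⟨a, b⟩ := e'
  funext x
  rw [Dst_apply]
  have h1 : ∑ y, W (x, y) / (2 * d x y) * ((Pi.single (a, b) 1 : X × X → ℝ) (x, y) - (Pi.single (a, b) 1 : X × X → ℝ) (y, x))
      = (if x = a then W (a, b) / (2 * d a b) else 0) - (if x = b then W (a, b) / (2 * d a b) else 0) := by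
    have h2 : ∀ y, W (x, y) / (2 * d x y) * ((Pi.single (a, b) 1 : X × X → ℝ) (x, y) - (Pi.single (a, b) 1 : X × X → ℝ) (y, x))
        = (if y = b then (if x = a then W (a, b) / (2 * d a b) else 0) else 0)
          - (if y = a then (if x = b then W (a, b) / (2 * d a b) else 0) else 0) := by
      intro y
      simp only [Pi.single_apply, Prod.mk.injEq]
      by_cases hxa : x = a <;> by_cases hyb : y = b <;> by_cases hya : y = a <;>
        by_cases hxb : x = b <;> simp_all [hd.symm, hW_symm]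
    simp only [h2, Finset.sum_sub_distrib, Finset.sum_ite_eq', Finset.mem_univ, if_true]
  rw [h1]
  simp only [Pi.smul_apply, Pi.sub_apply, smul_eq_mul, Pi.single_apply]
  by_cases hxa : x = a
  · by_cases hxb : x = b
    · subst hxa; subst hxb; simp
    · subst hxa; simp [hxb]; ring
  · by_cases hxb : x = b
    · subst hxb; simp [hxa]; ring
    · simp [hxa, hxb]

omit [DecidableEq X] in
theorem telescope (f : X → ℝ) (K : ℕ) :
    f - (Pop π c δ ^ K) f = δ • ∑ k ∈ range K, (Pop π c δ ^ k) (Lop π c f) := by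
  induction K with
  | zero => simp
  | succ K ih =>
    rw [Finset.sum_range_succ, smul_add, ← ih]
    have e : (Pop π c δ ^ (K + 1)) f = (Pop π c δ ^ K) f - δ • (Pop π c δ ^ K) (Lop π c f) := by
      rw [pow_succ, Module.End.mul_apply]
      have : Pop π c δ f = f - δ • Lop π c f := by simp [Pop]
      rw [this, map_sub, map_smul]
    rw [e]; abel

omit [DecidableEq X] in
/-- kernel of the generator -/
theorem eq_of_Lop_eq_zero (h : IsChain π c δ) (hcpos : ∀ x y, x ≠ y → 0 < c x y) (g : X → ℝ)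
    (hg : Lop π c g = 0) (x y : X) : g x = g y := by
  by_contra hne
  have hxy : x ≠ y := fun e => hne (by rw [e])
  have h1 : ip π (Lop π c g) g = 0 := by rw [hg]; simp [ip]
  rw [ip_Lop h.pos h.symm] at h1
  have h2 : ∑ x, ∑ y, c x y * ((g x - g y) * (g x - g y)) = 0 := by linarith
  rw [Finset.sum_eq_zero_iff_of_nonneg (fun x _ => Finset.sum_nonneg fun y _ =>
    mul_nonneg (h.nonneg x y) (mul_self_nonneg _))] at h2
  have h3 := h2 x (Finset.mem_univ x)
  rw [Finset.sum_eq_zero_iff_of_nonneg (fun y _ =>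
    mul_nonneg (h.nonneg x y) (mul_self_nonneg _))] at h3
  have h4 := h3 y (Finset.mem_univ y)
  have h5 : g x - g y = 0 := by
    rcases mul_eq_zero.1 h4 with h | h
    · exact absurd h (hcpos x y hxy).ne'
    · simpa using h
  exact hne (sub_eq_zero.1 h5)

noncomputable def meanOp (π : X → ℝ) : (X → ℝ) →ₗ[ℝ] (X → ℝ) where
  toFun f := fun _ => ip π f (fun _ => 1)
  map_add' f g := by
    funext x
    simp only [Pi.add_apply, ip]
    rw [← Finset.sum_add_distrib]
    exact Finset.sum_congr rfl fun y _ => by ring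
  map_smul' r f := by
    funext x
    simp only [Pi.smul_apply, smul_eq_mul, RingHom.id_apply, ip]
    rw [Finset.mul_sum]
    exact Finset.sum_congr rfl fun y _ => by ring

omit [DecidableEq X] in
theorem ip_one_add_mean (h : IsChain π c δ) (f : X → ℝ) :
    ip π ((Lop π c + meanOp π) f) (fun _ => 1) = ip π f (fun _ => 1) := by
  have h0 := ip_one_Lop h f
  have h1 : ip π ((Lop π c + meanOp π) f) (fun _ => 1)
      = ip π (Lop π c f) (fun _ => 1) + ip π (fun _ => ip π f (fun _ => 1)) (fun _ => 1) := by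
    unfold ip
    rw [← Finset.sum_add_distrib]
    refine Finset.sum_congr rfl fun x _ => ?_
    simp only [LinearMap.add_apply, Pi.add_apply, meanOp, LinearMap.coe_mk, AddHom.coe_mk, ip]
    ring
  rw [h1, h0, zero_add]
  generalize ip π f (fun _ => 1) = r
  unfold ip
  rw [← Finset.sum_mul, h.sum_one]
  ring

end Crest.Agent.R232.T1

namespace Crest.Agent.R232

open T1

/-- T1: the chain lemma. -/
theorem chain_operator {X : Type*} [Fintype X] [DecidableEq X] (hn : 2 ≤ Fintype.card X)
    (d : X → X → ℝ) (hd : IsDist d) (W : X × X → ℝ)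
    (hW_symm : ∀ x y, W (x, y) = W (y, x)) (hW_diag : ∀ x, W (x, x) = 0)
    (hW_pos : ∀ x y, x ≠ y → 0 < W (x, y)) (hW_sum : ∑ e, W e = 1) :
    ∃ S : (X × X → ℝ) →ₗ[ℝ] (X → ℝ),
      (∀ (f : X → ℝ) (e : X × X), grad d (S (grad d f)) e = grad d f e) ∧
      (∀ V : X × X → ℝ, ∑ e, W e * (grad d (S V) e) ^ 2 ≤ ∑ e, W e * (V e) ^ 2) ∧
      (∑ e, W e * ∑ e', |grad d (S (Pi.single e' 1)) e| ≤ 4 * Real.log (Fintype.card X)) := by
  have : Nonempty X := Fintype.card_pos_iff.1 (by omega)
  have hW0 : ∀ e, 0 ≤ W e := by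
    rintro ⟨x, y⟩
    by_cases hxy : x = y
    · subst hxy; rw [hW_diag]
    · exact (hW_pos x y hxy).le
  set π : X → ℝ := fun x => ∑ y, W (x, y) with hπdef
  set c : X → X → ℝ := fun x y => W (x, y) / d x y ^ 2 with hcdef
  have hπ : ∀ x, 0 < π x := by
    intro x
    have : Nontrivial X := Fintype.one_lt_card_iff_nontrivial.1 (by omega)
    obtain ⟨y, hy⟩ := exists_ne x
    exact Finset.sum_pos' (fun z _ => hW0 _) ⟨y, Finset.mem_univ y, hW_pos x y hy.symm⟩
  have hc0 : ∀ x y, 0 ≤ c x y := fun x y => div_nonneg (hW0 _) (sq_nonneg _)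
  have hcs : ∀ x y, c x y = c y x := by
    intro x y; simp only [hcdef]; rw [hW_symm x y, hd.symm x y]
  have hcpos : ∀ x y, x ≠ y → 0 < c x y := fun x y hxy =>
    div_pos (hW_pos x y hxy) (pow_pos (hd.pos x y hxy) 2)
  set M : ℝ := ∑ x, (∑ y, c x y) / π x with hM
  have hM0 : 0 ≤ M := Finset.sum_nonneg fun x _ =>
    div_nonneg (Finset.sum_nonneg fun y _ => hc0 x y) (hπ x).le
  set δ : ℝ := 1 / (2 * (1 + M)) with hδ
  have h : IsChain π c δ := by
    refine ⟨hπ, ?_, hcs, hc0, by positivity, ?_⟩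
    · rw [← hW_sum, Fintype.sum_prod_type]
    · intro x
      have h1 : (∑ y, c x y) / π x ≤ M :=
        Finset.single_le_sum (f := fun x => (∑ y, c x y) / π x) (fun x _ =>
          div_nonneg (Finset.sum_nonneg fun y _ => hc0 x y) (hπ x).le) (Finset.mem_univ x)
      rw [div_le_iff₀ (hπ x)] at h1
      rw [hδ, div_mul_eq_mul_div, one_mul, div_le_div_iff₀ (by positivity) (by norm_num)]
      have := hπ x
      nlinarith
  -- the operator `S`
  have hQinj : Function.Injective (Lop π c + meanOp π) := by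
    rw [injective_iff_map_eq_zero]
    intro f hf
    have h1 := ip_one_add_mean h f
    rw [hf] at h1
    have h2 : ip π f (fun _ => 1) = 0 := by rw [← h1]; simp [ip]
    have h3 : Lop π c f = 0 := by
      have : (Lop π c + meanOp π) f = Lop π c f := by
        funext x
        simp [meanOp, h2]
      rw [← this, hf]
    have h4 := eq_of_Lop_eq_zero h hcpos f h3
    funext x
    have h5 : ip π f (fun _ => 1) = f x := by
      unfold ip
      calc ∑ y, π y * (f y * 1) = ∑ y, π y * f x :=
            Finset.sum_congr rfl fun y _ => by rw [h4 y x, mul_one]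
        _ = f x := by rw [← Finset.sum_mul, h.sum_one, one_mul]
    rw [← h5, h2]; rfl
  set Qe := LinearEquiv.ofInjectiveEndo (Lop π c + meanOp π) hQinj with hQe
  set S : (X × X → ℝ) →ₗ[ℝ] (X → ℝ) := Qe.symm.toLinearMap ∘ₗ Dst π W d with hSdef
  have hQS : ∀ V, (Lop π c + meanOp π) (S V) = Dst π W d V := by
    intro V
    have : (Lop π c + meanOp π) (S V) = Qe (S V) := by
      rw [hQe, LinearEquiv.coe_ofInjectiveEndo]
    rw [this, hSdef]
    simp
  have hmean : ∀ V, ip π (S V) (fun _ => 1) = 0 := by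
    intro V
    rw [← ip_one_add_mean h (S V), hQS, ip_Dst h.pos hd hW_symm]
    simp [grad]
  have hLS : ∀ V, Lop π c (S V) = Dst π W d V := by
    intro V
    rw [← hQS V]
    funext x
    simp [meanOp, hmean V]
  refine ⟨S, ?_, ?_, ?_⟩
  · intro f e
    have h1 : Lop π c (S (grad d f) - f) = 0 := by
      rw [map_sub, hLS, Dst_grad hd (fun _ _ => rfl), sub_self]
    have h2 := eq_of_Lop_eq_zero h hcpos _ h1 e.1 e.2
    simp only [Pi.sub_apply] at h2
    simp only [grad]
    congr 1
    linarith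
  · intro V
    have h1 : ip π (Lop π c (S V)) (S V) = 1 / 2 * ∑ e, W e * (grad d (S V) e) ^ 2 := by
      rw [ip_Lop h.pos h.symm, Fintype.sum_prod_type]
      congr 1
      refine Finset.sum_congr rfl fun x _ => Finset.sum_congr rfl fun y _ => ?_
      simp only [hcdef, grad]
      rw [div_pow]
      ring
    have h2 : ip π (Lop π c (S V)) (S V) = 1 / 2 * ∑ e, W e * (V e * grad d (S V) e) := by
      rw [hLS, ip_Dst h.pos hd hW_symm]
    have h3 : ∑ e, W e * (V e * grad d (S V) e)
        ≤ 1 / 2 * ∑ e, W e * (V e) ^ 2 + 1 / 2 * ∑ e, W e * (grad d (S V) e) ^ 2 := by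
      rw [Finset.mul_sum, Finset.mul_sum, ← Finset.sum_add_distrib]
      refine Finset.sum_le_sum fun e _ => ?_
      have := hW0 e
      nlinarith [mul_nonneg this (sq_nonneg (V e - grad d (S V) e))]
    linarith
  · -- finite horizon bound
    have hfin : ∀ K : ℕ, ∑ e, W e * ∑ e', |grad d (S (Pi.single e' 1)) e
        - grad d ((Pop π c δ ^ (2 * K)) (S (Pi.single e' 1))) e|
        ≤ 4 * Real.log (Fintype.card X) := by
      intro K
      have h1 : ∀ e e', grad d (S (Pi.single e' 1)) e
          - grad d ((Pop π c δ ^ (2 * K)) (S (Pi.single e' 1))) e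
          = δ / 2 * ∑ k ∈ range (2 * K), W e' * HH π c δ d k e' e := by
        intro e e'
        rw [← grad_sub, telescope, grad_smul, hLS, Dst_single hd hW_symm]
        have h2 : ∀ k, (Pop π c δ ^ k) ((W e' / (2 * d e'.1 e'.2)) •
            (Pi.single e'.1 (π e'.1)⁻¹ - Pi.single e'.2 (π e'.2)⁻¹))
            = fun x => (W e' / 2) * grad d (fun a => hk π c δ k a x) e' := by
          intro k
          rw [map_smul, map_sub]
          funext x
          simp only [Pi.smul_apply, Pi.sub_apply, smul_eq_mul, grad, hk]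
          by_cases hz : d e'.1 e'.2 = 0
          · simp [hz]
          · field_simp
        have h3 : ∑ k ∈ range (2 * K), (Pop π c δ ^ k) ((W e' / (2 * d e'.1 e'.2)) •
            (Pi.single e'.1 (π e'.1)⁻¹ - Pi.single e'.2 (π e'.2)⁻¹))
            = fun x => ∑ k ∈ range (2 * K),
                (W e' / 2) * grad d (fun a => hk π c δ k a x) e' := by
          rw [Finset.sum_congr rfl fun k _ => h2 k]
          funext x
          simp
        rw [h3, grad_sum, Finset.mul_sum, Finset.mul_sum]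
        refine Finset.sum_congr rfl fun k _ => ?_
        unfold HH
        ring
      have h4 : ∑ e, W e * ∑ e', |grad d (S (Pi.single e' 1)) e
          - grad d ((Pop π c δ ^ (2 * K)) (S (Pi.single e' 1))) e|
          ≤ δ / 2 * ∑ k ∈ range (2 * K), RR π c δ d W k := by
        have h5 : ∀ e e', |grad d (S (Pi.single e' 1)) e
          - grad d ((Pop π c δ ^ (2 * K)) (S (Pi.single e' 1))) e|
            ≤ δ / 2 * ∑ k ∈ range (2 * K), W e' * |HH π c δ d k e' e| := by
          intro e e'
          rw [h1, abs_mul, abs_of_pos (by have := h.δpos; positivity)]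
          refine mul_le_mul_of_nonneg_left ?_ (by have := h.δpos; positivity)
          refine (Finset.abs_sum_le_sum_abs _ _).trans (le_of_eq ?_)
          refine Finset.sum_congr rfl fun k _ => ?_
          rw [abs_mul, abs_of_nonneg (hW0 e')]
        calc _ ≤ ∑ e, W e * ∑ e', δ / 2 * ∑ k ∈ range (2 * K), W e' * |HH π c δ d k e' e| :=
              Finset.sum_le_sum fun e _ => mul_le_mul_of_nonneg_left
                (Finset.sum_le_sum fun e' _ => h5 e e') (hW0 e)
          _ = δ / 2 * ∑ k ∈ range (2 * K), RR π c δ d W k := by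
              have h11 : ∀ e, W e * ∑ e', δ / 2 * ∑ k ∈ range (2 * K), W e' * |HH π c δ d k e' e|
                  = δ / 2 * ∑ k ∈ range (2 * K), ∑ e', W e * (W e' * |HH π c δ d k e' e|) := by
                intro e
                rw [← Finset.mul_sum, Finset.sum_comm, ← mul_assoc, mul_comm (W e), mul_assoc,
                  Finset.mul_sum (a := W e)]
                congr 1
                exact Finset.sum_congr rfl fun k _ => by rw [Finset.mul_sum]
              rw [Finset.sum_congr rfl fun e _ => h11 e, ← Finset.mul_sum, Finset.sum_comm]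
              rfl
      have h6 := sum_RR_le h d hW0 K
      have h7 := AA_nonneg h d W K
      have h8 := sum_AA_le h hd hW0 hW_symm hW_diag (fun _ => rfl) (fun _ _ => rfl) (K + 1)
      have h9 := h.δpos
      have h10 : δ / 2 * ∑ k ∈ range (2 * K), RR π c δ d W k
          ≤ δ / 2 * (2 * ∑ m ∈ range (K + 1), AA π c δ d W m) :=
        mul_le_mul_of_nonneg_left (by linarith) (by positivity)
      linarith
    refine le_of_tendsto' (f := fun K : ℕ => ∑ e, W e * ∑ e', |grad d (S (Pi.single e' 1)) e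
        - grad d ((Pop π c δ ^ (2 * K)) (S (Pi.single e' 1))) e|) (x := Filter.atTop) ?_ hfin
    refine tendsto_finsetSum _ fun e _ => ?_
    refine Filter.Tendsto.const_mul _ ?_
    refine tendsto_finsetSum _ fun e' _ => ?_
    have h1 : Filter.Tendsto (fun K : ℕ =>
        grad d ((Pop π c δ ^ (2 * K)) (S (Pi.single e' 1))) e) Filter.atTop (nhds 0) := by
      obtain ⟨x, y⟩ := e
      by_cases hxy : x = y
      · subst hxy; simp [grad_diag]
      · have h2 := diff_tendsto h (S (Pi.single e' 1)) x y (hcpos x y hxy)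
        have h3 : Filter.Tendsto (fun K : ℕ => 2 * K) Filter.atTop Filter.atTop :=
          Filter.tendsto_id.const_mul_atTop' (by norm_num)
        have h4 := (h2.comp h3).div_const (d x y)
        simpa [grad] using h4
    have h2 := (tendsto_const_nhds (x := grad d (S (Pi.single e' 1)) e)).sub h1
    simpa using h2.abs

end Crest.Agent.R232
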