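import Crest.Agent.R232.FinApprox

set_option autoImplicit false

open MeasureTheory

namespace Crest.Agent.R232

/-- T10: discretisation of finitely many points of `L^p`. -/
theorem discretize (p : ENNReal) [Fact (1 ≤ p)] (hptop : p ≠ ⊤) (D : ℝ) (hD : 1 < D) (n : ℕ)
    {α : Type*} [MeasurableSpace α] (μ : Measure α) (x : Fin n → Lp ℝ p μ)
    (hx : Function.Injective x) :
    ∃ (A : Type) (_ : Fintype A) (m : A → ℝ) (f : A → Fin n → ℝ), (∀ a, 0 ≤ m a) ∧
      ∀ i j, i ≠ j → ‖x i - x j‖ ≤ D * (∑ a, m a * |f a i - f a j| ^ p.toReal) ^ (1 / p.toReal) ∧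
        (∑ a, m a * |f a i - f a j| ^ p.toReal) ^ (1 / p.toReal) ≤ D * ‖x i - x j‖ := by
  have hD0 : 0 < D := by linarith
  have hε : 0 < 1 - 1 / D := by
    rw [sub_pos, div_lt_one hD0]; exact hD
  obtain ⟨m, y, hy⟩ := finApprox (p := p) hptop μ x hx hε
  refine ⟨Fin m, inferInstance, fun _ => 1, fun a i => y i a, fun _ => zero_le_one, ?_⟩
  intro i j _
  obtain ⟨h1, h2⟩ := hy i j
  simp only [one_mul]
  have hn : 0 ≤ ‖x i - x j‖ := norm_nonneg _
  constructor
  · have h3 : ‖x i - x j‖ = D * ((1 - (1 - 1 / D)) * ‖x i - x j‖) := by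
      field_simp
      ring
    calc ‖x i - x j‖ = D * ((1 - (1 - 1 / D)) * ‖x i - x j‖) := h3
      _ ≤ _ := by gcongr
  · refine h2.trans ?_
    have h4 : 1 + (1 - 1 / D) ≤ D := by
      have : 0 ≤ (D - 1) ^ 2 / D := by positivity
      have h5 : (D - 1) ^ 2 / D = D - 2 + 1 / D := by field_simp; ring
      linarith
    gcongr

end Crest.Agent.R232
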