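import Crest.Agent.R232.Defs

/-!
# R232, T11: final assembly of S0358 from `outer` (T6), `sparse` (T9), `discretize` (T10)

The three inputs are taken as hypotheses, so that this file does not depend on the modules proving
them.
-/

set_option autoImplicit false

open Finset MeasureTheory
open scoped ENNReal

namespace Crest.Agent.R232

/-- statement of T6 for one exponent -/
def OuterStmt (p : ℝ) : Prop :=
  ∀ (ε : ℝ) (_ : 0 < ε),
    ∃ C : ℝ, 0 < C ∧ ∀ (X : Type) [Fintype X] [DecidableEq X] (_ : 2 ≤ Fintype.card X)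
      (d : X → X → ℝ) (_ : IsDist d) (A : Type) [Fintype A] (m : A → ℝ) (_ : ∀ a, 0 ≤ m a)
      (f : A → X → ℝ) (_ : ∀ x y, x ≠ y → ∑ a, m a * |f a x - f a y| ^ p = d x y ^ p),
      ∃ (Λ : ℝ) (Ω : Type) (_ : Fintype Ω) (μ : Ω → ℝ) (B : Ω → X × X → ℝ) (F : Ω → X → ℝ),
        1 ≤ Λ ∧ Real.log (Fintype.card X) ≤ Λ ∧
        Λ ≤ Real.exp (C * Real.log (Fintype.card X) ^ gam p) ∧
        (∀ ω, 0 ≤ μ ω) ∧
        ∀ x y, x ≠ y →
          (∑ ω, μ ω * |B ω (x, y)| ^ p = 1) ∧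
          (∑ ω ∈ univ.filter (fun ω => B ω (x, y) ≠ 0), μ ω ≤ Λ) ∧
          (∑ ω, μ ω * |grad d (F ω) (x, y) - B ω (x, y)| ^ p ≤ ε) ∧
          (∑ ω, μ ω * (grad d (F ω) (x, y) - B ω (x, y)) ^ 2 ≤ Λ) ∧
          (∑ ω, μ ω * (grad d (F ω) (x, y)) ^ 2 ≤ Λ) ∧
          (∀ ω, |grad d (F ω) (x, y)| ≤ Λ)

/-- statement of T9 for one exponent -/
def SparseStmt (p : ℝ) : Prop :=
  ∀ (η : ℝ) (_ : 0 < η) (_ : η < 1),
    ∃ ε : ℝ, 0 < ε ∧ ∃ C : ℝ, 1 ≤ C ∧ ∀ (X : Type) [Fintype X] [DecidableEq X]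
      (_ : 2 ≤ Fintype.card X) (d : X → X → ℝ) (_ : IsDist d) (Λ : ℝ) (Ω : Type) [Fintype Ω]
      (μ : Ω → ℝ) (B : Ω → X × X → ℝ) (F : Ω → X → ℝ)
      (_ : 1 ≤ Λ) (_ : Real.log (Fintype.card X) ≤ Λ) (_ : ∀ ω, 0 ≤ μ ω)
      (_ : ∀ x y, x ≠ y →
          (∑ ω, μ ω * |B ω (x, y)| ^ p = 1) ∧
          (∑ ω ∈ univ.filter (fun ω => B ω (x, y) ≠ 0), μ ω ≤ Λ) ∧
          (∑ ω, μ ω * |grad d (F ω) (x, y) - B ω (x, y)| ^ p ≤ ε) ∧
          (∑ ω, μ ω * (grad d (F ω) (x, y) - B ω (x, y)) ^ 2 ≤ Λ) ∧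
          (∑ ω, μ ω * (grad d (F ω) (x, y)) ^ 2 ≤ Λ) ∧
          (∀ ω, |grad d (F ω) (x, y)| ≤ Λ)),
      ∃ (D : ℕ) (y : X → Fin D → ℝ), (D : ℝ) ≤ C * Λ ^ C ∧
        ∀ x x', x ≠ x' → (1 - η) * d x x' ^ p ≤ ∑ j, |y x j - y x' j| ^ p ∧
          ∑ j, |y x j - y x' j| ^ p ≤ (1 + η) * d x x' ^ p

/-- statement of T10 for one exponent and measure space -/
def DiscretizeStmt {α : Type*} [MeasurableSpace α] (p : ENNReal) [Fact (1 ≤ p)] (μ : Measure α) :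
    Prop :=
  ∀ (D : ℝ) (_ : 1 < D) (n : ℕ) (x : Fin n → Lp ℝ p μ) (_ : Function.Injective x),
    ∃ (A : Type) (_ : Fintype A) (m : A → ℝ) (f : A → Fin n → ℝ), (∀ a, 0 ≤ m a) ∧
      ∀ i j, i ≠ j → ‖x i - x j‖ ≤ D * (∑ a, m a * |f a i - f a j| ^ p.toReal) ^ (1 / p.toReal) ∧
        (∑ a, m a * |f a i - f a j| ^ p.toReal) ^ (1 / p.toReal) ≤ D * ‖x i - x j‖

theorem gam_pos {p : ℝ} (hp1 : 1 < p) (hp2 : p ≠ 2) : 0 < gam p := by
  unfold gam
  split_ifs with h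
  · linarith
  · have h2 : 2 < p := lt_of_le_of_ne (not_lt.1 h) (Ne.symm hp2)
    have h3 : 2 / p < 1 := by rw [div_lt_one (by linarith)]; exact h2
    linarith

/-- the finite-dimensional core: from the discretised data to a map into `ℓ_p^N`. -/
theorem core_of {p : ℝ} (hp1 : 1 < p) (hp2 : p ≠ 2) (hO : OuterStmt p) (hS : SparseStmt p)
    (η : ℝ) (hη : 0 < η) (hη1 : η < 1) :
    ∃ C : ℝ, ∀ (n : ℕ) (_ : 2 ≤ n) (A : Type) [Fintype A] (m : A → ℝ) (_ : ∀ a, 0 ≤ m a)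
      (f : A → Fin n → ℝ) (_ : ∀ i j, i ≠ j → 0 < (∑ a, m a * |f a i - f a j| ^ p)),
      ∃ (D : ℕ) (y : Fin n → Fin D → ℝ), (D : ℝ) ≤ Real.exp (C * Real.log n ^ gam p) ∧
        ∀ i j, i ≠ j →
          (1 - η) * (∑ a, m a * |f a i - f a j| ^ p) ≤ ∑ k, |y i k - y j k| ^ p ∧
          ∑ k, |y i k - y j k| ^ p ≤ (1 + η) * (∑ a, m a * |f a i - f a j| ^ p) := by
  obtain ⟨ε, hε, C₉, hC₉, hS'⟩ := hS η hη hη1
  obtain ⟨C₆, hC₆, hO'⟩ := hO ε hε
  have hp0 : 0 < p := by linarith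
  have hg := gam_pos hp1 hp2
  have hlog2 : 0 < Real.log 2 := Real.log_pos (by norm_num)
  have hlog2g : 0 < Real.log 2 ^ gam p := Real.rpow_pos_of_pos hlog2 _
  refine ⟨C₉ * C₆ + Real.log C₉ / Real.log 2 ^ gam p, ?_⟩
  intro n hn A _ m hm f hf
  let d : Fin n → Fin n → ℝ := fun i j => (∑ a, m a * |f a i - f a j| ^ p) ^ (1 / p)
  have hS0 : ∀ i j, 0 ≤ ∑ a, m a * |f a i - f a j| ^ p := fun i j =>
    Finset.sum_nonneg fun a _ => mul_nonneg (hm a) (Real.rpow_nonneg (abs_nonneg _) _)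
  have hdp : ∀ i j, d i j ^ p = ∑ a, m a * |f a i - f a j| ^ p := by
    intro i j
    show ((∑ a, m a * |f a i - f a j| ^ p) ^ (1 / p)) ^ p = _
    rw [← Real.rpow_mul (hS0 i j), one_div, inv_mul_cancel₀ hp0.ne', Real.rpow_one]
  have hd : IsDist d := by
    refine ⟨fun i j => ?_, fun i j hij => ?_⟩
    · show (∑ a, m a * |f a i - f a j| ^ p) ^ (1 / p) = (∑ a, m a * |f a j - f a i| ^ p) ^ (1 / p)
      simp only [abs_sub_comm]
    · exact Real.rpow_pos_of_pos (hf i j hij) _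
  have hcard : 2 ≤ Fintype.card (Fin n) := by simpa using hn
  obtain ⟨Λ, Ω, hΩ, μ, B, F, h1, h2, h3, h4, h5⟩ := hO' (Fin n) hcard d hd A m hm f
    (fun i j _ => (hdp i j).symm)
  obtain ⟨D, y, hD, hy⟩ := hS' (Fin n) hcard d hd Λ Ω μ B F h1 h2 h4 h5
  refine ⟨D, y, ?_, ?_⟩
  · rw [Fintype.card_fin] at h3
    have hΛ0 : 0 < Λ := by linarith
    have e1 : Λ ^ C₉ ≤ Real.exp (C₉ * C₆ * Real.log n ^ gam p) := by
      calc Λ ^ C₉ ≤ (Real.exp (C₆ * Real.log n ^ gam p)) ^ C₉ :=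
            Real.rpow_le_rpow hΛ0.le h3 (by linarith)
        _ = Real.exp (C₉ * C₆ * Real.log n ^ gam p) := by
            rw [← Real.exp_mul]; ring_nf
    have e2 : Real.log 2 ^ gam p ≤ Real.log n ^ gam p := by
      apply Real.rpow_le_rpow hlog2.le _ hg.le
      apply Real.log_le_log (by norm_num)
      exact_mod_cast hn
    have e3 : Real.log C₉ ≤ Real.log C₉ / Real.log 2 ^ gam p * Real.log n ^ gam p := by
      rw [div_mul_eq_mul_div, le_div_iff₀ hlog2g]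
      exact mul_le_mul_of_nonneg_left e2 (Real.log_nonneg hC₉)
    have e4 : C₉ ≤ Real.exp (Real.log C₉ / Real.log 2 ^ gam p * Real.log n ^ gam p) := by
      calc C₉ = Real.exp (Real.log C₉) := (Real.exp_log (by linarith)).symm
        _ ≤ _ := Real.exp_le_exp.2 e3
    calc (D : ℝ) ≤ C₉ * Λ ^ C₉ := hD
      _ ≤ Real.exp (Real.log C₉ / Real.log 2 ^ gam p * Real.log n ^ gam p) *
          Real.exp (C₉ * C₆ * Real.log n ^ gam p) :=
          mul_le_mul e4 e1 (Real.rpow_nonneg hΛ0.le _) (Real.exp_pos _).le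
      _ = _ := by rw [← Real.exp_add]; ring_nf
  · intro i j hij
    have := hy i j hij
    rw [hdp] at this
    exact this

/-- T11. -/
theorem final_of {p : ℝ≥0∞} [Fact (1 ≤ p)] (hp1 : 1 < p) (hptop : p ≠ ⊤) (hp2 : p ≠ 2)
    (hO : OuterStmt p.toReal) (hS : SparseStmt p.toReal)
    (D : ℝ) (hD : 1 < D) :
    ∃ C : ℝ, ∀ (n : ℕ), 2 ≤ n →
      ∀ {α : Type*} [MeasurableSpace α] (μ : Measure α) (_ : DiscretizeStmt p μ)
        (x : Fin n → Lp ℝ p μ),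
        Function.Injective x →
        ∃ d : ℕ, (d : ℝ) ≤ Real.exp (C * Real.log n ^ gam p.toReal) ∧
          ∃ (y : Fin n → PiLp p (fun _ : Fin d => ℝ)) (s : ℝ), 0 < s ∧
            ∀ i j, s * ‖x i - x j‖ ≤ ‖y i - y j‖ ∧ ‖y i - y j‖ ≤ D * s * ‖x i - x j‖ := by
  have hP1 : 1 < p.toReal := by
    rw [← ENNReal.toReal_one]
    exact (ENNReal.toReal_lt_toReal ENNReal.one_ne_top hptop).2 hp1
  have hP2 : p.toReal ≠ 2 := by
    intro h
    apply hp2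
    rw [← ENNReal.ofReal_toReal hptop, h]
    simp
  have hP0 : 0 < p.toReal := by linarith
  -- the auxiliary constants
  set R : ℝ := Real.sqrt D with hR
  have hR1 : 1 < R := by
    rw [hR, Real.lt_sqrt (by norm_num)]; simpa using hD
  set Q : ℝ := Real.sqrt R with hQ
  have hQ1 : 1 < Q := by
    rw [hQ, Real.lt_sqrt (by norm_num)]; simpa using hR1
  have hQ2 : Q * Q = R := Real.mul_self_sqrt (by linarith)
  have hR2 : R * R = D := Real.mul_self_sqrt (by linarith)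
  set η : ℝ := (R - 1) / (R + 1) with hηdef
  have hη : 0 < η := by
    rw [hηdef]; apply div_pos <;> linarith
  have hη1 : η < 1 := by
    rw [hηdef, div_lt_one (by linarith)]; linarith
  have hηR : 1 + η = R * (1 - η) := by
    rw [hηdef]
    have : R + 1 ≠ 0 := by linarith
    field_simp
    ring
  obtain ⟨C, hC⟩ := core_of hP1 hP2 hO hS η hη hη1
  refine ⟨C, ?_⟩
  intro n hn α _ μ hdisc x hx
  obtain ⟨A, hA, m, f, hm, hmf⟩ := hdisc Q hQ1 n x hx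
  have hS0 : ∀ i j, 0 ≤ ∑ a, m a * |f a i - f a j| ^ p.toReal := fun i j =>
    Finset.sum_nonneg fun a _ => mul_nonneg (hm a) (Real.rpow_nonneg (abs_nonneg _) _)
  have hpos : ∀ i j, i ≠ j → 0 < ∑ a, m a * |f a i - f a j| ^ p.toReal := by
    intro i j hij
    refine lt_of_le_of_ne (hS0 i j) (fun h0 => ?_)
    have h1 := (hmf i j hij).1
    rw [← h0, Real.zero_rpow (by positivity), mul_zero] at h1
    have h2 : 0 < ‖x i - x j‖ := norm_pos_iff.2 (sub_ne_zero.2 fun h => hij (hx h))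
    linarith
  obtain ⟨N, y, hN, hy⟩ := hC n hn A m hm f hpos
  refine ⟨N, hN, fun i => WithLp.toLp p (y i), (1 - η) ^ (1 / p.toReal) / Q, ?_, ?_⟩
  · exact div_pos (Real.rpow_pos_of_pos (by linarith) _) (by linarith)
  intro i j
  by_cases hij : i = j
  · subst hij; simp
  have hnorm : ‖(WithLp.toLp p (y i) : PiLp p (fun _ : Fin N => ℝ)) - WithLp.toLp p (y j)‖ =
      (∑ k, |y i k - y j k| ^ p.toReal) ^ (1 / p.toReal) := by
    rw [PiLp.norm_eq_sum hP0]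
    simp [Real.norm_eq_abs]
  rw [hnorm]
  obtain ⟨h1, h2⟩ := hmf i j hij
  obtain ⟨h3, h4⟩ := hy i j hij
  set T : ℝ := ∑ a, m a * |f a i - f a j| ^ p.toReal with hT
  have hT0 : 0 ≤ T := hS0 i j
  have hip : 0 ≤ 1 / p.toReal := by positivity
  have hη0 : 0 ≤ 1 - η := by linarith
  have k1 : (1 - η) ^ (1 / p.toReal) * T ^ (1 / p.toReal) ≤
      (∑ k, |y i k - y j k| ^ p.toReal) ^ (1 / p.toReal) := by
    rw [← Real.mul_rpow hη0 hT0]
    exact Real.rpow_le_rpow (mul_nonneg hη0 hT0) h3 hip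
  have k2 : (∑ k, |y i k - y j k| ^ p.toReal) ^ (1 / p.toReal) ≤
      (1 + η) ^ (1 / p.toReal) * T ^ (1 / p.toReal) := by
    rw [← Real.mul_rpow (by linarith) hT0]
    exact Real.rpow_le_rpow (Finset.sum_nonneg fun k _ => Real.rpow_nonneg (abs_nonneg _) _) h4 hip
  have k3 : (1 + η) ^ (1 / p.toReal) ≤ R * (1 - η) ^ (1 / p.toReal) := by
    rw [hηR, Real.mul_rpow (by linarith) hη0]
    apply mul_le_mul_of_nonneg_right _ (Real.rpow_nonneg hη0 _)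
    calc R ^ (1 / p.toReal) ≤ R ^ (1 : ℝ) := by
          apply Real.rpow_le_rpow_of_exponent_le hR1.le
          rw [div_le_one hP0]; exact hP1.le
      _ = R := Real.rpow_one R
  have hQ0 : 0 < Q := by linarith
  have hE : 0 ≤ (1 - η) ^ (1 / p.toReal) := Real.rpow_nonneg hη0 _
  constructor
  · calc (1 - η) ^ (1 / p.toReal) / Q * ‖x i - x j‖
        ≤ (1 - η) ^ (1 / p.toReal) / Q * (Q * T ^ (1 / p.toReal)) :=
          mul_le_mul_of_nonneg_left h1 (div_nonneg hE hQ0.le)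
      _ = (1 - η) ^ (1 / p.toReal) * T ^ (1 / p.toReal) := by field_simp
      _ ≤ _ := k1
  · calc (∑ k, |y i k - y j k| ^ p.toReal) ^ (1 / p.toReal)
        ≤ (1 + η) ^ (1 / p.toReal) * T ^ (1 / p.toReal) := k2
      _ ≤ (R * (1 - η) ^ (1 / p.toReal)) * (Q * ‖x i - x j‖) :=
          mul_le_mul k3 h2 (Real.rpow_nonneg hT0 _) (mul_nonneg (by linarith) hE)
      _ = D * ((1 - η) ^ (1 / p.toReal) / Q) * ‖x i - x j‖ := by
          rw [← hR2]
          have : R * (1 - η) ^ (1 / p.toReal) * (Q * ‖x i - x j‖) =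
            R * (Q * Q) * ((1 - η) ^ (1 / p.toReal) / Q) * ‖x i - x j‖ := by
            field_simp
          rw [this, hQ2]

end Crest.Agent.R232
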