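import Crest.Agent.R232.Defs

/-! # T1, part 1: reversible chains, entropy decay -/

set_option autoImplicit false
open Finset

namespace Crest.Agent.R232.T1

open Crest.Agent.R232

variable {X : Type*} [Fintype X]

/-- generator: `L f x = (1/π x) ∑ y, c x y * (f x - f y)` -/
noncomputable def Lop (π : X → ℝ) (c : X → X → ℝ) : (X → ℝ) →ₗ[ℝ] (X → ℝ) where
  toFun f := fun x => (π x)⁻¹ * ∑ y, c x y * (f x - f y)
  map_add' f g := by
    funext x
    simp only [Pi.add_apply]
    rw [← mul_add, ← Finset.sum_add_distrib]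
    congr 1
    exact Finset.sum_congr rfl fun y _ => by ring
  map_smul' r f := by
    funext x
    simp only [Pi.smul_apply, smul_eq_mul, RingHom.id_apply]
    rw [mul_left_comm, Finset.mul_sum (a := r)]
    congr 1
    exact Finset.sum_congr rfl fun y _ => by ring

theorem Lop_apply (π : X → ℝ) (c : X → X → ℝ) (f : X → ℝ) (x : X) :
    Lop π c f x = (π x)⁻¹ * ∑ y, c x y * (f x - f y) := rfl

/-- the kernel `P = 1 - δ L` -/
noncomputable def Pop (π : X → ℝ) (c : X → X → ℝ) (δ : ℝ) : Module.End ℝ (X → ℝ) :=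
  1 - δ • Lop π c

theorem Pop_apply (π : X → ℝ) (c : X → X → ℝ) (δ : ℝ) (f : X → ℝ) (x : X) :
    Pop π c δ f x = f x - δ * Lop π c f x := by
  simp [Pop]

/-- `π`-inner product -/
def ip (π : X → ℝ) (f g : X → ℝ) : ℝ := ∑ x, π x * (f x * g x)

structure IsChain (π : X → ℝ) (c : X → X → ℝ) (δ : ℝ) : Prop where
  pos : ∀ x, 0 < π x
  sum_one : ∑ x, π x = 1
  symm : ∀ x y, c x y = c y x
  nonneg : ∀ x y, 0 ≤ c x y
  δpos : 0 < δ
  bound : ∀ x, δ * ∑ y, c x y ≤ π x / 2

theorem ip_comm (π f g : X → ℝ) : ip π f g = ip π g f := by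
  unfold ip
  exact Finset.sum_congr rfl fun x _ => by ring

theorem ip_sub_left (π f g h : X → ℝ) : ip π (f - g) h = ip π f h - ip π g h := by
  unfold ip
  rw [← Finset.sum_sub_distrib]
  exact Finset.sum_congr rfl fun x _ => by simp only [Pi.sub_apply]; ring

theorem ip_Lop {π : X → ℝ} {c : X → X → ℝ} (hπ : ∀ x, 0 < π x) (hc : ∀ x y, c x y = c y x)
    (f g : X → ℝ) :
    ip π (Lop π c f) g = (1 / 2) * ∑ x, ∑ y, c x y * ((f x - f y) * (g x - g y)) := by
  have h1 : ip π (Lop π c f) g = ∑ x, ∑ y, c x y * (f x - f y) * g x := by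
    unfold ip
    refine Finset.sum_congr rfl fun x _ => ?_
    rw [Lop_apply, ← Finset.sum_mul]
    have := (hπ x).ne'
    field_simp
  have h2 : ∑ x, ∑ y, c x y * (f x - f y) * g x = ∑ x, ∑ y, -(c x y * (f x - f y) * g y) := by
    rw [Finset.sum_comm]
    refine Finset.sum_congr rfl fun x _ => Finset.sum_congr rfl fun y _ => ?_
    rw [hc y x]
    ring
  have h3 : ∑ x, ∑ y, c x y * ((f x - f y) * (g x - g y))
      = (∑ x, ∑ y, c x y * (f x - f y) * g x) + ∑ x, ∑ y, -(c x y * (f x - f y) * g y) := by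
    rw [← Finset.sum_add_distrib]
    refine Finset.sum_congr rfl fun x _ => ?_
    rw [← Finset.sum_add_distrib]
    exact Finset.sum_congr rfl fun y _ => by ring
  rw [h3, ← h2, h1]
  ring

theorem ip_Lop_symm {π : X → ℝ} {c : X → X → ℝ} (hπ : ∀ x, 0 < π x)
    (hc : ∀ x y, c x y = c y x) (f g : X → ℝ) :
    ip π (Lop π c f) g = ip π f (Lop π c g) := by
  rw [ip_Lop hπ hc, ip_comm, ip_Lop hπ hc]
  congr 1
  exact Finset.sum_congr rfl fun x _ => Finset.sum_congr rfl fun y _ => by ring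

variable {π : X → ℝ} {c : X → X → ℝ} {δ : ℝ}

theorem ip_Pop_symm (h : IsChain π c δ) (f g : X → ℝ) :
    ip π (Pop π c δ f) g = ip π f (Pop π c δ g) := by
  have h1 : ∀ f g : X → ℝ, ip π (Pop π c δ f) g = ip π f g - δ * ip π (Lop π c f) g := by
    intro f g
    unfold ip
    rw [Finset.mul_sum, ← Finset.sum_sub_distrib]
    refine Finset.sum_congr rfl fun x _ => ?_
    rw [Pop_apply]; ring
  rw [h1, ip_comm π f (Pop π c δ g), h1, ip_Lop_symm h.pos h.symm, ip_comm π g f,
    ip_comm π f (Lop π c g)]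

theorem ip_Pop_pow (h : IsChain π c δ) (k : ℕ) (f g : X → ℝ) :
    ip π ((Pop π c δ ^ k) f) g = ip π f ((Pop π c δ ^ k) g) := by
  induction k generalizing f g with
  | zero => simp
  | succ k ih =>
    rw [pow_succ, Module.End.mul_apply, ih, ip_Pop_symm h]
    congr 1
    rw [← Module.End.mul_apply, ← pow_succ', pow_succ]

theorem ip_one_Lop (h : IsChain π c δ) (f : X → ℝ) : ip π (Lop π c f) (fun _ => 1) = 0 := by
  rw [ip_Lop h.pos h.symm]; simp

theorem ip_one_Pop (h : IsChain π c δ) (f : X → ℝ) :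
    ip π (Pop π c δ f) (fun _ => 1) = ip π f (fun _ => 1) := by
  rw [ip_Pop_symm h]
  congr 1
  funext x
  rw [Pop_apply, Lop_apply]; simp

theorem ip_one_Pop_pow (h : IsChain π c δ) (k : ℕ) (f : X → ℝ) :
    ip π ((Pop π c δ ^ k) f) (fun _ => 1) = ip π f (fun _ => 1) := by
  induction k with
  | zero => simp
  | succ k ih => rw [pow_succ', Module.End.mul_apply, ip_one_Pop h, ih]

/-- `P` written as a convex combination -/
theorem Pop_apply' (h : IsChain π c δ) (f : X → ℝ) (x : X) :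
    Pop π c δ f x = (1 - ∑ y, δ * c x y / π x) * f x + ∑ y, δ * c x y / π x * f y := by
  rw [Pop_apply, Lop_apply, Finset.mul_sum, Finset.mul_sum, sub_mul, Finset.sum_mul, sub_add,
    one_mul, ← Finset.sum_sub_distrib]
  congr 1
  refine Finset.sum_congr rfl fun y _ => ?_
  have := (h.pos x).ne'
  field_simp

theorem sum_p_le (h : IsChain π c δ) (x : X) : ∑ y, δ * c x y / π x ≤ 1 / 2 := by
  rw [← Finset.sum_div, ← Finset.mul_sum, div_le_iff₀ (h.pos x)]
  have := h.bound x
  linarith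

theorem p_nonneg (h : IsChain π c δ) (x y : X) : 0 ≤ δ * c x y / π x :=
  div_nonneg (mul_nonneg h.δpos.le (h.nonneg x y)) (h.pos x).le

theorem Pop_nonneg (h : IsChain π c δ) {f : X → ℝ} (hf : ∀ x, 0 ≤ f x) (x : X) :
    0 ≤ Pop π c δ f x := by
  rw [Pop_apply' h]
  have h1 := sum_p_le h x
  have h2 : 0 ≤ ∑ y, δ * c x y / π x * f y :=
    Finset.sum_nonneg fun y _ => mul_nonneg (p_nonneg h x y) (hf y)
  have h3 : 0 ≤ (1 - ∑ y, δ * c x y / π x) * f x := mul_nonneg (by linarith) (hf x)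
  linarith

theorem Pop_pow_nonneg (h : IsChain π c δ) (k : ℕ) {f : X → ℝ} (hf : ∀ x, 0 ≤ f x) (x : X) :
    0 ≤ (Pop π c δ ^ k) f x := by
  induction k generalizing x with
  | zero => simpa using hf x
  | succ k ih => rw [pow_succ', Module.End.mul_apply]; exact Pop_nonneg h ih x

/-- one-step energy inequality `|P g|² ≤ |g|² - ⟨(I-P) g, g⟩` -/
theorem energy_step (h : IsChain π c δ) (g : X → ℝ) :
    ip π (Pop π c δ g) (Pop π c δ g) ≤ ip π g g - δ * ip π (Lop π c g) g := by
  have h1 : ip π (Pop π c δ g) (Pop π c δ g)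
      = ip π g g - 2 * (δ * ip π (Lop π c g) g) + δ ^ 2 * ip π (Lop π c g) (Lop π c g) := by
    unfold ip
    rw [Finset.mul_sum, Finset.mul_sum, Finset.mul_sum, ← Finset.sum_sub_distrib,
      ← Finset.sum_add_distrib]
    refine Finset.sum_congr rfl fun x _ => ?_
    rw [Pop_apply]; ring
  have h2 : δ * ip π (Lop π c g) (Lop π c g) ≤ ip π (Lop π c g) g := by
    rw [ip_Lop h.pos h.symm g g, Finset.mul_sum]
    unfold ip
    rw [Finset.mul_sum]
    refine Finset.sum_le_sum fun x _ => ?_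
    rw [Lop_apply]
    have hcs : (∑ y, c x y * (g x - g y)) ^ 2
        ≤ (∑ y, c x y) * ∑ y, c x y * ((g x - g y) * (g x - g y)) := by
      refine Finset.sum_sq_le_sum_mul_sum_of_sq_le_mul _ (fun y _ => h.nonneg x y)
        (fun y _ => mul_nonneg (h.nonneg x y) (mul_self_nonneg _)) (fun y _ => le_of_eq (by ring))
    have hS : 0 ≤ ∑ y, c x y * ((g x - g y) * (g x - g y)) :=
      Finset.sum_nonneg fun y _ => mul_nonneg (h.nonneg x y) (mul_self_nonneg _)
    have hb := h.bound x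
    have hp := h.pos x
    set S := ∑ y, c x y * ((g x - g y) * (g x - g y)) with hSdef
    set T := ∑ y, c x y * (g x - g y) with hT
    have h5 : δ * T ^ 2 ≤ π x / 2 * S :=
      calc δ * T ^ 2 ≤ δ * ((∑ y, c x y) * S) := mul_le_mul_of_nonneg_left hcs h.δpos.le
        _ = (δ * ∑ y, c x y) * S := by ring
        _ ≤ π x / 2 * S := mul_le_mul_of_nonneg_right hb hS
    have h6 : δ * (π x * ((π x)⁻¹ * T * ((π x)⁻¹ * T))) = (δ * T ^ 2) / π x := by
      field_simp
    rw [h6, div_le_iff₀ hp]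
    linarith
  have h3 : δ ^ 2 * ip π (Lop π c g) (Lop π c g) ≤ δ * ip π (Lop π c g) g := by
    have := mul_le_mul_of_nonneg_left h2 h.δpos.le
    calc δ ^ 2 * ip π (Lop π c g) (Lop π c g) = δ * (δ * ip π (Lop π c g) (Lop π c g)) := by ring
      _ ≤ _ := this
  rw [h1]
  linarith

theorem ip_self_nonneg (h : IsChain π c δ) (g : X → ℝ) : 0 ≤ ip π g g :=
  Finset.sum_nonneg fun x _ => mul_nonneg (h.pos x).le (mul_self_nonneg _)

theorem ip_Lop_self_nonneg (h : IsChain π c δ) (g : X → ℝ) : 0 ≤ ip π (Lop π c g) g := by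
  rw [ip_Lop h.pos h.symm]
  refine mul_nonneg (by norm_num) (Finset.sum_nonneg fun x _ => Finset.sum_nonneg fun y _ =>
    mul_nonneg (h.nonneg x y) (mul_self_nonneg _))

theorem sum_energy_le (h : IsChain π c δ) (g : X → ℝ) (K : ℕ) :
    ∑ k ∈ range K, δ * ip π (Lop π c ((Pop π c δ ^ k) g)) ((Pop π c δ ^ k) g) ≤ ip π g g := by
  have key : ∑ k ∈ range K, δ * ip π (Lop π c ((Pop π c δ ^ k) g)) ((Pop π c δ ^ k) g)
      + ip π ((Pop π c δ ^ K) g) ((Pop π c δ ^ K) g) ≤ ip π g g := by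
    induction K with
    | zero => simp
    | succ K ih =>
      rw [Finset.sum_range_succ]
      have := energy_step h ((Pop π c δ ^ K) g)
      rw [← Module.End.mul_apply (Pop π c δ) (Pop π c δ ^ K) g, ← pow_succ'] at this
      linarith
  have := ip_self_nonneg h ((Pop π c δ ^ K) g)
  linarith

theorem energy_tendsto (h : IsChain π c δ) (g : X → ℝ) :
    Filter.Tendsto (fun k => ip π (Lop π c ((Pop π c δ ^ k) g)) ((Pop π c δ ^ k) g))
      Filter.atTop (nhds 0) := by
  have hs : Summable (fun k => δ * ip π (Lop π c ((Pop π c δ ^ k) g)) ((Pop π c δ ^ k) g)) :=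
    summable_of_sum_range_le (fun k => mul_nonneg h.δpos.le (ip_Lop_self_nonneg h _))
      (sum_energy_le h g)
  have h1 := hs.tendsto_atTop_zero
  have h2 := h1.const_mul δ⁻¹
  simpa [← mul_assoc, inv_mul_cancel₀ h.δpos.ne'] using h2

/-- differences of `P^k g` over pairs of positive conductance tend to zero -/
theorem diff_tendsto (h : IsChain π c δ) (g : X → ℝ) (x y : X) (hxy : 0 < c x y) :
    Filter.Tendsto (fun k => (Pop π c δ ^ k) g x - (Pop π c δ ^ k) g y)
      Filter.atTop (nhds 0) := by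
  have h1 := energy_tendsto h g
  have h2 : ∀ k, ((Pop π c δ ^ k) g x - (Pop π c δ ^ k) g y) ^ 2
      ≤ 2 / c x y * ip π (Lop π c ((Pop π c δ ^ k) g)) ((Pop π c δ ^ k) g) := by
    intro k
    rw [ip_Lop h.pos h.symm]
    set u := (Pop π c δ ^ k) g
    have h3 : c x y * ((u x - u y) * (u x - u y))
        ≤ ∑ x, ∑ y, c x y * ((u x - u y) * (u x - u y)) := by
      refine le_trans ?_ (Finset.single_le_sum (f := fun x => ∑ y, c x y * ((u x - u y) * (u x - u y)))
        (fun x _ => Finset.sum_nonneg fun y _ => mul_nonneg (h.nonneg x y) (mul_self_nonneg _))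
        (Finset.mem_univ x))
      exact Finset.single_le_sum (f := fun y => c x y * ((u x - u y) * (u x - u y)))
        (fun y _ => mul_nonneg (h.nonneg x y) (mul_self_nonneg _)) (Finset.mem_univ y)
    rw [div_mul_eq_mul_div, le_div_iff₀ hxy]
    nlinarith [h3]
  have h4 : Filter.Tendsto (fun k => ((Pop π c δ ^ k) g x - (Pop π c δ ^ k) g y) ^ 2)
      Filter.atTop (nhds 0) := by
    refine squeeze_zero (fun k => sq_nonneg _) h2 ?_
    simpa using h1.const_mul (2 / c x y)
  have h5 := (Real.continuous_sqrt.tendsto 0).comp h4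
  simp only [Real.sqrt_zero] at h5
  rw [tendsto_zero_iff_abs_tendsto_zero]
  refine h5.congr fun k => ?_
  simp only [Function.comp, Real.sqrt_sq_eq_abs]

end Crest.Agent.R232.T1
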