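import Crest.Agent.R232.Defs

/-! T1a: two-point entropy inequality. -/

set_option autoImplicit false

open Finset

namespace Crest.Agent.R232

theorem two_mul_le_log_sub_log {s : ℝ} (h0 : 0 ≤ s) (h1 : s < 1) :
    2 * s ≤ Real.log (1 + s) - Real.log (1 - s) := by
  have hs := Real.hasSum_log_sub_log_of_abs_lt_one (x := s) (by rw [abs_of_nonneg h0]; exact h1)
  have h := sum_le_hasSum {0} (fun k _ => by positivity) hs
  simpa using h

/-- the one-variable entropy inequality -/
theorem sq_le_entropy {s : ℝ} (h0 : 0 ≤ s) (h1 : s ≤ 1) :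
    s ^ 2 ≤ (1 + s) * Real.log (1 + s) + (1 - s) * Real.log (1 - s) := by
  have hmono : MonotoneOn (fun s : ℝ => (1 + s) * Real.log (1 + s) + (1 - s) * Real.log (1 - s)
      - s ^ 2) (Set.Icc 0 1) := by
    have hd : ∀ x ∈ interior (Set.Icc (0 : ℝ) 1),
        HasDerivAt (fun s : ℝ => (1 + s) * Real.log (1 + s) + (1 - s) * Real.log (1 - s) - s ^ 2)
          ((Real.log (1 + x) + 1) * 1 + (Real.log (1 - x) + 1) * (-1) - 2 * x) x := by
      intro x hx
      rw [interior_Icc] at hx
      have a1 : HasDerivAt (fun s : ℝ => 1 + s) 1 x := (hasDerivAt_id x).const_add 1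
      have a2 : HasDerivAt (fun s : ℝ => 1 - s) (-1) x := (hasDerivAt_id x).const_sub 1
      have b1 := (Real.hasDerivAt_mul_log (x := 1 + x) (by linarith [hx.1])).comp x a1
      have b2 := (Real.hasDerivAt_mul_log (x := 1 - x) (by linarith [hx.2])).comp x a2
      have b3 : HasDerivAt (fun s : ℝ => s ^ 2) (2 * x) x := by
        simpa using hasDerivAt_pow 2 x
      exact (b1.add b2).sub b3
    apply monotoneOn_of_deriv_nonneg (convex_Icc 0 1)
    · apply Continuous.continuousOn
      have c1 : Continuous fun s : ℝ => (1 + s) * Real.log (1 + s) :=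
        Real.continuous_mul_log.comp (continuous_const.add continuous_id)
      have c2 : Continuous fun s : ℝ => (1 - s) * Real.log (1 - s) :=
        Real.continuous_mul_log.comp (continuous_const.sub continuous_id)
      exact (c1.add c2).sub (continuous_id.pow 2)
    · intro x hx
      exact (hd x hx).differentiableAt.differentiableWithinAt
    · intro x hx
      rw [(hd x hx).deriv]
      rw [interior_Icc] at hx
      have := two_mul_le_log_sub_log hx.1.le hx.2
      linarith
  have h := hmono (Set.left_mem_Icc.2 zero_le_one) (Set.mem_Icc.2 ⟨h0, h1⟩) h0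
  simp only [add_zero, sub_zero, Real.log_one, mul_zero, ne_eq, OfNat.ofNat_ne_zero,
    not_false_eq_true, zero_pow] at h
  linarith

theorem entropy_two_point_aux (a b : ℝ) (ha : 0 ≤ a) (hb : 0 ≤ b) (hab : b ≤ a) :
    (a - b) ^ 2 / (2 * (a + b)) ≤
      a * Real.log a + b * Real.log b - 2 * ((a + b) / 2 * Real.log ((a + b) / 2)) := by
  rcases eq_or_lt_of_le (add_nonneg ha hb) with h | h
  · have ha0 : a = 0 := by linarith
    have hb0 : b = 0 := by linarith
    simp [ha0, hb0]
  · set c : ℝ := (a + b) / 2 with hc
    have hc0 : 0 < c := by positivity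
    set s : ℝ := (a - b) / (a + b) with hs
    have hs0 : 0 ≤ s := div_nonneg (by linarith) h.le
    have hs1 : s ≤ 1 := by rw [hs, div_le_one h]; linarith
    have ea : a = c * (1 + s) := by rw [hc, hs]; field_simp; ring
    have eb : b = c * (1 - s) := by rw [hc, hs]; field_simp; ring
    have key := sq_le_entropy hs0 hs1
    have e1 : a * Real.log a = c * ((1 + s) * Real.log c) + c * ((1 + s) * Real.log (1 + s)) := by
      rw [ea, Real.log_mul hc0.ne' (by linarith)]
      ring
    have e2 : b * Real.log b = c * ((1 - s) * Real.log c) + c * ((1 - s) * Real.log (1 - s)) := by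
      rcases eq_or_lt_of_le hs1 with h1 | h1
      · have : b = 0 := by rw [eb, h1]; ring
        rw [this, h1]
        simp
      · rw [eb, Real.log_mul hc0.ne' (by linarith)]
        ring
    have e3 : (a - b) ^ 2 / (2 * (a + b)) = c * s ^ 2 := by
      rw [hc, hs]
      field_simp
    rw [e1, e2, e3]
    have := mul_le_mul_of_nonneg_left key hc0.le
    linarith

/-- T1a: two-point entropy inequality (`0 log 0 = 0`, `0/0 = 0`). -/
theorem entropy_two_point (a b : ℝ) (ha : 0 ≤ a) (hb : 0 ≤ b) :
    (a - b) ^ 2 / (2 * (a + b)) ≤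
      a * Real.log a + b * Real.log b - 2 * ((a + b) / 2 * Real.log ((a + b) / 2)) := by
  rcases le_total b a with h | h
  · exact entropy_two_point_aux a b ha hb h
  · have := entropy_two_point_aux b a hb ha h
    have e : (a - b) ^ 2 / (2 * (a + b)) = (b - a) ^ 2 / (2 * (b + a)) := by
      rw [add_comm b a]; congr 1; ring
    rw [e, add_comm a b]
    linarith

end Crest.Agent.R232
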