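import Crest.Agent.R232.T1Chain
import Crest.Agent.R232.T1a

/-! # T1, part 2: entropy decay and heat kernels -/

set_option autoImplicit false
open Finset

namespace Crest.Agent.R232.T1

open Crest.Agent.R232

variable {X : Type*} [Fintype X]

noncomputable def psi (s : ℝ) : ℝ := s * Real.log s

noncomputable def Ent (π : X → ℝ) (q : X → ℝ) : ℝ := ∑ x, π x * psi (q x)

noncomputable def J (c : X → X → ℝ) (q : X → ℝ) : ℝ :=
  ∑ x, ∑ y, c x y * ((q x - q y) ^ 2 / (q x + q y))

variable {π : X → ℝ} {c : X → X → ℝ} {δ : ℝ}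

theorem psi_Pop_le (h : IsChain π c δ) (q : X → ℝ) (hq : ∀ x, 0 ≤ q x) (y : X) :
    psi (Pop π c δ q y) ≤ (1 - 2 * ∑ z, δ * c y z / π y) * psi (q y)
      + ∑ z, 2 * (δ * c y z / π y) * psi ((q y + q z) / 2) := by
  have hconv := Real.convexOn_mul_log
  have hs := sum_p_le h y
  have := hconv.map_sum_le (t := (Finset.univ : Finset (Option X)))
    (w := fun o => o.elim (1 - 2 * ∑ z, δ * c y z / π y) (fun z => 2 * (δ * c y z / π y)))
    (p := fun o => o.elim (q y) (fun z => (q y + q z) / 2))
    (by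
      intro o _
      cases o with
      | none => simp only [Option.elim]; linarith
      | some z => simp only [Option.elim]; have := p_nonneg h y z; linarith)
    (by
      rw [Fintype.sum_option]
      simp only [Option.elim]
      rw [← Finset.mul_sum]; ring)
    (by
      intro o _
      cases o with
      | none => simpa using hq y
      | some z => simp only [Option.elim, Set.mem_Ici]; have := hq y; have := hq z; linarith)
  rw [Fintype.sum_option, Fintype.sum_option] at this
  simp only [Option.elim, smul_eq_mul] at this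
  have hP : Pop π c δ q y = (1 - 2 * ∑ z, δ * c y z / π y) * q y
      + ∑ z, 2 * (δ * c y z / π y) * ((q y + q z) / 2) := by
    rw [Pop_apply' h]
    have : ∑ z, 2 * (δ * c y z / π y) * ((q y + q z) / 2)
        = (∑ z, δ * c y z / π y) * q y + ∑ z, δ * c y z / π y * q z := by
      rw [Finset.sum_mul, ← Finset.sum_add_distrib]
      exact Finset.sum_congr rfl fun z _ => by ring
    rw [this]; ring
  rw [hP]
  exact this

theorem ent_step (h : IsChain π c δ) (q : X → ℝ) (hq : ∀ x, 0 ≤ q x) :
    Ent π (Pop π c δ q) + δ / 2 * J c q ≤ Ent π q := by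
  have h1 : Ent π (Pop π c δ q) ≤ ∑ y, π y * ((1 - 2 * ∑ z, δ * c y z / π y) * psi (q y)
      + ∑ z, 2 * (δ * c y z / π y) * psi ((q y + q z) / 2)) :=
    Finset.sum_le_sum fun y _ => mul_le_mul_of_nonneg_left (psi_Pop_le h q hq y) (h.pos y).le
  have h2 : ∑ y, π y * ((1 - 2 * ∑ z, δ * c y z / π y) * psi (q y)
      + ∑ z, 2 * (δ * c y z / π y) * psi ((q y + q z) / 2))
      = Ent π q - ∑ y, ∑ z, 2 * (δ * c y z * psi (q y))
        + ∑ y, ∑ z, 2 * (δ * c y z * psi ((q y + q z) / 2)) := by
    unfold Ent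
    rw [← Finset.sum_sub_distrib, ← Finset.sum_add_distrib]
    refine Finset.sum_congr rfl fun y _ => ?_
    have hp := (h.pos y).ne'
    have e1 : ∑ z, 2 * (δ * c y z * psi (q y)) = π y * (2 * (∑ z, δ * c y z / π y) * psi (q y)) := by
      rw [Finset.mul_sum, Finset.sum_mul, Finset.mul_sum]
      refine Finset.sum_congr rfl fun z _ => ?_
      field_simp
    have e2 : ∑ z, 2 * (δ * c y z * psi ((q y + q z) / 2))
        = π y * ∑ z, 2 * (δ * c y z / π y) * psi ((q y + q z) / 2) := by
      rw [Finset.mul_sum]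
      refine Finset.sum_congr rfl fun z _ => ?_
      field_simp
    rw [e1, e2]; ring
  have h3 : ∑ y, ∑ z, 2 * (δ * c y z * psi (q y))
      = ∑ y, ∑ z, δ * c y z * (psi (q y) + psi (q z)) := by
    have e : ∑ y, ∑ z, δ * c y z * psi (q z) = ∑ y, ∑ z, δ * c y z * psi (q y) := by
      rw [Finset.sum_comm]
      refine Finset.sum_congr rfl fun y _ => Finset.sum_congr rfl fun z _ => ?_
      rw [h.symm z y]
    have e' : ∑ y, ∑ z, δ * c y z * (psi (q y) + psi (q z))
        = ∑ y, ∑ z, δ * c y z * psi (q y) + ∑ y, ∑ z, δ * c y z * psi (q z) := by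
      rw [← Finset.sum_add_distrib]
      refine Finset.sum_congr rfl fun y _ => ?_
      rw [← Finset.sum_add_distrib]
      exact Finset.sum_congr rfl fun z _ => by ring
    rw [e', e, ← Finset.sum_add_distrib]
    refine Finset.sum_congr rfl fun y _ => ?_
    rw [← Finset.sum_add_distrib]
    exact Finset.sum_congr rfl fun z _ => by ring
  have h4 : δ / 2 * J c q ≤ ∑ y, ∑ z, δ * c y z * (psi (q y) + psi (q z))
      - ∑ y, ∑ z, 2 * (δ * c y z * psi ((q y + q z) / 2)) := by
    unfold J
    rw [Finset.mul_sum, ← Finset.sum_sub_distrib]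
    refine Finset.sum_le_sum fun y _ => ?_
    rw [Finset.mul_sum, ← Finset.sum_sub_distrib]
    refine Finset.sum_le_sum fun z _ => ?_
    have := entropy_two_point (q y) (q z) (hq y) (hq z)
    have h5 := mul_le_mul_of_nonneg_left this (mul_nonneg h.δpos.le (h.nonneg y z))
    calc δ / 2 * (c y z * ((q y - q z) ^ 2 / (q y + q z)))
        = δ * c y z * ((q y - q z) ^ 2 / (2 * (q y + q z))) := by
          rw [mul_comm 2 (q y + q z), ← div_div]; ring
      _ ≤ _ := h5
      _ = _ := by unfold psi; ring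
  rw [h2, h3] at h1
  linarith

theorem Ent_nonneg (hπ : ∀ x, 0 < π x) (hsum : ∑ x, π x = 1) (q : X → ℝ) (hq : ∀ x, 0 ≤ q x)
    (hq1 : ip π q (fun _ => 1) = 1) : 0 ≤ Ent π q := by
  have := Real.convexOn_mul_log.map_sum_le (t := (Finset.univ : Finset X)) (w := π) (p := q)
    (fun x _ => (hπ x).le) hsum (fun x _ => hq x)
  have e : ∑ x, π x • q x = 1 := by
    rw [← hq1]; unfold ip; exact Finset.sum_congr rfl fun x _ => by simp
  rw [e] at this
  simpa [Ent, psi] using this

variable [DecidableEq X]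

/-- heat kernel `q_k(a, ·) = P^k (1_a / π a)` -/
noncomputable def hk (π : X → ℝ) (c : X → X → ℝ) (δ : ℝ) (k : ℕ) (a : X) : X → ℝ :=
  (Pop π c δ ^ k) (Pi.single a (π a)⁻¹)

theorem ip_single (hπ : ∀ x, 0 < π x) (a : X) (g : X → ℝ) :
    ip π (Pi.single a (π a)⁻¹) g = g a := by
  unfold ip
  rw [Finset.sum_eq_single a]
  · simp [(hπ a).ne']
  · intro b _ hb; simp [Pi.single_eq_of_ne hb]
  · intro h; exact absurd (Finset.mem_univ a) h

theorem hk_nonneg (h : IsChain π c δ) (k : ℕ) (a x : X) : 0 ≤ hk π c δ k a x := by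
  refine Pop_pow_nonneg h k (fun y => ?_) x
  by_cases hy : y = a
  · subst hy; simp [inv_nonneg.2 (h.pos y).le]
  · simp [Pi.single_eq_of_ne hy]

theorem hk_mass (h : IsChain π c δ) (k : ℕ) (a : X) : ip π (hk π c δ k a) (fun _ => 1) = 1 := by
  unfold hk
  rw [ip_one_Pop_pow h, ip_single h.pos]

theorem hk_symm (h : IsChain π c δ) (k : ℕ) (a x : X) : hk π c δ k a x = hk π c δ k x a := by
  rw [← ip_single h.pos x (hk π c δ k a), hk, ← ip_Pop_pow h, ip_comm, ip_single h.pos]
  rfl

theorem hk_add (h : IsChain π c δ) (i j : ℕ) (a x : X) :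
    hk π c δ (i + j) a x = ∑ z, π z * (hk π c δ i z a * hk π c δ j z x) := by
  rw [← ip_single h.pos x (hk π c δ (i + j) a), hk, add_comm, pow_add, Module.End.mul_apply,
    ← ip_Pop_pow h]
  unfold ip
  refine Finset.sum_congr rfl fun z _ => ?_
  rw [hk_symm h i z a, hk_symm h j z x, mul_comm (hk π c δ i a z)]
  rfl

theorem Ent_zero (h : IsChain π c δ) (a : X) : Ent π (hk π c δ 0 a) = - Real.log (π a) := by
  unfold Ent hk
  rw [Finset.sum_eq_single a]
  · have := (h.pos a).ne'
    simp [psi, this]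
  · intro b _ hb; simp [psi, Pi.single_eq_of_ne hb]
  · intro h'; exact absurd (Finset.mem_univ a) h'

theorem sum_J_le (h : IsChain π c δ) (a : X) (K : ℕ) :
    δ * ∑ m ∈ range K, J c (hk π c δ m a) ≤ 2 * (- Real.log (π a)) := by
  have key : δ / 2 * ∑ m ∈ range K, J c (hk π c δ m a) + Ent π (hk π c δ K a)
      ≤ Ent π (hk π c δ 0 a) := by
    induction K with
    | zero => simp
    | succ K ih =>
      rw [Finset.sum_range_succ, mul_add]
      have := ent_step h (hk π c δ K a) (hk_nonneg h K a)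
      have e : Pop π c δ (hk π c δ K a) = hk π c δ (K + 1) a := by
        unfold hk; rw [← Module.End.mul_apply, ← pow_succ']
      rw [e] at this
      linarith
  have h0 := Ent_nonneg h.pos h.sum_one (hk π c δ K a) (hk_nonneg h K a) (hk_mass h K a)
  rw [Ent_zero h] at key
  linarith

omit [DecidableEq X] in
theorem sum_entropy_le [Nonempty X] (hπ : ∀ x, 0 < π x) (hsum : ∑ x, π x = 1) :
    ∑ z, π z * (- Real.log (π z)) ≤ Real.log (Fintype.card X) := by
  have hn : (0 : ℝ) < Fintype.card X := by exact_mod_cast Fintype.card_pos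
  have h1 : ∀ z, π z * (- Real.log (π z)) ≤ π z * Real.log (Fintype.card X)
      + ((Fintype.card X : ℝ)⁻¹ - π z) := by
    intro z
    have hz := hπ z
    have := Real.log_le_sub_one_of_pos (x := (Fintype.card X * π z)⁻¹) (by positivity)
    rw [Real.log_inv, Real.log_mul hn.ne' hz.ne'] at this
    have h2 := mul_le_mul_of_nonneg_left this hz.le
    have h3 : π z * ((Fintype.card X * π z)⁻¹ - 1) = (Fintype.card X : ℝ)⁻¹ - π z := by
      field_simp
    rw [h3] at h2
    linarith
  calc ∑ z, π z * (- Real.log (π z))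
      ≤ ∑ z, (π z * Real.log (Fintype.card X) + ((Fintype.card X : ℝ)⁻¹ - π z)) :=
        Finset.sum_le_sum fun z _ => h1 z
    _ = Real.log (Fintype.card X) := by
      rw [Finset.sum_add_distrib, Finset.sum_sub_distrib, ← Finset.sum_mul, hsum]
      simp [hn.ne']

end Crest.Agent.R232.T1
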