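import Crest.Agent.R232.ChainDefs
import Crest.Agent.R232.Blueprint

/-! Split of T1 into three independent pieces (T1b, T1c, T1d) -/

set_option autoImplicit false

open Finset Filter Topology

namespace Crest.Agent.R232.BP

open Crest.Agent.R232

/-- T1b (helper804): entropy step. -/
theorem entropy_step {X : Type*} [Fintype X] [DecidableEq X] (π : X → ℝ) (c : X → X → ℝ)
    (h : IsChain π c) (q : X → ℝ) (hq : ∀ x, 0 ≤ q x) :
    (1 / 2) * ∑ x, ∑ y, c x y * ((q x - q y) ^ 2 / (q x + q y)) ≤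
      ∑ x, π x * (q x * Real.log (q x)) -
        ∑ x, π x * (stepL π c q x * Real.log (stepL π c q x)) := sorry

/-- T1c (helper213): finite `K` operator: `S_K V = δ ∑_{k<2K} P^k D* V`. -/
theorem chain_finite {X : Type*} [Fintype X] [DecidableEq X] (hn : 2 ≤ Fintype.card X)
    (d : X → X → ℝ) (hd : IsDist d) (W : X × X → ℝ)
    (hW_symm : ∀ x y, W (x, y) = W (y, x)) (hW_diag : ∀ x, W (x, x) = 0)
    (hW_pos : ∀ x y, x ≠ y → 0 < W (x, y)) (hW_sum : ∑ e, W e = 1)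
    (δ : ℝ) (hδ : 0 < δ) (π : X → ℝ) (hπ : ∀ x, π x = ∑ y, W (x, y))
    (c : X → X → ℝ) (hc : ∀ x y, c x y = δ * (W (x, y) / d x y ^ 2)) (h : IsChain π c) (K : ℕ) :
    ∃ S : (X × X → ℝ) →ₗ[ℝ] (X → ℝ),
      (∀ (f : X → ℝ) (e : X × X), grad d (S (grad d f)) e =
        grad d f e - grad d (((stepL π c) ^ (2 * K)) f) e) ∧
      (∀ V : X × X → ℝ, ∑ e, W e * (grad d (S V) e) ^ 2 ≤ ∑ e, W e * (V e) ^ 2) ∧
      (∑ e, W e * ∑ e', |grad d (S (Pi.single e' 1)) e| ≤ 4 * Real.log (Fintype.card X)) := sorry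

/-- T1d1 (helper159): the gradient of `P^{2K} f` tends to `0`. -/
theorem step_pow_tendsto {X : Type*} [Fintype X] [DecidableEq X] (π : X → ℝ) (c : X → X → ℝ)
    (h : IsChain π c) (hpos : ∀ x y, x ≠ y → 0 < c x y) (f : X → ℝ) (x y : X) :
    Tendsto (fun K : ℕ => ((stepL π c) ^ (2 * K)) f x - ((stepL π c) ^ (2 * K)) f y) atTop
      (𝓝 0) := sorry

/-- T1d2 (helper804): `chain_operator` from `chain_finite` and `step_pow_tendsto` (choose
`δ` small, normalise `S_K` at a base point, bounded => convergent subsequence). -/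
theorem chain_operator_of_finite {X : Type*} [Fintype X] [DecidableEq X] (hn : 2 ≤ Fintype.card X)
    (d : X → X → ℝ) (hd : IsDist d) (W : X × X → ℝ)
    (hW_symm : ∀ x y, W (x, y) = W (y, x)) (hW_diag : ∀ x, W (x, x) = 0)
    (hW_pos : ∀ x y, x ≠ y → 0 < W (x, y)) (hW_sum : ∑ e, W e = 1) :
    ∃ S : (X × X → ℝ) →ₗ[ℝ] (X → ℝ),
      (∀ (f : X → ℝ) (e : X × X), grad d (S (grad d f)) e = grad d f e) ∧
      (∀ V : X × X → ℝ, ∑ e, W e * (grad d (S V) e) ^ 2 ≤ ∑ e, W e * (V e) ^ 2) ∧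
      (∑ e, W e * ∑ e', |grad d (S (Pi.single e' 1)) e| ≤ 4 * Real.log (Fintype.card X)) := sorry

end Crest.Agent.R232.BP
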