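import Crest.Agent.R232.ChainDefs
import Crest.Agent.R232.T1a

/-!
# R232 (S0358), T1b: entropy step of a lazy reversible chain
-/

set_option autoImplicit false

open Finset

namespace Crest.Agent.R232

theorem sum_c_antisymm {X : Type*} [Fintype X] {π : X → ℝ} {c : X → X → ℝ}
    (h : IsChain π c) (f g : X → ℝ) :
    ∑ x, ∑ y, c x y * (f x - f y) * g x
      = (∑ x, ∑ y, c x y * ((f x - f y) * (g x - g y))) / 2 := by
  have h1 : ∑ x, ∑ y, c x y * (f x - f y) * g x
      = - ∑ x, ∑ y, c x y * (f x - f y) * g y := by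
    rw [Finset.sum_comm, ← Finset.sum_neg_distrib]
    refine Finset.sum_congr rfl fun x _ => ?_
    rw [← Finset.sum_neg_distrib]
    refine Finset.sum_congr rfl fun y _ => ?_
    rw [h.c_symm y x]; ring
  have h2 : ∑ x, ∑ y, c x y * ((f x - f y) * (g x - g y))
      = ∑ x, ∑ y, c x y * (f x - f y) * g x - ∑ x, ∑ y, c x y * (f x - f y) * g y := by
    rw [← Finset.sum_sub_distrib]
    refine Finset.sum_congr rfl fun x _ => ?_
    rw [← Finset.sum_sub_distrib]
    refine Finset.sum_congr rfl fun y _ => ?_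
    ring
  linarith

/-- stationarity -/
theorem sum_pi_stepL {X : Type*} [Fintype X] {π : X → ℝ} {c : X → X → ℝ}
    (h : IsChain π c) (f : X → ℝ) : ∑ x, π x * stepL π c f x = ∑ x, π x * f x := by
  have h0 := sum_c_antisymm h f (fun _ => 1)
  simp only [sub_self, mul_zero, Finset.sum_const_zero, zero_div, mul_one] at h0
  have h1 : ∑ x, π x * stepL π c f x = ∑ x, π x * f x - ∑ x, ∑ y, c x y * (f x - f y) := by
    rw [← Finset.sum_sub_distrib]
    refine Finset.sum_congr rfl fun x _ => ?_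
    rw [stepL_apply, mul_sub, mul_inv_cancel_left₀ (h.pi_pos x).ne']
  rw [h1, h0, sub_zero]

theorem entropy_step_pointwise {X : Type*} [Fintype X] {π : X → ℝ} {c : X → X → ℝ}
    (h : IsChain π c) (q : X → ℝ) (hq : ∀ x, 0 ≤ q x) (x : X) :
    π x * (stepL π c q x * Real.log (stepL π c q x)) ≤
      π x * stepL π c (fun z => q z * Real.log (q z)) x
        - 1 / 2 * ∑ y, c x y * ((q x - q y) ^ 2 / (q x + q y)) := by
  classical
  set ψ : ℝ → ℝ := fun s => s * Real.log s with hψ
  have hpi := h.pi_pos x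
  set s : ℝ := (π x)⁻¹ * ∑ y, c x y with hs
  have hs2 : s ≤ 1 / 2 := by
    have := h.lazy x
    rw [hs, inv_mul_le_iff₀ hpi]; linarith
  set u : X → ℝ := fun y => 2 * ((π x)⁻¹ * c x y) + (if y = x then 1 - 2 * s else 0) with hu
  have hu0 : ∀ y ∈ (univ : Finset X), 0 ≤ u y := by
    intro y _
    have h1 : 0 ≤ (π x)⁻¹ * c x y := mul_nonneg (inv_nonneg.2 hpi.le) (h.c_nonneg x y)
    simp only [hu]
    split_ifs <;> linarith
  have hu1 : ∑ y, u y = 1 := by
    simp only [hu]
    rw [Finset.sum_add_distrib, Finset.sum_ite_eq' univ x, if_pos (mem_univ x), ← Finset.mul_sum,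
      ← Finset.mul_sum, ← hs]
    ring
  have hmem : ∀ y ∈ (univ : Finset X), (q x + q y) / 2 ∈ Set.Ici (0 : ℝ) := by
    intro y _
    have := hq x; have := hq y
    show 0 ≤ (q x + q y) / 2
    linarith
  have hjen := Real.convexOn_mul_log.map_sum_le hu0 hu1 hmem
  simp only [smul_eq_mul] at hjen
  have hPq : ∑ y, u y * ((q x + q y) / 2) = stepL π c q x := by
    simp only [hu, add_mul, Finset.sum_add_distrib, ite_mul, zero_mul]
    rw [Finset.sum_ite_eq' univ x, if_pos (mem_univ x), stepL_apply]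
    have h1 : ∑ y, 2 * ((π x)⁻¹ * c x y) * ((q x + q y) / 2)
        = 2 * s * q x - (π x)⁻¹ * ∑ y, c x y * (q x - q y) := by
      have e1 : 2 * s * q x = ∑ y, 2 * ((π x)⁻¹ * c x y) * q x := by
        rw [hs, ← Finset.sum_mul, ← Finset.mul_sum, ← Finset.mul_sum]
      rw [e1, Finset.mul_sum, ← Finset.sum_sub_distrib]
      exact Finset.sum_congr rfl fun y _ => by ring
    rw [h1]; ring
  rw [hPq] at hjen
  have hrhs : ∑ y, u y * ψ ((q x + q y) / 2) ≤
      stepL π c (fun z => ψ (q z)) x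
        - (π x)⁻¹ * ∑ y, c x y * ((q x - q y) ^ 2 / (2 * (q x + q y))) := by
    have h1 : ∑ y, u y * ψ ((q x + q y) / 2)
        = (1 - 2 * s) * ψ (q x) + ∑ y, (π x)⁻¹ * c x y * (2 * ψ ((q x + q y) / 2)) := by
      simp only [hu, add_mul, Finset.sum_add_distrib, ite_mul, zero_mul]
      rw [Finset.sum_ite_eq' univ x, if_pos (mem_univ x), add_comm]
      congr 1
      · rw [show (q x + q x) / 2 = q x by ring]
      · exact Finset.sum_congr rfl fun y _ => by ring
    have h2 : ∑ y, (π x)⁻¹ * c x y * (2 * ψ ((q x + q y) / 2)) ≤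
        ∑ y, (π x)⁻¹ * c x y *
          (ψ (q x) + ψ (q y) - (q x - q y) ^ 2 / (2 * (q x + q y))) := by
      apply Finset.sum_le_sum
      intro y _
      apply mul_le_mul_of_nonneg_left _
        (mul_nonneg (inv_nonneg.2 hpi.le) (h.c_nonneg x y))
      have := entropy_two_point (q x) (q y) (hq x) (hq y)
      simp only [hψ]
      linarith
    have h3 : ∑ y, (π x)⁻¹ * c x y *
          (ψ (q x) + ψ (q y) - (q x - q y) ^ 2 / (2 * (q x + q y)))
        = 2 * s * ψ (q x) - (π x)⁻¹ * ∑ y, c x y * (ψ (q x) - ψ (q y))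
          - (π x)⁻¹ * ∑ y, c x y * ((q x - q y) ^ 2 / (2 * (q x + q y))) := by
      have e1 : 2 * s * ψ (q x) = ∑ y, 2 * ((π x)⁻¹ * c x y) * ψ (q x) := by
        rw [hs, ← Finset.sum_mul, ← Finset.mul_sum, ← Finset.mul_sum]
      rw [e1, Finset.mul_sum, Finset.mul_sum, ← Finset.sum_sub_distrib,
        ← Finset.sum_sub_distrib]
      exact Finset.sum_congr rfl fun y _ => by ring
    rw [h1]
    refine (add_le_add_right h2 _).trans (le_of_eq ?_)
    rw [h3, stepL_apply]; ring
  have h5 := mul_le_mul_of_nonneg_left (hjen.trans hrhs) hpi.le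
  refine h5.trans (le_of_eq ?_)
  rw [mul_sub, mul_inv_cancel_left₀ hpi.ne']
  congr 1
  rw [Finset.mul_sum]
  refine Finset.sum_congr rfl fun y _ => ?_
  rw [div_mul_eq_div_div_swap, show ∀ a b : ℝ, a / b = a * b⁻¹ from fun a b => div_eq_mul_inv a b]
  ring

/-- **T1b: entropy step.** -/
theorem entropy_step {X : Type*} [Fintype X] [DecidableEq X] (π : X → ℝ) (c : X → X → ℝ)
    (h : IsChain π c) (q : X → ℝ) (hq : ∀ x, 0 ≤ q x) :
    (1 / 2) * ∑ x, ∑ y, c x y * ((q x - q y) ^ 2 / (q x + q y)) ≤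
      ∑ x, π x * (q x * Real.log (q x)) -
        ∑ x, π x * (stepL π c q x * Real.log (stepL π c q x)) := by
  have h1 : ∑ x, π x * (stepL π c q x * Real.log (stepL π c q x)) ≤
      ∑ x, (π x * stepL π c (fun z => q z * Real.log (q z)) x
        - 1 / 2 * ∑ y, c x y * ((q x - q y) ^ 2 / (q x + q y))) :=
    Finset.sum_le_sum fun x _ => entropy_step_pointwise h q hq x
  rw [Finset.sum_sub_distrib, sum_pi_stepL h, ← Finset.mul_sum] at h1
  linarith

end Crest.Agent.R232
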