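import Crest.Agent.R232.Defs

/-! # R232 (S0358), task T2: finite dimensional minimax (helper605) -/

set_option autoImplicit false

open Finset

namespace Crest.Agent.R232

/-- T2: finite dimensional minimax. -/
theorem exists_le_of_forall_weights {V : Type*} [AddCommGroup V] [Module ℝ V] {E : Type*}
    [Fintype E] [Nonempty E] (K : Set V) (φ : E → V → ℝ)
    (hφ : ∀ e, ConvexOn ℝ K (φ e)) (c c' : ℝ) (hc : c < c')
    (h : ∀ W : E → ℝ, (∀ e, 0 ≤ W e) → ∑ e, W e = 1 → ∃ k ∈ K, ∑ e, W e * φ e k ≤ c) :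
    ∃ k ∈ K, ∀ e, φ e k ≤ c' := by
  classical
  -- the upward closed convex open set
  set U : Set (E → ℝ) := {u | ∃ k ∈ K, ∀ e, φ e k < u e} with hU
  have hUconv : Convex ℝ U := by
    rintro u ⟨k, hk, hku⟩ u' ⟨k', hk', hku'⟩ a b ha hb hab
    refine ⟨a • k + b • k', (hφ (Classical.arbitrary E)).1 hk hk' ha hb hab, fun e => ?_⟩
    have h1 := (hφ e).2 hk hk' ha hb hab
    simp only [smul_eq_mul] at h1
    simp only [Pi.add_apply, Pi.smul_apply, smul_eq_mul]
    have h2 := hku e
    have h3 := hku' e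
    rcases eq_or_lt_of_le ha with h0 | h0
    · subst h0
      have : b = 1 := by linarith
      subst this
      linarith
    · nlinarith [mul_lt_mul_of_pos_left h2 h0, mul_le_mul_of_nonneg_left h3.le hb]
  have hUopen : IsOpen U := by
    have : U = ⋃ k ∈ K, ⋂ e, {u : E → ℝ | φ e k < u e} := by
      ext u
      simp [hU]
    rw [this]
    refine isOpen_biUnion fun k _ => isOpen_iInter_of_finite fun e => ?_
    exact isOpen_lt continuous_const (continuous_apply e)
  by_cases hmem : (fun _ : E => c') ∈ U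
  · obtain ⟨k, hk, hk'⟩ := hmem
    exact ⟨k, hk, fun e => (hk' e).le⟩
  exfalso
  obtain ⟨f, hf⟩ := geometric_hahn_banach_open_point hUconv hUopen hmem
  -- coordinates of the functional
  have hfu : ∀ u : E → ℝ, f u = ∑ e, u e * f (Pi.single e 1) := by
    intro u
    conv_lhs => rw [pi_eq_sum_univ u ]
    rw [map_sum]
    apply Finset.sum_congr rfl
    intro e _
    rw [map_smul, smul_eq_mul]
    congr 2
    funext j
    simp [Pi.single_apply, eq_comm]
  -- `K` is not empty
  obtain ⟨k0, hk0, -⟩ : ∃ k ∈ K, ∑ e, (fun _ : E => (1 : ℝ) / Fintype.card E) e * φ e k ≤ c := by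
    refine h _ (fun e => by positivity) ?_
    simp
  have hup : ∀ u ∈ U, ∀ e, ∀ t : ℝ, 0 ≤ t → u + t • Pi.single e (1 : ℝ) ∈ U := by
    rintro u ⟨k, hk, hku⟩ e t ht
    refine ⟨k, hk, fun e' => ?_⟩
    have := hku e'
    simp only [Pi.add_apply, Pi.smul_apply, smul_eq_mul]
    have h1 : (0 : ℝ) ≤ t * (Pi.single e (1 : ℝ) : E → ℝ) e' := by
      apply mul_nonneg ht
      by_cases he : e' = e
      · subst he; simp
      · simp [he]
    linarith
  have hu0 : (fun e => φ e k0 + 1) ∈ U := ⟨k0, hk0, fun e => by linarith⟩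
  have hneg : ∀ e, f (Pi.single e 1) ≤ 0 := by
    intro e
    by_contra hcon
    rw [not_le] at hcon
    set u0 : E → ℝ := fun e => φ e k0 + 1 with hu0def
    -- choose `t` big
    have key : ∀ t : ℝ, 0 ≤ t → f u0 + t * f (Pi.single e 1) < f (fun _ => c') := by
      intro t ht
      have := hf _ (hup u0 hu0 e t ht)
      rwa [map_add, map_smul, smul_eq_mul] at this
    have h1 := key (|f (fun _ => c') - f u0| / f (Pi.single e 1)) (by positivity)
    rw [div_mul_cancel₀ _ hcon.ne'] at h1
    have := le_abs_self (f (fun _ => c') - f u0)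
    linarith
  set lam : E → ℝ := fun e => - f (Pi.single e 1) with hlam
  have hlam0 : ∀ e, 0 ≤ lam e := fun e => by simp only [hlam]; linarith [hneg e]
  have hfu' : ∀ u : E → ℝ, f u = - ∑ e, lam e * u e := by
    intro u
    rw [hfu, ← Finset.sum_neg_distrib]
    apply Finset.sum_congr rfl
    intro e _
    simp only [hlam]
    ring
  have hL : 0 < ∑ e, lam e := by
    rcases (Finset.sum_nonneg (fun e _ => hlam0 e)).lt_or_eq with h1 | h1
    · exact h1
    exfalso
    have h2 : ∀ e, lam e = 0 := by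
      intro e
      exact (Finset.sum_eq_zero_iff_of_nonneg (fun e _ => hlam0 e)).1 h1.symm e (Finset.mem_univ e)
    have h3 := hf _ hu0
    rw [hfu', hfu'] at h3
    simp [h2] at h3
  obtain ⟨k, hk, hkc⟩ := h (fun e => lam e / ∑ e, lam e)
    (fun e => div_nonneg (hlam0 e) hL.le) (by
      rw [← Finset.sum_div]
      exact div_self hL.ne')
  have hu : (fun e => φ e k + (c' - c)) ∈ U := ⟨k, hk, fun e => by linarith⟩
  have h4 := hf _ hu
  rw [hfu', hfu'] at h4
  have h5 : ∑ e, lam e * φ e k ≤ c * ∑ e, lam e := by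
    have : ∑ e, lam e / (∑ e, lam e) * φ e k = (∑ e, lam e * φ e k) / ∑ e, lam e := by
      rw [Finset.sum_div]
      apply Finset.sum_congr rfl
      intro e _
      ring
    rw [this, div_le_iff₀ hL] at hkc
    exact hkc
  have h6 : ∑ e, lam e * (φ e k + (c' - c)) = ∑ e, lam e * φ e k + (∑ e, lam e) * (c' - c) := by
    rw [Finset.sum_mul, ← Finset.sum_add_distrib]
    apply Finset.sum_congr rfl
    intro e _
    ring
  have h7 : ∑ e, lam e * c' = (∑ e, lam e) * c' := by
    rw [Finset.sum_mul]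
  rw [h6, h7] at h4
  nlinarith

end Crest.Agent.R232
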