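import Crest.Agent.R232.T1
import Crest.Agent.R232.T2Minimax

set_option autoImplicit false

open Finset

namespace Crest.Agent.R232

section T3

variable {X : Type*} [Fintype X] [DecidableEq X]

/-- symmetrised off-diagonal part -/
noncomputable def symO (W : X × X → ℝ) (e : X × X) : ℝ :=
  if e.1 = e.2 then 0 else (W (e.1, e.2) + W (e.2, e.1)) / 2

omit [Fintype X] in
theorem symO_nonneg {W : X × X → ℝ} (h : ∀ e, 0 ≤ W e) (e : X × X) : 0 ≤ symO W e := by
  unfold symO
  split_ifs
  · exact le_rfl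
  · have h1 := h (e.1, e.2)
    have h2 := h (e.2, e.1)
    linarith

omit [Fintype X] in
theorem symO_swap (W : X × X → ℝ) (x y : X) : symO W (x, y) = symO W (y, x) := by
  unfold symO
  by_cases hxy : x = y
  · subst hxy; rfl
  · rw [if_neg (by simpa using hxy), if_neg (by simpa using Ne.symm hxy)]
    simp only
    ring

omit [DecidableEq X] in
theorem sum_swap_eq (g : X × X → ℝ) : ∑ e : X × X, g (e.2, e.1) = ∑ e, g e :=
  (Equiv.prodComm X X).sum_comp g

theorem sum_symO_mul (W g : X × X → ℝ) (hs : ∀ x y, g (x, y) = g (y, x)) (hd : ∀ x, g (x, x) = 0) :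
    ∑ e, symO W e * g e = ∑ e, W e * g e := by
  have h1 : ∀ e : X × X, symO W e * g e = (W e * g e + W (e.2, e.1) * g (e.2, e.1)) / 2 := by
    rintro ⟨x, y⟩
    unfold symO
    by_cases hxy : x = y
    · subst hxy
      simp [hd]
    · rw [if_neg (by simpa using hxy)]
      simp only
      rw [hs y x]
      ring
  rw [Finset.sum_congr rfl (fun e _ => h1 e), ← Finset.sum_div, Finset.sum_add_distrib,
    sum_swap_eq (fun e => W e * g e)]
  ring

theorem sum_symO_le (W : X × X → ℝ) (h : ∀ e, 0 ≤ W e) : ∑ e, symO W e ≤ ∑ e, W e := by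
  have h1 : ∀ e : X × X, symO W e ≤ (W e + W (e.2, e.1)) / 2 := by
    rintro ⟨x, y⟩
    unfold symO
    have h1 := h (x, y)
    have h2 := h (y, x)
    split_ifs
    · simp only; linarith
    · simp only; exact le_rfl
  calc ∑ e, symO W e ≤ ∑ e : X × X, (W e + W (e.2, e.1)) / 2 := Finset.sum_le_sum fun e _ => h1 e
    _ = ∑ e, W e := by
      rw [← Finset.sum_div, Finset.sum_add_distrib, sum_swap_eq W]
      ring

/-- the constant weight off the diagonal -/
noncomputable def offC (c : ℝ) (e : X × X) : ℝ := if e.1 = e.2 then 0 else c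

theorem sum_offC (c : ℝ) :
    ∑ e : X × X, offC c e = (Fintype.card X * Fintype.card X - Fintype.card X : ℝ) * c := by
  have h1 : ∀ e : X × X, offC c e = c - (if e.1 = e.2 then c else 0) := by
    intro e
    unfold offC
    split_ifs <;> ring
  rw [Finset.sum_congr rfl (fun e _ => h1 e), Finset.sum_sub_distrib]
  have h2 : ∑ e : X × X, (if e.1 = e.2 then c else 0) = Fintype.card X * c := by
    rw [Fintype.sum_prod_type]
    simp [Finset.sum_ite_eq]
  rw [h2]
  simp only [Finset.sum_const, Finset.card_univ, Fintype.card_prod, nsmul_eq_mul]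
  push_cast
  ring

theorem apply_eq_sum (S : (X × X → ℝ) →ₗ[ℝ] (X → ℝ)) (V : X × X → ℝ) (x : X) :
    S V x = ∑ e', V e' * S (Pi.single e' 1) x := by
  have h1 : V = ∑ e', V e' • (Pi.single e' (1 : ℝ) : X × X → ℝ) := by
    funext e
    simp [Finset.sum_apply, Pi.single_apply]
  conv_lhs => rw [h1]
  rw [map_sum, Finset.sum_apply]
  refine Finset.sum_congr rfl fun e' _ => ?_
  rw [map_smul, Pi.smul_apply, smul_eq_mul]

theorem grad_apply_eq_sum (d : X → X → ℝ) (S : (X × X → ℝ) →ₗ[ℝ] (X → ℝ)) (V : X × X → ℝ)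
    (e : X × X) : grad d (S V) e = ∑ e', V e' * grad d (S (Pi.single e' 1)) e := by
  unfold grad
  rw [apply_eq_sum S V e.1, apply_eq_sum S V e.2, ← Finset.sum_sub_distrib, Finset.sum_div]
  refine Finset.sum_congr rfl fun e' _ => ?_
  ring

theorem abs_grad_apply_le (d : X → X → ℝ) (S : (X × X → ℝ) →ₗ[ℝ] (X → ℝ)) (V : X × X → ℝ)
    (e : X × X) : |grad d (S V) e| ≤ ∑ e', |V e'| * |grad d (S (Pi.single e' 1)) e| := by
  rw [grad_apply_eq_sum]
  refine (Finset.abs_sum_le_sum_abs _ _).trans (le_of_eq ?_)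
  exact Finset.sum_congr rfl fun e' _ => abs_mul _ _

/-- the convex set of admissible pairs -/
def KSet (d : X → X → ℝ) (Wout : X × X → ℝ) (L : ℝ) :
    Set (((X × X → ℝ) →ₗ[ℝ] (X → ℝ)) × (X × X → ℝ)) :=
  {k | (∀ e, 0 ≤ k.2 e) ∧ (∑ e, k.2 e ≤ 1) ∧
      (∀ (f : X → ℝ) (e : X × X), grad d (k.1 (grad d f)) e = grad d f e) ∧
      (∀ V : X × X → ℝ, ∑ e, Wout e * (grad d (k.1 V) e) ^ 2 ≤ 6 * ∑ e, k.2 e * (V e) ^ 2) ∧
      (∀ e', ∑ e, Wout e * |grad d (k.1 (Pi.single e' 1)) e| ≤ 24 * L * k.2 e')}

omit [Fintype X] [DecidableEq X] in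
theorem grad_comb (d : X → X → ℝ) (S S' : (X × X → ℝ) →ₗ[ℝ] (X → ℝ)) (a b : ℝ) (V : X × X → ℝ)
    (e : X × X) : grad d ((a • S + b • S') V) e = a * grad d (S V) e + b * grad d (S' V) e := by
  simp only [LinearMap.add_apply, LinearMap.smul_apply, grad_add, grad_smul]

theorem convex_KSet (d : X → X → ℝ) (Wout : X × X → ℝ) (h0 : ∀ e, 0 ≤ Wout e) (L : ℝ) :
    Convex ℝ (KSet d Wout L) := by
  rintro ⟨S, Wi⟩ ⟨h1, h2, h3, h4, h5⟩ ⟨S', Wi'⟩ ⟨h1', h2', h3', h4', h5'⟩ a b ha hb hab
  simp only at h1 h2 h3 h4 h5 h1' h2' h3' h4' h5'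
  refine ⟨?_, ?_, ?_, ?_, ?_⟩
  · intro e
    simp only [Prod.snd_add, Prod.smul_snd, Pi.add_apply, Pi.smul_apply, smul_eq_mul]
    exact add_nonneg (mul_nonneg ha (h1 e)) (mul_nonneg hb (h1' e))
  · simp only [Prod.snd_add, Prod.smul_snd, Pi.add_apply, Pi.smul_apply, smul_eq_mul]
    rw [Finset.sum_add_distrib, ← Finset.mul_sum, ← Finset.mul_sum]
    nlinarith
  · intro f e
    simp only [Prod.fst_add, Prod.smul_fst]
    rw [grad_comb, h3, h3', ← add_mul, hab, one_mul]
  · intro V
    simp only [Prod.fst_add, Prod.smul_fst, Prod.snd_add, Prod.smul_snd, Pi.add_apply,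
      Pi.smul_apply, smul_eq_mul]
    have hpt : ∀ e, Wout e * (grad d ((a • S + b • S') V) e) ^ 2 ≤
        a * (Wout e * (grad d (S V) e) ^ 2) + b * (Wout e * (grad d (S' V) e) ^ 2) := by
      intro e
      rw [grad_comb]
      set u := grad d (S V) e
      set u' := grad d (S' V) e
      have h6 : (a * u + b * u') ^ 2 ≤ a * u ^ 2 + b * u' ^ 2 := by
        have h7 : a * u ^ 2 + b * u' ^ 2 - (a * u + b * u') ^ 2 = a * b * (u - u') ^ 2 := by
          have : b = 1 - a := by linarith
          rw [this]; ring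
        have h8 : 0 ≤ a * b * (u - u') ^ 2 := by positivity
        linarith
      calc Wout e * (a * u + b * u') ^ 2 ≤ Wout e * (a * u ^ 2 + b * u' ^ 2) :=
            mul_le_mul_of_nonneg_left h6 (h0 e)
        _ = _ := by ring
    have hr : 6 * ∑ e, (a * Wi e + b * Wi' e) * (V e) ^ 2
        = a * (6 * ∑ e, Wi e * (V e) ^ 2) + b * (6 * ∑ e, Wi' e * (V e) ^ 2) := by
      rw [Finset.mul_sum, Finset.mul_sum, Finset.mul_sum, Finset.mul_sum, Finset.mul_sum,
        ← Finset.sum_add_distrib]
      refine Finset.sum_congr rfl fun e _ => ?_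
      ring
    rw [hr]
    calc ∑ e, Wout e * (grad d ((a • S + b • S') V) e) ^ 2
        ≤ ∑ e, (a * (Wout e * (grad d (S V) e) ^ 2) + b * (Wout e * (grad d (S' V) e) ^ 2)) :=
          Finset.sum_le_sum fun e _ => hpt e
      _ = a * ∑ e, Wout e * (grad d (S V) e) ^ 2 + b * ∑ e, Wout e * (grad d (S' V) e) ^ 2 := by
          rw [Finset.sum_add_distrib, ← Finset.mul_sum, ← Finset.mul_sum]
      _ ≤ _ := add_le_add (mul_le_mul_of_nonneg_left (h4 V) ha) (mul_le_mul_of_nonneg_left (h4' V) hb)
  · intro e'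
    simp only [Prod.fst_add, Prod.smul_fst, Prod.snd_add, Prod.smul_snd, Pi.add_apply,
      Pi.smul_apply, smul_eq_mul]
    have hpt : ∀ e, Wout e * |grad d ((a • S + b • S') (Pi.single e' 1)) e| ≤
        a * (Wout e * |grad d (S (Pi.single e' 1)) e|) +
          b * (Wout e * |grad d (S' (Pi.single e' 1)) e|) := by
      intro e
      rw [grad_comb]
      have h6 : |a * grad d (S (Pi.single e' 1)) e + b * grad d (S' (Pi.single e' 1)) e| ≤
          a * |grad d (S (Pi.single e' 1)) e| + b * |grad d (S' (Pi.single e' 1)) e| := by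
        refine (abs_add_le _ _).trans (le_of_eq ?_)
        rw [abs_mul, abs_mul, abs_of_nonneg ha, abs_of_nonneg hb]
      calc _ ≤ Wout e * (a * |grad d (S (Pi.single e' 1)) e| +
            b * |grad d (S' (Pi.single e' 1)) e|) := mul_le_mul_of_nonneg_left h6 (h0 e)
        _ = _ := by ring
    calc ∑ e, Wout e * |grad d ((a • S + b • S') (Pi.single e' 1)) e|
        ≤ ∑ e, (a * (Wout e * |grad d (S (Pi.single e' 1)) e|) +
          b * (Wout e * |grad d (S' (Pi.single e' 1)) e|)) := Finset.sum_le_sum fun e _ => hpt e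
      _ = a * ∑ e, Wout e * |grad d (S (Pi.single e' 1)) e| +
          b * ∑ e, Wout e * |grad d (S' (Pi.single e' 1)) e| := by
          rw [Finset.sum_add_distrib, ← Finset.mul_sum, ← Finset.mul_sum]
      _ ≤ a * (24 * L * Wi e') + b * (24 * L * Wi' e') :=
          add_le_add (mul_le_mul_of_nonneg_left (h5 e') ha) (mul_le_mul_of_nonneg_left (h5' e') hb)
      _ = 24 * L * (a * Wi e' + b * Wi' e') := by ring

/-- T3: the operator theorem (from T1 and T2). -/
theorem operator_exists (hn : 2 ≤ Fintype.card X)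
    (d : X → X → ℝ) (hd : IsDist d) (Wout : X × X → ℝ) (h0 : ∀ e, 0 ≤ Wout e)
    (h1 : ∑ e, Wout e = 1) :
    ∃ (S : (X × X → ℝ) →ₗ[ℝ] (X → ℝ)) (Win : X × X → ℝ), (∀ e, 0 ≤ Win e) ∧ (∑ e, Win e ≤ 1) ∧
      (∀ (f : X → ℝ) (e : X × X), grad d (S (grad d f)) e = grad d f e) ∧
      (∀ V : X × X → ℝ, ∑ e, Wout e * (grad d (S V) e) ^ 2 ≤ 6 * ∑ e, Win e * (V e) ^ 2) ∧
      (∀ V : X × X → ℝ, ∑ e, Wout e * |grad d (S V) e| ≤
        24 * Real.log (Fintype.card X) * ∑ e, Win e * |V e|) ∧
      (∀ (V : X × X → ℝ) (M : ℝ) (_ : ∀ e', |V e'| ≤ M) (e : X × X),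
        |grad d (S V) e| ≤ 13 * Real.log (Fintype.card X) * M) := by
  set n : ℝ := (Fintype.card X : ℝ) with hndef
  have hn2 : (2 : ℝ) ≤ n := by rw [hndef]; exact_mod_cast hn
  set L : ℝ := Real.log n with hL
  have hLpos : 0 < L := Real.log_pos (by linarith)
  have : Nonempty X := Fintype.card_pos_iff.1 (by omega)
  set φ : X × X → (((X × X → ℝ) →ₗ[ℝ] (X → ℝ)) × (X × X → ℝ)) → ℝ :=
    fun e k => ∑ e', |grad d (k.1 (Pi.single e' 1)) e| with hφ
  have hconv : ∀ e, ConvexOn ℝ (KSet d Wout L) (φ e) := by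
    intro e
    refine ⟨convex_KSet d Wout h0 L, ?_⟩
    intro k _ k' _ a b ha hb _
    simp only [hφ, smul_eq_mul, Prod.fst_add, Prod.smul_fst]
    rw [Finset.mul_sum, Finset.mul_sum, ← Finset.sum_add_distrib]
    refine Finset.sum_le_sum fun e' _ => ?_
    rw [grad_comb]
    refine (abs_add_le _ _).trans (le_of_eq ?_)
    rw [abs_mul, abs_mul, abs_of_nonneg ha, abs_of_nonneg hb]
  obtain ⟨⟨S, Win⟩, ⟨hW0, hW1, hg, hA1, hA2⟩, hφS⟩ :=
    exists_le_of_forall_weights (KSet d Wout L) φ hconv (12 * L) (13 * L) (by linarith) (by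
      intro W'' hW0 hW1
      -- the symmetric weight
      have hs1 : ∑ e, symO Wout e ≤ 1 := (sum_symO_le Wout h0).trans h1.le
      have hs2 : ∑ e, symO W'' e ≤ 1 := (sum_symO_le W'' hW0).trans hW1.le
      set c : ℝ := 3 - ∑ e, symO Wout e - ∑ e, symO W'' e with hc
      have hc1 : 1 ≤ c := by linarith
      have hnn : 0 < n * n - n := by nlinarith
      set Wt : X × X → ℝ := fun e => (symO Wout e + symO W'' e + offC (c / (n * n - n)) e) / 3
        with hWt
      have hcn : 0 < c / (n * n - n) := div_pos (by linarith) hnn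
      have hoff0 : ∀ e : X × X, 0 ≤ offC (c / (n * n - n)) e := by
        intro e; unfold offC; split_ifs
        · exact le_rfl
        · exact hcn.le
      have hWt0 : ∀ e, 0 ≤ Wt e := by
        intro e
        have a1 := symO_nonneg h0 e
        have a2 := symO_nonneg hW0 e
        have a3 := hoff0 e
        simp only [hWt]
        linarith
      have hsymm : ∀ x y, Wt (x, y) = Wt (y, x) := by
        intro x y
        simp only [hWt]
        rw [symO_swap Wout x y, symO_swap W'' x y]
        have : offC (c / (n * n - n)) (x, y) = offC (c / (n * n - n)) (y, x) := by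
          unfold offC
          by_cases hxy : x = y
          · subst hxy; rfl
          · rw [if_neg (by simpa using hxy), if_neg (by simpa using Ne.symm hxy)]
        rw [this]
      have hdiag : ∀ x, Wt (x, x) = 0 := by
        intro x
        simp [hWt, symO, offC]
      have hpos : ∀ x y, x ≠ y → 0 < Wt (x, y) := by
        intro x y hxy
        have a1 := symO_nonneg h0 (x, y)
        have a2 := symO_nonneg hW0 (x, y)
        have a3 : offC (c / (n * n - n)) (x, y) = c / (n * n - n) := by
          unfold offC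
          rw [if_neg (by simpa using hxy)]
        simp only [hWt]
        rw [a3]
        linarith
      have hsum : ∑ e, Wt e = 1 := by
        simp only [hWt]
        rw [← Finset.sum_div, Finset.sum_add_distrib, Finset.sum_add_distrib, sum_offC]
        rw [← hndef, mul_div_cancel₀ c hnn.ne', hc]
        ring
      obtain ⟨S, hSg, hS2, hS1⟩ := chain_operator hn d hd Wt hsymm hdiag hpos hsum
      -- comparison
      have hle : ∀ (W : X × X → ℝ) (_ : ∀ e, symO W e ≤ 3 * Wt e) (g : X × X → ℝ)
          (_ : ∀ e, 0 ≤ g e) (_ : ∀ x y, g (x, y) = g (y, x)) (_ : ∀ x, g (x, x) = 0),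
          ∑ e, W e * g e ≤ 3 * ∑ e, Wt e * g e := by
        intro W hW g hg0 hgs hgd
        rw [← sum_symO_mul W g hgs hgd, Finset.mul_sum]
        refine Finset.sum_le_sum fun e _ => ?_
        rw [← mul_assoc]
        exact mul_le_mul_of_nonneg_right (hW e) (hg0 e)
      have hout : ∀ e, symO Wout e ≤ 3 * Wt e := by
        intro e
        have a2 := symO_nonneg hW0 e
        have a3 := hoff0 e
        simp only [hWt]
        linarith
      have hin : ∀ e, symO W'' e ≤ 3 * Wt e := by
        intro e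
        have a2 := symO_nonneg h0 e
        have a3 := hoff0 e
        simp only [hWt]
        linarith
      set Z : X × X → ℝ := fun e' => (∑ e, Wt e * |grad d (S (Pi.single e' 1)) e|) / (4 * L) with hZ
      have hZ0 : ∀ e', 0 ≤ Z e' := fun e' =>
        div_nonneg (Finset.sum_nonneg fun e _ => mul_nonneg (hWt0 e) (abs_nonneg _)) (by linarith)
      have hZ1 : ∑ e', Z e' ≤ 1 := by
        simp only [hZ]
        rw [← Finset.sum_div, Finset.sum_comm, div_le_one (by linarith)]
        refine le_trans (le_of_eq ?_) hS1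
        exact Finset.sum_congr rfl fun e _ => (Finset.mul_sum _ _ _).symm
      have habs_symm : ∀ (V : X × X → ℝ) (x y : X),
          |grad d (S V) (x, y)| = |grad d (S V) (y, x)| := by
        intro V x y
        rw [grad_swap hd (S V) x y, abs_neg]
      have habs_diag : ∀ (V : X × X → ℝ) (x : X), |grad d (S V) (x, x)| = 0 := by
        intro V x
        rw [grad_diag, abs_zero]
      refine ⟨(S, fun e => Wt e / 2 + Z e / 2), ⟨?_, ?_, hSg, ?_, ?_⟩, ?_⟩
      · intro e
        have a1 := hWt0 e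
        have a2 := hZ0 e
        simp only
        linarith
      · have hsplit : ∑ e, (Wt e / 2 + Z e / 2) = (∑ e, Wt e) / 2 + (∑ e, Z e) / 2 := by
          rw [Finset.sum_add_distrib, Finset.sum_div, Finset.sum_div]
        change ∑ e, (Wt e / 2 + Z e / 2) ≤ 1
        rw [hsplit, hsum]
        linarith
      · intro V
        simp only
        have a1 := hle Wout hout (fun e => (grad d (S V) e) ^ 2) (fun e => sq_nonneg _)
          (fun x y => by rw [grad_swap hd (S V) x y, neg_sq])
          (fun x => by rw [grad_diag]; ring)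
        have a2 := hS2 V
        have a3 : ∑ e, Wt e * (V e) ^ 2 ≤ 2 * ∑ e, (Wt e / 2 + Z e / 2) * (V e) ^ 2 := by
          rw [Finset.mul_sum]
          refine Finset.sum_le_sum fun e _ => ?_
          have := mul_nonneg (hZ0 e) (sq_nonneg (V e))
          nlinarith
        linarith
      · intro e'
        simp only
        have a1 := hle Wout hout (fun e => |grad d (S (Pi.single e' 1)) e|)
          (fun e => abs_nonneg _) (habs_symm _) (habs_diag _)
        have a2 : ∑ e, Wt e * |grad d (S (Pi.single e' 1)) e| = 4 * L * Z e' := by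
          simp only [hZ]
          rw [mul_div_cancel₀ _ (by positivity)]
        have a3 := hWt0 e'
        have a4 := hZ0 e'
        rw [a2] at a1
        have a5 : 0 ≤ L * Wt e' := mul_nonneg hLpos.le a3
        nlinarith
      · simp only [hφ]
        have a1 := hle W'' hin (fun e => ∑ e', |grad d (S (Pi.single e' 1)) e|)
          (fun e => Finset.sum_nonneg fun e' _ => abs_nonneg _)
          (fun x y => Finset.sum_congr rfl fun e' _ => habs_symm _ x y)
          (fun x => Finset.sum_eq_zero fun e' _ => habs_diag _ x)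
        refine a1.trans ?_
        linarith)
  simp only at hW0 hW1 hg hA1 hA2
  refine ⟨S, Win, hW0, hW1, hg, hA1, ?_, ?_⟩
  · intro V
    calc ∑ e, Wout e * |grad d (S V) e|
        ≤ ∑ e, Wout e * ∑ e', |V e'| * |grad d (S (Pi.single e' 1)) e| :=
          Finset.sum_le_sum fun e _ => mul_le_mul_of_nonneg_left (abs_grad_apply_le d S V e) (h0 e)
      _ = ∑ e', |V e'| * ∑ e, Wout e * |grad d (S (Pi.single e' 1)) e| := by
          simp only [Finset.mul_sum]
          rw [Finset.sum_comm]
          refine Finset.sum_congr rfl fun e' _ => Finset.sum_congr rfl fun e _ => ?_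
          ring
      _ ≤ ∑ e', |V e'| * (24 * L * Win e') :=
          Finset.sum_le_sum fun e' _ => mul_le_mul_of_nonneg_left (hA2 e') (abs_nonneg _)
      _ = 24 * L * ∑ e, Win e * |V e| := by
          rw [Finset.mul_sum]
          refine Finset.sum_congr rfl fun e' _ => ?_
          ring
  · intro V M hM e
    calc |grad d (S V) e| ≤ ∑ e', |V e'| * |grad d (S (Pi.single e' 1)) e| :=
          abs_grad_apply_le d S V e
      _ ≤ ∑ e', M * |grad d (S (Pi.single e' 1)) e| :=
          Finset.sum_le_sum fun e' _ => mul_le_mul_of_nonneg_right (hM e') (abs_nonneg _)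
      _ = M * φ e (S, Win) := by simp only [hφ]; rw [Finset.mul_sum]
      _ ≤ M * (13 * L) := by
          refine mul_le_mul_of_nonneg_left (hφS e) ?_
          exact (abs_nonneg _).trans (hM e)
      _ = 13 * L * M := by ring

end T3

end Crest.Agent.R232
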