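import Crest.Agent.R232.Lev

/-! # R232 T4: level estimate for `p > 2` -/

set_option autoImplicit false

open Finset

namespace Crest.Agent.R232

theorem pointwise_gt_two (p : ℝ) (hp : 2 < p) (A : ℝ) (hA : 0 < A) (J : Finset ℤ) (a : ℤ → ℝ)
    (h0 : ∀ j, 0 ≤ a j) (h1 : ∀ j, a j ≤ A * 2 ^ j) :
    (∑ j ∈ J, a j) ^ p ≤ 4 ^ (p - 1) / (1 - (2 : ℝ) ^ (-(p - 2))) * A ^ (p - 2) *
      ∑ j ∈ J, (a j) ^ 2 * ((2 : ℝ) ^ j) ^ (p - 2) := by
  have hc : 0 < 1 - (2 : ℝ) ^ (-(p - 2)) := one_sub_two_rpow_pos (by linarith)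
  set c : ℝ := 1 - (2 : ℝ) ^ (-(p - 2)) with hcdef
  set H : ℝ := ∑ j ∈ J, a j with hH
  set Q : ℝ := ∑ j ∈ J, (a j) ^ 2 * ((2 : ℝ) ^ j) ^ (p - 2) with hQ
  have hQ0 : 0 ≤ Q := sum_nonneg fun j _ => by positivity
  have hH0 : 0 ≤ H := sum_nonneg fun j _ => h0 j
  rcases hH0.eq_or_lt with hHz | hHpos
  · rw [← hHz, Real.zero_rpow (by linarith)]
    positivity
  set x : ℝ := H / (4 * A) with hx
  have hxpos : 0 < x := by positivity
  -- small levels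
  have hS1 : ∑ j ∈ J with (2 : ℝ) ^ j ≤ x, a j ≤ H / 2 := by
    have h2 := sum_dyadic_le 1 one_pos x hxpos J
    simp only [Real.rpow_one] at h2
    have h3 : x / (1 - (2 : ℝ) ^ (-1 : ℝ)) = 2 * x := by
      rw [Real.rpow_neg_one]; norm_num; ring
    rw [h3] at h2
    calc ∑ j ∈ J with (2 : ℝ) ^ j ≤ x, a j ≤ ∑ j ∈ J with (2 : ℝ) ^ j ≤ x, A * 2 ^ j :=
          sum_le_sum fun j _ => h1 j
      _ = A * ∑ j ∈ J with (2 : ℝ) ^ j ≤ x, (2 : ℝ) ^ j := by rw [mul_sum]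
      _ ≤ A * (2 * x) := mul_le_mul_of_nonneg_left h2 hA.le
      _ = H / 2 := by rw [hx]; field_simp; ring
  have hsplit : ∑ j ∈ J with (2 : ℝ) ^ j ≤ x, a j + ∑ j ∈ J with x < (2 : ℝ) ^ j, a j = H := by
    rw [hH, ← sum_filter_add_sum_filter_not J (fun j => (2 : ℝ) ^ j ≤ x)]
    simp only [not_le]
  have hS2 : H / 2 ≤ ∑ j ∈ J with x < (2 : ℝ) ^ j, a j := by linarith
  have hCS : (∑ j ∈ J with x < (2 : ℝ) ^ j, a j) ^ 2 ≤
      (∑ j ∈ J with x < (2 : ℝ) ^ j, (a j) ^ 2 * ((2 : ℝ) ^ j) ^ (p - 2)) *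
        ∑ j ∈ J with x < (2 : ℝ) ^ j, ((2 : ℝ) ^ j) ^ (-(p - 2)) := by
    refine sum_sq_le_sum_mul_sum_of_sq_eq_mul _ (fun j _ => by positivity)
      (fun j _ => by positivity) (fun j _ => ?_)
    rw [mul_assoc, ← Real.rpow_add (by positivity)]
    simp
  have hQ1 : ∑ j ∈ J with x < (2 : ℝ) ^ j, (a j) ^ 2 * ((2 : ℝ) ^ j) ^ (p - 2) ≤ Q :=
    sum_le_sum_of_subset_of_nonneg (filter_subset _ _) (fun _ _ _ => by positivity)
  have hG := sum_dyadic_gt_le (p - 2) (by linarith) x hxpos J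
  rw [← hcdef] at hG
  have hmain : H ^ 2 / 4 ≤ Q * (x ^ (-(p - 2)) / c) := by
    calc H ^ 2 / 4 = (H / 2) ^ 2 := by ring
      _ ≤ (∑ j ∈ J with x < (2 : ℝ) ^ j, a j) ^ 2 := by
          exact pow_le_pow_left₀ (by positivity) hS2 2
      _ ≤ _ := hCS
      _ ≤ Q * (x ^ (-(p - 2)) / c) :=
          mul_le_mul hQ1 hG (sum_nonneg fun _ _ => by positivity) hQ0
  have hHp : H ^ p = H ^ 2 * H ^ (p - 2) := by
    rw [← Real.rpow_natCast H 2, ← Real.rpow_add hHpos]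
    congr 1; push_cast; ring
  have hxp : x ^ (-(p - 2)) * H ^ (p - 2) = (4 * A) ^ (p - 2) := by
    rw [Real.rpow_neg hxpos.le, hx, Real.div_rpow hH0 (by positivity)]
    field_simp
  have h4 : (4 : ℝ) * 4 ^ (p - 2) = 4 ^ (p - 1) := by
    nth_rewrite 1 [← Real.rpow_one (4 : ℝ)]
    rw [← Real.rpow_add (by norm_num)]
    congr 1; ring
  calc H ^ p = 4 * (H ^ 2 / 4) * H ^ (p - 2) := by rw [hHp]; ring
    _ ≤ 4 * (Q * (x ^ (-(p - 2)) / c)) * H ^ (p - 2) := by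
        refine mul_le_mul_of_nonneg_right ?_ (by positivity)
        linarith
    _ = 4 / c * Q * (x ^ (-(p - 2)) * H ^ (p - 2)) := by ring
    _ = 4 / c * Q * (4 * A) ^ (p - 2) := by rw [hxp]
    _ = 4 ^ (p - 1) / c * A ^ (p - 2) * Q := by
        rw [Real.mul_rpow (by norm_num) hA.le, ← h4]; ring

/-- the finite set of levels occurring in the windows -/
noncomputable def winJ (l : ℕ) (K : Finset ℤ) : Finset ℤ :=
  (range (2 * l) ×ˢ K).image (fun q : ℕ × ℤ => (q.1 : ℤ) + 1 - q.2)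

theorem window_le_fst (l : ℕ) (K : Finset ℤ) (a : ℤ → ℝ) (h0 : ∀ j, 0 ≤ a j) (k : ℤ)
    (hk : k ∈ K) : ∑ m ∈ range (2 * l), a ((m : ℤ) + 1 - k) ≤ ∑ j ∈ winJ l K, a j := by
  have hinj : Set.InjOn (fun m : ℕ => (m : ℤ) + 1 - k) (range (2 * l) : Finset ℕ) := by
    intro x _ y _ hxy
    simp only at hxy
    omega
  rw [← sum_image (f := a) hinj]
  refine sum_le_sum_of_subset_of_nonneg ?_ (fun j _ _ => h0 j)
  intro j hj
  obtain ⟨m, hm, rfl⟩ := mem_image.1 hj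
  exact mem_image.2 ⟨(m, k), mem_product.2 ⟨hm, hk⟩, rfl⟩

theorem window_le_snd (l : ℕ) (K : Finset ℤ) (a : ℤ → ℝ) (h0 : ∀ j, 0 ≤ a j) (m : ℕ)
    (hm : m ∈ range (2 * l)) : ∑ k ∈ K, a ((m : ℤ) + 1 - k) ≤ ∑ j ∈ winJ l K, a j := by
  have hinj : Set.InjOn (fun k : ℤ => (m : ℤ) + 1 - k) (K : Set ℤ) := by
    intro x _ y _ hxy
    simp only at hxy
    omega
  rw [← sum_image (f := a) hinj]
  refine sum_le_sum_of_subset_of_nonneg ?_ (fun j _ _ => h0 j)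
  intro j hj
  obtain ⟨k, hk, rfl⟩ := mem_image.1 hj
  exact mem_image.2 ⟨(m, k), mem_product.2 ⟨hm, hk⟩, rfl⟩

theorem sum_windows (l : ℕ) (K : Finset ℤ) (a : ℤ → ℝ) (h0 : ∀ j, 0 ≤ a j) (p : ℝ)
    (hp : 1 < p) :
    ∑ k ∈ K, (∑ m ∈ range (2 * l), a ((m : ℤ) + 1 - k)) ^ p ≤
      2 * l * (∑ j ∈ winJ l K, a j) ^ p := by
  set H : ℝ := ∑ j ∈ winJ l K, a j with hH
  have hH0 : 0 ≤ H := sum_nonneg fun j _ => h0 j
  have hs : ∀ y : ℝ, 0 ≤ y → y ^ p = y ^ (p - 1) * y := fun y hy => by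
    have := Real.rpow_add_one' hy (y := p - 1) (by linarith)
    rwa [sub_add_cancel] at this
  have h1 : ∀ k ∈ K, (∑ m ∈ range (2 * l), a ((m : ℤ) + 1 - k)) ^ p ≤
      H ^ (p - 1) * ∑ m ∈ range (2 * l), a ((m : ℤ) + 1 - k) := by
    intro k hk
    have hk0 : 0 ≤ ∑ m ∈ range (2 * l), a ((m : ℤ) + 1 - k) := sum_nonneg fun m _ => h0 _
    rw [hs _ hk0]
    refine mul_le_mul_of_nonneg_right ?_ hk0
    exact Real.rpow_le_rpow hk0 (window_le_fst l K a h0 k hk) (by linarith)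
  calc ∑ k ∈ K, (∑ m ∈ range (2 * l), a ((m : ℤ) + 1 - k)) ^ p
      ≤ ∑ k ∈ K, H ^ (p - 1) * ∑ m ∈ range (2 * l), a ((m : ℤ) + 1 - k) := sum_le_sum h1
    _ = H ^ (p - 1) * ∑ m ∈ range (2 * l), ∑ k ∈ K, a ((m : ℤ) + 1 - k) := by
        rw [← mul_sum, sum_comm]
    _ ≤ H ^ (p - 1) * ∑ m ∈ range (2 * l), H := by
        refine mul_le_mul_of_nonneg_left ?_ (by positivity)
        exact sum_le_sum fun m hm => window_le_snd l K a h0 m hm
    _ = 2 * l * H ^ p := by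
        rw [sum_const, card_range, nsmul_eq_mul, hs H hH0]; push_cast; ring

theorem sum_sq_levErr_le {E : Type*} [Fintype E] (T : (E → ℝ) →ₗ[ℝ] (E → ℝ)) (Wout Win : E → ℝ)
    (hWout : ∀ e, 0 ≤ Wout e) (hWin : ∀ e, 0 ≤ Win e)
    (h2 : ∀ V : E → ℝ, ∑ e, Wout e * (T V e) ^ 2 ≤ 6 * ∑ e, Win e * (V e) ^ 2)
    (u : E → ℝ) :
    ∑ e, Wout e * (u e - T u e) ^ 2 ≤ 12 * ∑ e, (Wout e + Win e) * (u e) ^ 2 := by
  calc ∑ e, Wout e * (u e - T u e) ^ 2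
      ≤ ∑ e, (2 * (Wout e * (u e) ^ 2) + 2 * (Wout e * (T u e) ^ 2)) := by
        refine sum_le_sum fun e _ => ?_
        nlinarith [hWout e, mul_nonneg (hWout e) (sq_nonneg (u e + T u e))]
    _ = 2 * ∑ e, Wout e * (u e) ^ 2 + 2 * ∑ e, Wout e * (T u e) ^ 2 := by
        rw [sum_add_distrib, ← mul_sum, ← mul_sum]
    _ ≤ 2 * ∑ e, Wout e * (u e) ^ 2 + 2 * (6 * ∑ e, Win e * (u e) ^ 2) := by
        have := h2 u; linarith
    _ ≤ 12 * ∑ e, (Wout e + Win e) * (u e) ^ 2 := by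
        have hs : ∑ e, (Wout e + Win e) * (u e) ^ 2 =
            ∑ e, Wout e * (u e) ^ 2 + ∑ e, Win e * (u e) ^ 2 := by
          rw [← sum_add_distrib]; exact sum_congr rfl fun e _ => by ring
        have h3 : 0 ≤ ∑ e, Wout e * (u e) ^ 2 :=
          sum_nonneg fun e _ => mul_nonneg (hWout e) (sq_nonneg _)
        rw [hs]; linarith

/-- T4: level estimate for `p > 2`. -/
theorem levels_gt_two (p : ℝ) (hp : 2 < p) :
    ∃ C : ℝ, 0 < C ∧ ∀ (E : Type) [Fintype E] (T : (E → ℝ) →ₗ[ℝ] (E → ℝ)) (Wout Win : E → ℝ)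
      (N : ℝ) (_ : 1 ≤ N) (_ : ∀ e, 0 ≤ Wout e) (_ : ∀ e, 0 ≤ Win e)
      (_ : ∀ V : E → ℝ, ∑ e, Wout e * (T V e) ^ 2 ≤ 6 * ∑ e, Win e * (V e) ^ 2)
      (_ : ∀ (V : E → ℝ) (M : ℝ) (_ : ∀ e', |V e'| ≤ M) (e : E), |T V e| ≤ N * M)
      (v : E → ℝ) (_ : T v = v) (l : ℕ) (_ : 1 ≤ l) (K : Finset ℤ),
      ∑ e, Wout e * ∑ k ∈ K, ((2 : ℝ) ^ k) ^ (-p) * |mainF l v k e - T (mainF l v k) e| ^ p ≤
        C * N ^ (p - 2) * (l : ℝ) ^ (1 - p) * ∑ e, (Wout e + Win e) * |v e| ^ p := by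
  have hc : 0 < 1 - (2 : ℝ) ^ (-(p - 2)) := one_sub_two_rpow_pos (by linarith)
  set c : ℝ := 1 - (2 : ℝ) ^ (-(p - 2)) with hcdef
  refine ⟨2 * (4 ^ (p - 1) / c * 2 ^ (p - 2)) * 12 / c, by positivity, ?_⟩
  intro E _ T Wout Win N hN hWout hWin hL2 hLinf v hTv l hl K
  have hl0 : (0 : ℝ) < l := by exact_mod_cast hl
  have hN0 : 0 < N := by linarith
  set J := winJ l K with hJ
  -- pointwise bound
  have hpt : ∀ e, ∑ k ∈ K, ((2 : ℝ) ^ k) ^ (-p) * |mainF l v k e - T (mainF l v k) e| ^ p ≤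
      (l : ℝ) ^ (-p) * (2 * l * (4 ^ (p - 1) / c * (2 * N) ^ (p - 2) *
        ∑ j ∈ J, (levErr T v j e) ^ 2 * ((2 : ℝ) ^ j) ^ (p - 2))) := by
    intro e
    have hE : ∀ j, |levErr T v j e| ≤ (2 * N) * 2 ^ j := by
      intro j
      rw [levErr_eq T v hTv, abs_neg]
      have h1 := abs_low_le v j e
      have h2 := hLinf (low v j) (2 ^ j) (abs_low_le v j) e
      have h3 := abs_sub (low v j e) (T (low v j) e)
      have h4 : (0 : ℝ) < 2 ^ j := by positivity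
      nlinarith
    calc ∑ k ∈ K, ((2 : ℝ) ^ k) ^ (-p) * |mainF l v k e - T (mainF l v k) e| ^ p
        ≤ ∑ k ∈ K, (l : ℝ) ^ (-p) *
            (∑ m ∈ range (2 * l), |levErr T v ((m : ℤ) + 1 - k) e|) ^ p :=
          sum_le_sum fun k _ => abel_bound T l v k e p (by linarith)
      _ = (l : ℝ) ^ (-p) * ∑ k ∈ K,
            (∑ m ∈ range (2 * l), |levErr T v ((m : ℤ) + 1 - k) e|) ^ p := by rw [mul_sum]
      _ ≤ (l : ℝ) ^ (-p) * (2 * l * (∑ j ∈ J, |levErr T v j e|) ^ p) := by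
          refine mul_le_mul_of_nonneg_left ?_ (by positivity)
          exact sum_windows l K (fun j => |levErr T v j e|) (fun j => abs_nonneg _) p
            (by linarith)
      _ ≤ _ := by
          refine mul_le_mul_of_nonneg_left ?_ (by positivity)
          refine mul_le_mul_of_nonneg_left ?_ (by positivity)
          have := pointwise_gt_two p hp (2 * N) (by positivity) J (fun j => |levErr T v j e|)
            (fun j => abs_nonneg _) hE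
          simpa only [sq_abs] using this
  have hgeo : ∀ e, ∑ j ∈ J, (lev v j e) ^ 2 * ((2 : ℝ) ^ j) ^ (p - 2) ≤ |v e| ^ p / c := by
    intro e
    rcases eq_or_ne (v e) 0 with hv | hv
    · have : ∀ j, lev v j e = 0 := fun j => by unfold lev; simp [hv]
      simp only [this]
      rw [hv, abs_zero, Real.zero_rpow (by linarith)]
      simp
    have hv' : 0 < |v e| := abs_pos.2 hv
    have h1 : ∑ j ∈ J, (lev v j e) ^ 2 * ((2 : ℝ) ^ j) ^ (p - 2) =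
        |v e| ^ 2 * ∑ j ∈ J with (2 : ℝ) ^ j ≤ |v e|, ((2 : ℝ) ^ j) ^ (p - 2) := by
      rw [sum_filter, mul_sum]
      refine sum_congr rfl fun j _ => ?_
      unfold lev
      split_ifs
      · rw [sq_abs]
      · ring
    rw [h1]
    have h2 := sum_dyadic_le (p - 2) (by linarith) |v e| hv' J
    have h3 : |v e| ^ p = |v e| ^ 2 * |v e| ^ (p - 2) := by
      rw [← Real.rpow_natCast (|v e|) 2, ← Real.rpow_add hv']
      congr 1; push_cast; ring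
    calc |v e| ^ 2 * ∑ j ∈ J with (2 : ℝ) ^ j ≤ |v e|, ((2 : ℝ) ^ j) ^ (p - 2)
        ≤ |v e| ^ 2 * (|v e| ^ (p - 2) / (1 - (2 : ℝ) ^ (-(p - 2)))) :=
          mul_le_mul_of_nonneg_left h2 (by positivity)
      _ = |v e| ^ p / c := by rw [h3]; ring
  have hlp : (l : ℝ) ^ (-p) * l = (l : ℝ) ^ (1 - p) := by
    nth_rewrite 2 [← Real.rpow_one (l : ℝ)]
    rw [← Real.rpow_add hl0]
    congr 1; ring
  set D : ℝ := (l : ℝ) ^ (-p) * (2 * l * (4 ^ (p - 1) / c * (2 * N) ^ (p - 2))) with hD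
  have hD0 : 0 ≤ D := by positivity
  calc ∑ e, Wout e * ∑ k ∈ K, ((2 : ℝ) ^ k) ^ (-p) * |mainF l v k e - T (mainF l v k) e| ^ p
      ≤ ∑ e, Wout e * (D * ∑ j ∈ J, (levErr T v j e) ^ 2 * ((2 : ℝ) ^ j) ^ (p - 2)) := by
        refine sum_le_sum fun e _ => mul_le_mul_of_nonneg_left ?_ (hWout e)
        refine (hpt e).trans (le_of_eq ?_)
        rw [hD]; ring
    _ = D * ∑ j ∈ J, ((2 : ℝ) ^ j) ^ (p - 2) * ∑ e, Wout e * (levErr T v j e) ^ 2 := by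
        simp only [mul_sum]
        rw [sum_comm]
        refine sum_congr rfl fun j _ => sum_congr rfl fun e _ => ?_
        ring
    _ ≤ D * ∑ j ∈ J, ((2 : ℝ) ^ j) ^ (p - 2) *
          (12 * ∑ e, (Wout e + Win e) * (lev v j e) ^ 2) := by
        refine mul_le_mul_of_nonneg_left ?_ hD0
        refine sum_le_sum fun j _ => mul_le_mul_of_nonneg_left ?_ (by positivity)
        exact sum_sq_levErr_le T Wout Win hWout hWin hL2 (lev v j)
    _ = D * (12 * ∑ e, (Wout e + Win e) *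
          ∑ j ∈ J, (lev v j e) ^ 2 * ((2 : ℝ) ^ j) ^ (p - 2)) := by
        simp only [mul_sum]
        rw [sum_comm]
        refine sum_congr rfl fun e _ => sum_congr rfl fun j _ => ?_
        ring
    _ ≤ D * (12 * ∑ e, (Wout e + Win e) * (|v e| ^ p / c)) := by
        refine mul_le_mul_of_nonneg_left ?_ hD0
        refine mul_le_mul_of_nonneg_left ?_ (by norm_num)
        exact sum_le_sum fun e _ =>
          mul_le_mul_of_nonneg_left (hgeo e) (add_nonneg (hWout e) (hWin e))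
    _ = 2 * (4 ^ (p - 1) / c * 2 ^ (p - 2)) * 12 / c * N ^ (p - 2) * (l : ℝ) ^ (1 - p) *
          ∑ e, (Wout e + Win e) * |v e| ^ p := by
        rw [← hlp, hD, Real.mul_rpow (by norm_num) hN0.le]
        have : ∑ e, (Wout e + Win e) * (|v e| ^ p / c) =
            (∑ e, (Wout e + Win e) * |v e| ^ p) / c := by
          rw [sum_div]; exact sum_congr rfl fun e _ => by ring
        rw [this]; ring

end Crest.Agent.R232
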