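import Crest.Agent.R232.Lev5

/-! # R232: T5, level estimate for `1 < p < 2` -/

set_option autoImplicit false

open Finset

namespace Crest.Agent.R232

open L5

/-- weighted AM-GM for the interpolation -/
theorem rpow_le_interp {p : ℝ} (hp1 : 1 < p) (hp : p < 2) {N a t : ℝ} (hN : 0 < N) (ha : 0 ≤ a)
    (ht : 0 < t) :
    a ^ p ≤ N ^ (2 - p) * (t ^ (p - 2) * a ^ 2) + N ^ (1 - p) * (t ^ (p - 1) * a) := by
  rcases ha.eq_or_lt with h0 | h0
  · rw [← h0, Real.zero_rpow (by linarith)]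
    positivity
  have hX : 0 < N ^ (2 - p) * (t ^ (p - 2) * a ^ 2) := by positivity
  have hY : 0 < N ^ (1 - p) * (t ^ (p - 1) * a) := by positivity
  have key := Real.geom_mean_le_arith_mean2_weighted (w₁ := p - 1) (w₂ := 2 - p)
    (p₁ := N ^ (2 - p) * (t ^ (p - 2) * a ^ 2)) (p₂ := N ^ (1 - p) * (t ^ (p - 1) * a))
    (by linarith) (by linarith) hX.le hY.le (by ring)
  have hid : (N ^ (2 - p) * (t ^ (p - 2) * a ^ 2)) ^ (p - 1) *
      (N ^ (1 - p) * (t ^ (p - 1) * a)) ^ (2 - p) = a ^ p := by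
    rw [← Real.rpow_natCast a 2]
    rw [Real.mul_rpow (by positivity) (by positivity), Real.mul_rpow (by positivity) (by positivity),
      Real.mul_rpow (by positivity) (by positivity), Real.mul_rpow (by positivity) (by positivity),
      ← Real.rpow_mul hN.le, ← Real.rpow_mul hN.le, ← Real.rpow_mul ht.le, ← Real.rpow_mul ht.le,
      ← Real.rpow_mul h0.le]
    have h1 : N ^ ((2 - p) * (p - 1)) * N ^ ((1 - p) * (2 - p)) = 1 := by
      rw [← Real.rpow_add hN]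
      rw [show (2 - p) * (p - 1) + (1 - p) * (2 - p) = 0 by ring, Real.rpow_zero]
    have h2 : t ^ ((p - 2) * (p - 1)) * t ^ ((p - 1) * (2 - p)) = 1 := by
      rw [← Real.rpow_add ht]
      rw [show (p - 2) * (p - 1) + (p - 1) * (2 - p) = 0 by ring, Real.rpow_zero]
    have h3 : a ^ (((2 : ℕ) : ℝ) * (p - 1)) * a ^ (2 - p) = a ^ p := by
      rw [← Real.rpow_add h0]
      congr 1
      push_cast
      ring
    calc N ^ ((2 - p) * (p - 1)) * (t ^ ((p - 2) * (p - 1)) * a ^ (((2 : ℕ) : ℝ) * (p - 1))) *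
          (N ^ ((1 - p) * (2 - p)) * (t ^ ((p - 1) * (2 - p)) * a ^ (2 - p)))
        = (N ^ ((2 - p) * (p - 1)) * N ^ ((1 - p) * (2 - p))) *
          (t ^ ((p - 2) * (p - 1)) * t ^ ((p - 1) * (2 - p))) *
          (a ^ (((2 : ℕ) : ℝ) * (p - 1)) * a ^ (2 - p)) := by ring
      _ = a ^ p := by rw [h1, h2, h3, one_mul, one_mul]
  rw [hid] at key
  refine key.trans ?_
  have h4 : (p - 1) * (N ^ (2 - p) * (t ^ (p - 2) * a ^ 2)) ≤
      1 * (N ^ (2 - p) * (t ^ (p - 2) * a ^ 2)) :=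
    mul_le_mul_of_nonneg_right (by linarith) hX.le
  have h5 : (2 - p) * (N ^ (1 - p) * (t ^ (p - 1) * a)) ≤
      1 * (N ^ (1 - p) * (t ^ (p - 1) * a)) :=
    mul_le_mul_of_nonneg_right (by linarith) hY.le
  linarith

/-- the finite index set of levels -/
noncomputable def levJ (l : ℕ) (K : Finset ℤ) : Finset ℤ :=
  (range (2 * l) ×ˢ K).image (fun q => (q.1 : ℤ) + 1 - q.2)

theorem mem_levJ {l : ℕ} {K : Finset ℤ} {m : ℕ} {k : ℤ} (hm : m ∈ range (2 * l)) (hk : k ∈ K) :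
    (m : ℤ) + 1 - k ∈ levJ l K :=
  mem_image.mpr ⟨(m, k), mem_product.mpr ⟨hm, hk⟩, rfl⟩

/-- for fixed `m`, the map `k ↦ m + 1 - k` is injective into `J` -/
theorem sum_shift_le {l : ℕ} {K : Finset ℤ} {m : ℕ} (hm : m ∈ range (2 * l)) (g : ℤ → ℝ)
    (hg : ∀ j, 0 ≤ g j) : ∑ k ∈ K, g ((m : ℤ) + 1 - k) ≤ ∑ j ∈ levJ l K, g j := by
  have hinj : Set.InjOn (fun k : ℤ => (m : ℤ) + 1 - k) (K : Set ℤ) := by
    intro a _ b _ h
    simp only at h
    omega
  rw [← sum_image (f := g) (g := fun k : ℤ => (m : ℤ) + 1 - k) hinj]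
  apply sum_le_sum_of_subset_of_nonneg
  · intro j hj
    obtain ⟨k, hk, rfl⟩ := mem_image.mp hj
    exact mem_levJ hm hk
  · intro j _ _
    exact hg j

/-- pointwise bound of the sum of the errors over the amplitudes -/
theorem sum_err_le {E : Type*} {p : ℝ} (hp1 : 1 < p) {l : ℕ} (hl : 1 ≤ l)
    (T : (E → ℝ) →ₗ[ℝ] (E → ℝ)) (v : E → ℝ) (K : Finset ℤ) (e : E) :
    ∑ k ∈ K, ((2 : ℝ) ^ k) ^ (-p) * |mainF l v k e - T (mainF l v k) e| ^ p ≤
      2 ^ p * ∑ j ∈ levJ l K, |levErr T v j e| ^ p := by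
  have hl0 : (0 : ℝ) < l := by exact_mod_cast hl
  have hp0 : 0 < p := by linarith
  have step : ∀ k ∈ K, ((2 : ℝ) ^ k) ^ (-p) * |mainF l v k e - T (mainF l v k) e| ^ p ≤
      (1 / l) ^ p * (2 * l : ℝ) ^ (p - 1) *
        ∑ m ∈ range (2 * l), |levErr T v ((m : ℤ) + 1 - k) e| ^ p := by
    intro k _
    have h2k : (0 : ℝ) < (2 : ℝ) ^ k := by positivity
    have hS0 : 0 ≤ ∑ m ∈ range (2 * l), |levErr T v ((m : ℤ) + 1 - k) e| :=
      sum_nonneg fun m _ => abs_nonneg _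
    have h1 : |mainF l v k e - T (mainF l v k) e| ^ p ≤
        ((2 : ℝ) ^ k * (1 / l * ∑ m ∈ range (2 * l), |levErr T v ((m : ℤ) + 1 - k) e|)) ^ p :=
      Real.rpow_le_rpow (abs_nonneg _) (abs_mainF_sub_le hl T v k e) hp0.le
    have h2 : ((2 : ℝ) ^ k * (1 / l * ∑ m ∈ range (2 * l), |levErr T v ((m : ℤ) + 1 - k) e|)) ^ p =
        ((2 : ℝ) ^ k) ^ p * ((1 / l) ^ p *
          (∑ m ∈ range (2 * l), |levErr T v ((m : ℤ) + 1 - k) e|) ^ p) := by
      rw [Real.mul_rpow h2k.le (by positivity), Real.mul_rpow (by positivity) hS0]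
    have h3 : (∑ m ∈ range (2 * l), |levErr T v ((m : ℤ) + 1 - k) e|) ^ p ≤
        (2 * l : ℝ) ^ (p - 1) * ∑ m ∈ range (2 * l), |levErr T v ((m : ℤ) + 1 - k) e| ^ p := by
      have := Real.rpow_sum_le_const_mul_sum_rpow (range (2 * l))
        (fun m : ℕ => levErr T v ((m : ℤ) + 1 - k) e) hp1.le
      rw [card_range] at this
      push_cast at this
      exact this
    calc ((2 : ℝ) ^ k) ^ (-p) * |mainF l v k e - T (mainF l v k) e| ^ p
        ≤ ((2 : ℝ) ^ k) ^ (-p) * (((2 : ℝ) ^ k) ^ p * ((1 / l) ^ p *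
          (∑ m ∈ range (2 * l), |levErr T v ((m : ℤ) + 1 - k) e|) ^ p)) := by
          rw [← h2]
          exact mul_le_mul_of_nonneg_left h1 (by positivity)
      _ = (1 / l) ^ p * (∑ m ∈ range (2 * l), |levErr T v ((m : ℤ) + 1 - k) e|) ^ p := by
          rw [← mul_assoc, ← Real.rpow_add h2k, neg_add_cancel, Real.rpow_zero, one_mul]
      _ ≤ (1 / l) ^ p * ((2 * l : ℝ) ^ (p - 1) *
            ∑ m ∈ range (2 * l), |levErr T v ((m : ℤ) + 1 - k) e| ^ p) :=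
          mul_le_mul_of_nonneg_left h3 (by positivity)
      _ = _ := by ring
  calc ∑ k ∈ K, ((2 : ℝ) ^ k) ^ (-p) * |mainF l v k e - T (mainF l v k) e| ^ p
      ≤ ∑ k ∈ K, (1 / l) ^ p * (2 * l : ℝ) ^ (p - 1) *
        ∑ m ∈ range (2 * l), |levErr T v ((m : ℤ) + 1 - k) e| ^ p := sum_le_sum step
    _ = (1 / l) ^ p * (2 * l : ℝ) ^ (p - 1) *
        ∑ m ∈ range (2 * l), ∑ k ∈ K, |levErr T v ((m : ℤ) + 1 - k) e| ^ p := by
        rw [← mul_sum, sum_comm]
    _ ≤ (1 / l) ^ p * (2 * l : ℝ) ^ (p - 1) *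
        ∑ m ∈ range (2 * l), ∑ j ∈ levJ l K, |levErr T v j e| ^ p := by
        refine mul_le_mul_of_nonneg_left ?_ (by positivity)
        refine sum_le_sum fun m hm => ?_
        exact sum_shift_le hm (fun j => |levErr T v j e| ^ p)
          (fun j => Real.rpow_nonneg (abs_nonneg _) _)
    _ = (1 / l) ^ p * ((2 * l : ℝ) ^ (p - 1) * (2 * l)) *
        ∑ j ∈ levJ l K, |levErr T v j e| ^ p := by
        rw [sum_const, card_range, nsmul_eq_mul]
        push_cast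
        ring
    _ = 2 ^ p * ∑ j ∈ levJ l K, |levErr T v j e| ^ p := by
        congr 1
        have h1 : (2 * l : ℝ) ^ (p - 1) * (2 * l) = (2 * l : ℝ) ^ p := by
          rw [← Real.rpow_add_one (by positivity)]
          congr 1
          ring
        rw [h1, ← Real.mul_rpow (by positivity) (by positivity)]
        congr 1
        field_simp

/-- pointwise low-level sum -/
theorem sum_low_sq_le {p : ℝ} (hp : p < 2) {E : Type*} (v : E → ℝ)
    (J : Finset ℤ) (e : E) (hp1 : 1 < p) :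
    ∑ j ∈ J, ((2 : ℝ) ^ j) ^ (p - 2) * (v e - lev v j e) ^ 2 ≤
      (1 - (2 : ℝ) ^ (-(2 - p)))⁻¹ * |v e| ^ p := by
  have hpos : 0 ≤ (1 - (2 : ℝ) ^ (-(2 - p)))⁻¹ := by
    have : (2 : ℝ) ^ (-(2 - p)) < 1 :=
      Real.rpow_lt_one_of_one_lt_of_neg (by norm_num) (by linarith)
    exact inv_nonneg.mpr (by linarith)
  by_cases hv : v e = 0
  · have h1 : ∀ j ∈ J, ((2 : ℝ) ^ j) ^ (p - 2) * (v e - lev v j e) ^ 2 = 0 := by
      intro j _
      rw [lev_zero_of_eq hv, hv]; simp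
    rw [sum_congr rfl h1, sum_const_zero]
    positivity
  have hx : 0 < |v e| := abs_pos.mpr hv
  have h1 : ∑ j ∈ J, ((2 : ℝ) ^ j) ^ (p - 2) * (v e - lev v j e) ^ 2 =
      (∑ j ∈ J with ¬ (2 : ℝ) ^ j ≤ |v e|, ((2 : ℝ) ^ j) ^ (-(2 - p))) * |v e| ^ 2 := by
    rw [sum_filter, sum_mul]
    refine sum_congr rfl fun j _ => ?_
    by_cases h : (2 : ℝ) ^ j ≤ |v e|
    · simp [lev, h]
    · simp [lev, h, neg_sub]
  rw [h1]
  have h2 := sum_le_of_high (s := 2 - p) (by linarith) hx J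
  calc (∑ j ∈ J with ¬ (2 : ℝ) ^ j ≤ |v e|, ((2 : ℝ) ^ j) ^ (-(2 - p))) * |v e| ^ 2
      ≤ (|v e| ^ (-(2 - p)) * (1 - (2 : ℝ) ^ (-(2 - p)))⁻¹) * |v e| ^ 2 :=
        mul_le_mul_of_nonneg_right h2 (by positivity)
    _ = (1 - (2 : ℝ) ^ (-(2 - p)))⁻¹ * (|v e| ^ (-(2 - p)) * |v e| ^ 2) := by ring
    _ = (1 - (2 : ℝ) ^ (-(2 - p)))⁻¹ * |v e| ^ p := by
        congr 1
        rw [← Real.rpow_natCast |v e| 2, ← Real.rpow_add hx]
        congr 1
        push_cast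
        ring

/-- pointwise high-level sum -/
theorem sum_high_abs_le {p : ℝ} (hp1 : 1 < p) {E : Type*} (v : E → ℝ) (J : Finset ℤ) (e : E) :
    ∑ j ∈ J, ((2 : ℝ) ^ j) ^ (p - 1) * |lev v j e| ≤
      (1 - (2 : ℝ) ^ (-(p - 1)))⁻¹ * |v e| ^ p := by
  have hpos : 0 ≤ (1 - (2 : ℝ) ^ (-(p - 1)))⁻¹ := by
    have : (2 : ℝ) ^ (-(p - 1)) < 1 :=
      Real.rpow_lt_one_of_one_lt_of_neg (by norm_num) (by linarith)
    exact inv_nonneg.mpr (by linarith)
  by_cases hv : v e = 0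
  · have h1 : ∀ j ∈ J, ((2 : ℝ) ^ j) ^ (p - 1) * |lev v j e| = 0 := by
      intro j _
      rw [lev_zero_of_eq hv]; simp
    rw [sum_congr rfl h1, sum_const_zero]
    positivity
  have hx : 0 < |v e| := abs_pos.mpr hv
  have h1 : ∑ j ∈ J, ((2 : ℝ) ^ j) ^ (p - 1) * |lev v j e| =
      (∑ j ∈ J with (2 : ℝ) ^ j ≤ |v e|, ((2 : ℝ) ^ j) ^ (p - 1)) * |v e| := by
    rw [sum_filter, sum_mul]
    refine sum_congr rfl fun j _ => ?_
    by_cases h : (2 : ℝ) ^ j ≤ |v e|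
    · simp [lev, h]
    · simp [lev, h]
  rw [h1]
  have h2 := sum_le_of_low (s := p - 1) (by linarith) hx J
  calc (∑ j ∈ J with (2 : ℝ) ^ j ≤ |v e|, ((2 : ℝ) ^ j) ^ (p - 1)) * |v e|
      ≤ (|v e| ^ (p - 1) * (1 - (2 : ℝ) ^ (-(p - 1)))⁻¹) * |v e| :=
        mul_le_mul_of_nonneg_right h2 (by positivity)
    _ = (1 - (2 : ℝ) ^ (-(p - 1)))⁻¹ * (|v e| ^ (p - 1) * |v e|) := by ring
    _ = (1 - (2 : ℝ) ^ (-(p - 1)))⁻¹ * |v e| ^ p := by
        congr 1
        rw [← Real.rpow_add_one hx.ne']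
        congr 1
        ring

/-- `L²` bound of the level errors through the low levels -/
theorem levErr_sq_le {E : Type*} [Fintype E] {T : (E → ℝ) →ₗ[ℝ] (E → ℝ)} {Wout Win : E → ℝ}
    (h0 : ∀ e, 0 ≤ Wout e) (h0' : ∀ e, 0 ≤ Win e)
    (hT2 : ∀ V : E → ℝ, ∑ e, Wout e * (T V e) ^ 2 ≤ 6 * ∑ e, Win e * (V e) ^ 2)
    {v : E → ℝ} (hT : T v = v) (j : ℤ) :
    ∑ e, Wout e * (levErr T v j e) ^ 2 ≤
      12 * ∑ e, (Wout e + Win e) * (v e - lev v j e) ^ 2 := by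
  have h1 : ∀ e, Wout e * (levErr T v j e) ^ 2 ≤
      2 * (Wout e * (v e - lev v j e) ^ 2) +
        2 * (Wout e * (T (fun e => v e - lev v j e) e) ^ 2) := by
    intro e
    rw [levErr_eq_low hT, neg_sq]
    have := add_sq_le (a := v e - lev v j e) (b := -(T (fun e => v e - lev v j e) e))
    have h2 : (v e - lev v j e - T (fun e => v e - lev v j e) e) ^ 2 ≤
        2 * ((v e - lev v j e) ^ 2 + (T (fun e => v e - lev v j e) e) ^ 2) := by
      nlinarith [sq_nonneg (v e - lev v j e + T (fun e => v e - lev v j e) e)]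
    have h3 := mul_le_mul_of_nonneg_left h2 (h0 e)
    linarith
  have h4 := hT2 (fun e => v e - lev v j e)
  calc ∑ e, Wout e * (levErr T v j e) ^ 2
      ≤ ∑ e, (2 * (Wout e * (v e - lev v j e) ^ 2) +
        2 * (Wout e * (T (fun e => v e - lev v j e) e) ^ 2)) := sum_le_sum fun e _ => h1 e
    _ = 2 * ∑ e, Wout e * (v e - lev v j e) ^ 2 +
        2 * ∑ e, Wout e * (T (fun e => v e - lev v j e) e) ^ 2 := by
        rw [sum_add_distrib, ← mul_sum, ← mul_sum]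
    _ ≤ 12 * ∑ e, Wout e * (v e - lev v j e) ^ 2 +
        12 * ∑ e, Win e * (v e - lev v j e) ^ 2 := by
        have h5 : 0 ≤ ∑ e, Wout e * (v e - lev v j e) ^ 2 :=
          sum_nonneg fun e _ => mul_nonneg (h0 e) (sq_nonneg _)
        linarith
    _ = 12 * ∑ e, (Wout e + Win e) * (v e - lev v j e) ^ 2 := by
        rw [← mul_add, ← sum_add_distrib]
        congr 1
        refine sum_congr rfl fun e _ => ?_
        ring

/-- `L¹` bound of the level errors through the high levels -/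
theorem levErr_abs_le {E : Type*} [Fintype E] {T : (E → ℝ) →ₗ[ℝ] (E → ℝ)} {Wout Win : E → ℝ}
    (h0 : ∀ e, 0 ≤ Wout e) {N : ℝ} (hN : 1 ≤ N)
    (hT1 : ∀ V : E → ℝ, ∑ e, Wout e * |T V e| ≤ N * ∑ e, Win e * |V e|)
    (v : E → ℝ) (j : ℤ) :
    ∑ e, Wout e * |levErr T v j e| ≤ N * ∑ e, (Wout e + Win e) * |lev v j e| := by
  have h1 : ∀ e, Wout e * |levErr T v j e| ≤
      Wout e * |lev v j e| + Wout e * |T (lev v j) e| := by
    intro e
    rw [← mul_add]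
    exact mul_le_mul_of_nonneg_left (abs_sub _ _) (h0 e)
  have h4 := hT1 (lev v j)
  have h5 : 0 ≤ ∑ e, Wout e * |lev v j e| :=
    sum_nonneg fun e _ => mul_nonneg (h0 e) (abs_nonneg _)
  calc ∑ e, Wout e * |levErr T v j e|
      ≤ ∑ e, (Wout e * |lev v j e| + Wout e * |T (lev v j) e|) := sum_le_sum fun e _ => h1 e
    _ = ∑ e, Wout e * |lev v j e| + ∑ e, Wout e * |T (lev v j) e| := sum_add_distrib
    _ ≤ N * ∑ e, Wout e * |lev v j e| + N * ∑ e, Win e * |lev v j e| := by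
        have : 1 * ∑ e, Wout e * |lev v j e| ≤ N * ∑ e, Wout e * |lev v j e| :=
          mul_le_mul_of_nonneg_right hN h5
        linarith
    _ = N * ∑ e, (Wout e + Win e) * |lev v j e| := by
        rw [← mul_add, ← sum_add_distrib]
        congr 1
        refine sum_congr rfl fun e _ => ?_
        ring

/-- **T5**: level estimate for `1 < p < 2`. -/
theorem levels_lt_two (p : ℝ) (hp1 : 1 < p) (hp : p < 2) :
    ∃ C : ℝ, 0 < C ∧ ∀ (E : Type) [Fintype E] (T : (E → ℝ) →ₗ[ℝ] (E → ℝ)) (Wout Win : E → ℝ)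
      (N : ℝ) (_ : 1 ≤ N) (_ : ∀ e, 0 ≤ Wout e) (_ : ∀ e, 0 ≤ Win e)
      (_ : ∀ V : E → ℝ, ∑ e, Wout e * (T V e) ^ 2 ≤ 6 * ∑ e, Win e * (V e) ^ 2)
      (_ : ∀ V : E → ℝ, ∑ e, Wout e * |T V e| ≤ N * ∑ e, Win e * |V e|)
      (v : E → ℝ) (_ : T v = v) (l : ℕ) (_ : 1 ≤ l) (K : Finset ℤ),
      ∑ e, Wout e * ∑ k ∈ K, ((2 : ℝ) ^ k) ^ (-p) * |mainF l v k e - T (mainF l v k) e| ^ p ≤
        C * N ^ (2 - p) * ∑ e, (Wout e + Win e) * |v e| ^ p := by
  have hC1 : 0 < (1 - (2 : ℝ) ^ (-(2 - p)))⁻¹ := by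
    have : (2 : ℝ) ^ (-(2 - p)) < 1 :=
      Real.rpow_lt_one_of_one_lt_of_neg (by norm_num) (by linarith)
    exact inv_pos.mpr (by linarith)
  have hC2 : 0 < (1 - (2 : ℝ) ^ (-(p - 1)))⁻¹ := by
    have : (2 : ℝ) ^ (-(p - 1)) < 1 :=
      Real.rpow_lt_one_of_one_lt_of_neg (by norm_num) (by linarith)
    exact inv_pos.mpr (by linarith)
  set C1 : ℝ := (1 - (2 : ℝ) ^ (-(2 - p)))⁻¹ with hC1def
  set C2 : ℝ := (1 - (2 : ℝ) ^ (-(p - 1)))⁻¹ with hC2def
  refine ⟨2 ^ p * (12 * C1 + C2), by positivity, ?_⟩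
  intro E _ T Wout Win N hN h0 h0' hT2 hT1 v hT l hl K
  have hN0 : 0 < N := by linarith
  set J := levJ l K
  -- sum of the weighted errors
  have hA : ∑ e, Wout e * ∑ k ∈ K, ((2 : ℝ) ^ k) ^ (-p) *
      |mainF l v k e - T (mainF l v k) e| ^ p ≤
      2 ^ p * ∑ j ∈ J, ∑ e, Wout e * |levErr T v j e| ^ p := by
    calc ∑ e, Wout e * ∑ k ∈ K, ((2 : ℝ) ^ k) ^ (-p) *
          |mainF l v k e - T (mainF l v k) e| ^ p
        ≤ ∑ e, Wout e * (2 ^ p * ∑ j ∈ J, |levErr T v j e| ^ p) :=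
          sum_le_sum fun e _ => mul_le_mul_of_nonneg_left (sum_err_le hp1 hl T v K e) (h0 e)
      _ = 2 ^ p * ∑ j ∈ J, ∑ e, Wout e * |levErr T v j e| ^ p := by
          rw [sum_comm, mul_sum]
          refine sum_congr rfl fun e _ => ?_
          rw [← mul_sum]
          ring
  have hB : ∀ j ∈ J, ∑ e, Wout e * |levErr T v j e| ^ p ≤
      N ^ (2 - p) * (12 * ∑ e, (Wout e + Win e) * (((2 : ℝ) ^ j) ^ (p - 2) * (v e - lev v j e) ^ 2)) +
      N ^ (2 - p) * ∑ e, (Wout e + Win e) * (((2 : ℝ) ^ j) ^ (p - 1) * |lev v j e|) := by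
    intro j _
    have h2j : (0 : ℝ) < (2 : ℝ) ^ j := by positivity
    have h1 : ∀ e, Wout e * |levErr T v j e| ^ p ≤
        N ^ (2 - p) * (((2 : ℝ) ^ j) ^ (p - 2) * (Wout e * (levErr T v j e) ^ 2)) +
        N ^ (1 - p) * (((2 : ℝ) ^ j) ^ (p - 1) * (Wout e * |levErr T v j e|)) := by
      intro e
      have := mul_le_mul_of_nonneg_left
        (rpow_le_interp hp1 hp hN0 (abs_nonneg (levErr T v j e)) h2j) (h0 e)
      rw [sq_abs] at this
      linarith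
    calc ∑ e, Wout e * |levErr T v j e| ^ p
        ≤ ∑ e, (N ^ (2 - p) * (((2 : ℝ) ^ j) ^ (p - 2) * (Wout e * (levErr T v j e) ^ 2)) +
        N ^ (1 - p) * (((2 : ℝ) ^ j) ^ (p - 1) * (Wout e * |levErr T v j e|))) :=
          sum_le_sum fun e _ => h1 e
      _ = N ^ (2 - p) * (((2 : ℝ) ^ j) ^ (p - 2) * ∑ e, Wout e * (levErr T v j e) ^ 2) +
        N ^ (1 - p) * (((2 : ℝ) ^ j) ^ (p - 1) * ∑ e, Wout e * |levErr T v j e|) := by
          rw [sum_add_distrib, mul_sum, mul_sum, mul_sum, mul_sum]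
      _ ≤ N ^ (2 - p) * (((2 : ℝ) ^ j) ^ (p - 2) *
            (12 * ∑ e, (Wout e + Win e) * (v e - lev v j e) ^ 2)) +
          N ^ (1 - p) * (((2 : ℝ) ^ j) ^ (p - 1) *
            (N * ∑ e, (Wout e + Win e) * |lev v j e|)) := by
          refine add_le_add ?_ ?_
          · refine mul_le_mul_of_nonneg_left (mul_le_mul_of_nonneg_left ?_ (by positivity))
              (by positivity)
            exact levErr_sq_le h0 h0' hT2 hT j
          · refine mul_le_mul_of_nonneg_left (mul_le_mul_of_nonneg_left ?_ (by positivity))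
              (by positivity)
            exact levErr_abs_le h0 hN hT1 v j
      _ = _ := by
          have hNN : N ^ (1 - p) * N = N ^ (2 - p) := by
            rw [← Real.rpow_add_one hN0.ne']
            congr 1
            ring
          congr 1
          · congr 1
            rw [mul_left_comm, mul_sum]
            congr 1
            refine sum_congr rfl fun e _ => ?_
            ring
          · rw [← hNN, mul_assoc, mul_left_comm _ N, mul_sum]
            congr 2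
            refine sum_congr rfl fun e _ => ?_
            ring
  have hsum : ∀ e, 0 ≤ Wout e + Win e := fun e => add_nonneg (h0 e) (h0' e)
  have hD1 : ∑ j ∈ J, ∑ e, (Wout e + Win e) * (((2 : ℝ) ^ j) ^ (p - 2) * (v e - lev v j e) ^ 2) ≤
      C1 * ∑ e, (Wout e + Win e) * |v e| ^ p := by
    rw [sum_comm, mul_sum]
    refine sum_le_sum fun e _ => ?_
    rw [← mul_sum]
    have := mul_le_mul_of_nonneg_left (sum_low_sq_le hp v J e hp1) (hsum e)
    linarith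
  have hD2 : ∑ j ∈ J, ∑ e, (Wout e + Win e) * (((2 : ℝ) ^ j) ^ (p - 1) * |lev v j e|) ≤
      C2 * ∑ e, (Wout e + Win e) * |v e| ^ p := by
    rw [sum_comm, mul_sum]
    refine sum_le_sum fun e _ => ?_
    rw [← mul_sum]
    have := mul_le_mul_of_nonneg_left (sum_high_abs_le hp1 v J e) (hsum e)
    linarith
  have hE : ∑ j ∈ J, ∑ e, Wout e * |levErr T v j e| ^ p ≤
      (12 * C1 + C2) * N ^ (2 - p) * ∑ e, (Wout e + Win e) * |v e| ^ p := by
    calc ∑ j ∈ J, ∑ e, Wout e * |levErr T v j e| ^ p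
        ≤ ∑ j ∈ J, (N ^ (2 - p) * (12 * ∑ e, (Wout e + Win e) *
            (((2 : ℝ) ^ j) ^ (p - 2) * (v e - lev v j e) ^ 2)) +
          N ^ (2 - p) * ∑ e, (Wout e + Win e) * (((2 : ℝ) ^ j) ^ (p - 1) * |lev v j e|)) :=
          sum_le_sum hB
      _ = N ^ (2 - p) * (12 * ∑ j ∈ J, ∑ e, (Wout e + Win e) *
            (((2 : ℝ) ^ j) ^ (p - 2) * (v e - lev v j e) ^ 2)) +
          N ^ (2 - p) * ∑ j ∈ J, ∑ e, (Wout e + Win e) *
            (((2 : ℝ) ^ j) ^ (p - 1) * |lev v j e|) := by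
          rw [sum_add_distrib, ← mul_sum, ← mul_sum, ← mul_sum]
      _ ≤ N ^ (2 - p) * (12 * (C1 * ∑ e, (Wout e + Win e) * |v e| ^ p)) +
          N ^ (2 - p) * (C2 * ∑ e, (Wout e + Win e) * |v e| ^ p) := by
          refine add_le_add ?_ ?_
          · refine mul_le_mul_of_nonneg_left ?_ (by positivity)
            linarith
          · exact mul_le_mul_of_nonneg_left hD2 (by positivity)
      _ = _ := by ring
  calc _ ≤ 2 ^ p * ∑ j ∈ J, ∑ e, Wout e * |levErr T v j e| ^ p := hA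
    _ ≤ 2 ^ p * ((12 * C1 + C2) * N ^ (2 - p) * ∑ e, (Wout e + Win e) * |v e| ^ p) :=
        mul_le_mul_of_nonneg_left hE (by positivity)
    _ = _ := by ring

end Crest.Agent.R232
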