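import Crest.Agent.R232.T3
import Crest.Agent.R232.T4
import Crest.Agent.R232.T5

/-! T6 (outer minimax) of the proof of S0358. -/

set_option autoImplicit false
set_option maxHeartbeats 1000000

open Finset

namespace Crest.Agent.R232.T6

open Crest.Agent.R232

/-! ### tent facts -/

lemma tent_nonneg (l : ℕ) (m : ℤ) : 0 ≤ tent l m := le_max_left _ _

lemma tent_eq_zero_left {l : ℕ} {m : ℤ} (h : m ≤ 0) : tent l m = 0 := by
  unfold tent
  apply max_eq_left
  apply (min_le_left _ _).trans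
  apply div_nonpos_of_nonpos_of_nonneg
  · exact_mod_cast h
  · positivity

lemma tent_eq_zero_right {l : ℕ} {m : ℤ} (h : 2 * (l : ℤ) ≤ m) : tent l m = 0 := by
  unfold tent
  apply max_eq_left
  apply (min_le_right _ _).trans
  apply div_nonpos_of_nonpos_of_nonneg
  · have : (2 * (l : ℝ)) ≤ (m : ℝ) := by exact_mod_cast h
    linarith
  · positivity

lemma mem_Ioo_of_tent_ne {l : ℕ} {m : ℤ} (h : tent l m ≠ 0) : m ∈ Ioo (0 : ℤ) (2 * l) := by
  rw [mem_Ioo]
  constructor
  · by_contra hc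
    exact h (tent_eq_zero_left (not_lt.mp hc))
  · by_contra hc
    exact h (tent_eq_zero_right (not_lt.mp hc))

lemma tent_le_one {l : ℕ} (hl : 1 ≤ l) (m : ℤ) : tent l m ≤ 1 := by
  unfold tent
  have hl' : (0 : ℝ) < l := by exact_mod_cast hl
  apply max_le zero_le_one
  rcases le_total (m : ℝ) l with h | h
  · apply (min_le_left _ _).trans
    rw [div_le_one hl']; exact h
  · apply (min_le_right _ _).trans
    rw [div_le_one hl']; linarith

lemma half_le_tent {l : ℕ} (hl : 1 ≤ l) {m : ℤ} (h1 : (l : ℤ) ≤ 2 * m) (h2 : 2 * m ≤ 3 * (l : ℤ)) :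
    1 / 2 ≤ tent l m := by
  unfold tent
  have hl' : (0 : ℝ) < l := by exact_mod_cast hl
  have h1' : (l : ℝ) ≤ 2 * m := by exact_mod_cast h1
  have h2' : 2 * (m : ℝ) ≤ 3 * l := by exact_mod_cast h2
  apply le_max_of_le_right
  apply le_min
  · rw [le_div_iff₀ hl']; linarith
  · rw [le_div_iff₀ hl']; linarith

/-- the normalisation constant `∑ tent^p` -/
noncomputable def cc (p : ℝ) (l : ℕ) : ℝ := ∑ j ∈ Ioo (0 : ℤ) (2 * l), tent l j ^ p

lemma cc_lower {p : ℝ} (hp : 0 ≤ p) {l : ℕ} (hl : 1 ≤ l) : (l : ℝ) * (1 / 2) ^ p ≤ cc p l := by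
  unfold cc
  set a : ℤ := ((l : ℤ) + 1) / 2 with ha
  have ha1 : (l : ℤ) ≤ 2 * a := by omega
  have ha2 : 2 * a ≤ (l : ℤ) + 1 := by omega
  have hl' : (1 : ℤ) ≤ l := by exact_mod_cast hl
  have hsub : Ico a (a + l) ⊆ Ioo (0 : ℤ) (2 * l) := by
    intro j hj
    rw [mem_Ico] at hj
    rw [mem_Ioo]
    omega
  calc (l : ℝ) * (1 / 2) ^ p = ∑ j ∈ Ico a (a + l), ((1 : ℝ) / 2) ^ p := by
        rw [sum_const, Int.card_Ico]
        simp
    _ ≤ ∑ j ∈ Ico a (a + l), tent l j ^ p := by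
        apply sum_le_sum
        intro j hj
        rw [mem_Ico] at hj
        apply Real.rpow_le_rpow (by norm_num) _ hp
        apply half_le_tent hl <;> omega
    _ ≤ ∑ j ∈ Ioo (0 : ℤ) (2 * l), tent l j ^ p := by
        apply sum_le_sum_of_subset_of_nonneg hsub
        intro j _ _
        exact Real.rpow_nonneg (tent_nonneg _ _) _

lemma cc_lower' {p : ℝ} (hp : 0 ≤ p) {l : ℕ} (hl : 1 ≤ l) : (l : ℝ) ≤ 2 ^ p * cc p l := by
  have h1 := cc_lower hp hl
  have h2 : (0 : ℝ) < (2 : ℝ) ^ p := Real.rpow_pos_of_pos (by norm_num) _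
  have h3 : (2 : ℝ) ^ p * (1 / 2) ^ p = 1 := by
    rw [← Real.mul_rpow (by norm_num) (by norm_num)]
    norm_num
  have h4 := mul_le_mul_of_nonneg_left h1 h2.le
  calc (l : ℝ) = l * ((2 : ℝ) ^ p * (1 / 2) ^ p) := by rw [h3, mul_one]
    _ = (2 : ℝ) ^ p * (l * (1 / 2) ^ p) := by ring
    _ ≤ (2 : ℝ) ^ p * cc p l := h4

lemma cc_pos {p : ℝ} (hp : 0 ≤ p) {l : ℕ} (hl : 1 ≤ l) : 0 < cc p l := by
  refine lt_of_lt_of_le ?_ (cc_lower hp hl)
  have hl' : (0 : ℝ) < l := by exact_mod_cast hl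
  positivity

lemma sum_tent_shift {p : ℝ} (hp : 0 < p) (l : ℕ) (i : ℤ) (K : Finset ℤ)
    (hK : Ioo (-i) (2 * l - i) ⊆ K) : ∑ k ∈ K, tent l (i + k) ^ p = cc p l := by
  rw [← sum_subset hK]
  · unfold cc
    apply sum_nbij' (fun k => i + k) (fun j => j - i)
    · intro k hk
      rw [mem_Ioo] at hk ⊢
      omega
    · intro j hj
      rw [mem_Ioo] at hj ⊢
      omega
    · intro k _; ring
    · intro j _; ring
    · intro k _; rfl
  · intro k _ hk
    have : tent l (i + k) = 0 := by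
      by_contra h
      have := mem_Ioo_of_tent_ne h
      rw [mem_Ioo] at this
      apply hk
      rw [mem_Ioo]
      omega
    rw [this, Real.zero_rpow hp.ne']

/-! ### main field facts -/

variable {E : Type*}

lemma abs_mainF (l : ℕ) (v : E → ℝ) (k : ℤ) (e : E) :
    |mainF l v k e| = (2 : ℝ) ^ k * tent l (Int.log 2 |v e| + k) * |v e| := by
  unfold mainF
  rw [abs_mul, abs_mul, abs_of_nonneg (tent_nonneg _ _), abs_of_pos (zpow_pos (by norm_num) _)]

lemma weight_mainF_rpow (p : ℝ) (l : ℕ) (v : E → ℝ) (k : ℤ) (e : E) :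
    ((2 : ℝ) ^ k) ^ (-p) * |mainF l v k e| ^ p = tent l (Int.log 2 |v e| + k) ^ p * |v e| ^ p := by
  rw [abs_mainF]
  have h2 : (0 : ℝ) < (2 : ℝ) ^ k := zpow_pos (by norm_num) _
  rw [mul_assoc, Real.mul_rpow h2.le (mul_nonneg (tent_nonneg _ _) (abs_nonneg _)), ← mul_assoc,
    ← Real.rpow_add h2, neg_add_cancel, Real.rpow_zero, one_mul,
    Real.mul_rpow (tent_nonneg _ _) (abs_nonneg _)]

lemma mainF_ne_zero {l : ℕ} {v : E → ℝ} {k : ℤ} {e : E} (h : mainF l v k e ≠ 0) :
    v e ≠ 0 ∧ 0 < Int.log 2 |v e| + k ∧ Int.log 2 |v e| + k < 2 * l := by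
  unfold mainF at h
  have h1 : v e ≠ 0 := right_ne_zero_of_mul h
  have h2 : tent l (Int.log 2 |v e| + k) ≠ 0 := right_ne_zero_of_mul (left_ne_zero_of_mul h)
  have := mem_Ioo_of_tent_ne h2
  rw [mem_Ioo] at this
  exact ⟨h1, this.1, this.2⟩

lemma abs_mainF_le {l : ℕ} (hl : 1 ≤ l) (v : E → ℝ) (k : ℤ) (e : E) :
    |mainF l v k e| ≤ 4 ^ l := by
  by_cases h : mainF l v k e = 0
  · rw [h, abs_zero]; positivity
  obtain ⟨h1, h2, h3⟩ := mainF_ne_zero h
  rw [abs_mainF]
  have hk : (0 : ℝ) < (2 : ℝ) ^ k := zpow_pos (by norm_num) _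
  have hv : |v e| < (2 : ℝ) ^ (Int.log 2 |v e| + 1) := by
    have := Int.lt_zpow_succ_log_self (b := 2) (by norm_num) (|v e|)
    exact_mod_cast this
  calc (2 : ℝ) ^ k * tent l (Int.log 2 |v e| + k) * |v e|
      ≤ (2 : ℝ) ^ k * 1 * (2 : ℝ) ^ (Int.log 2 |v e| + 1) := by
        apply mul_le_mul _ hv.le (abs_nonneg _) (by positivity)
        exact mul_le_mul_of_nonneg_left (tent_le_one hl _) hk.le
    _ = (2 : ℝ) ^ (k + (Int.log 2 |v e| + 1)) := by
        rw [mul_one, ← zpow_add₀ (by norm_num)]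
    _ ≤ (2 : ℝ) ^ ((2 * l : ℕ) : ℤ) := by
        apply zpow_le_zpow_right₀ (by norm_num)
        push_cast
        omega
    _ = 4 ^ l := by
        rw [zpow_natCast, pow_mul]
        norm_num

lemma activity_le {p : ℝ} (hp : 0 ≤ p) {l : ℕ} (v : E → ℝ) (e : E) (K : Finset ℤ) :
    ∑ k ∈ K.filter (fun k => mainF l v k e ≠ 0), ((2 : ℝ) ^ k) ^ (-p) ≤ 2 * l * |v e| ^ p := by
  set i := Int.log 2 |v e| with hi
  have hsub : K.filter (fun k => mainF l v k e ≠ 0) ⊆ Ioo (-i) (2 * l - i) := by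
    intro k hk
    rw [mem_filter] at hk
    obtain ⟨h1, h2, h3⟩ := mainF_ne_zero hk.2
    rw [mem_Ioo]
    omega
  have hcard : ((K.filter (fun k => mainF l v k e ≠ 0)).card : ℝ) ≤ 2 * l := by
    have h1 := card_le_card hsub
    rw [Int.card_Ioo] at h1
    have h2 : (K.filter (fun k => mainF l v k e ≠ 0)).card ≤ 2 * l := by omega
    exact_mod_cast h2
  calc ∑ k ∈ K.filter (fun k => mainF l v k e ≠ 0), ((2 : ℝ) ^ k) ^ (-p)
      ≤ ∑ k ∈ K.filter (fun k => mainF l v k e ≠ 0), |v e| ^ p := by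
        apply sum_le_sum
        intro k hk
        rw [mem_filter] at hk
        obtain ⟨h1, h2, h3⟩ := mainF_ne_zero hk.2
        rw [Real.rpow_neg (zpow_pos (by norm_num) _).le, ← Real.inv_rpow (zpow_pos (by norm_num) _).le]
        apply Real.rpow_le_rpow (by positivity) _ hp
        have h4 : (2 : ℝ) ^ i ≤ |v e| := by
          have := Int.zpow_log_le_self (b := 2) (by norm_num) (abs_pos.mpr h1)
          exact_mod_cast this
        refine le_trans ?_ h4
        rw [← zpow_neg]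
        apply zpow_le_zpow_right₀ (by norm_num)
        omega
    _ = ((K.filter (fun k => mainF l v k e ≠ 0)).card : ℝ) * |v e| ^ p := by
        rw [sum_const, nsmul_eq_mul]
    _ ≤ 2 * l * |v e| ^ p := mul_le_mul_of_nonneg_right hcard (Real.rpow_nonneg (abs_nonneg _) _)


/-! ### the level estimates, unified -/

/-- the growth function of the level estimate -/
noncomputable def Gf (p N l : ℝ) : ℝ := if p < 2 then N ^ (2 - p) else N ^ (p - 2) * l ^ (1 - p)

lemma Gf_nonneg (p : ℝ) {N l : ℝ} (hN : 0 ≤ N) (hl : 0 ≤ l) : 0 ≤ Gf p N l := by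
  unfold Gf
  split_ifs
  · exact Real.rpow_nonneg hN _
  · exact mul_nonneg (Real.rpow_nonneg hN _) (Real.rpow_nonneg hl _)

/-- the conclusion of T4/T5 as a predicate on the constant -/
def LevelBound (p CL : ℝ) : Prop :=
  ∀ (E : Type) [Fintype E] (T : (E → ℝ) →ₗ[ℝ] (E → ℝ)) (Wout Win : E → ℝ)
      (N : ℝ) (_ : 1 ≤ N) (_ : ∀ e, 0 ≤ Wout e) (_ : ∀ e, 0 ≤ Win e)
      (_ : ∀ V : E → ℝ, ∑ e, Wout e * (T V e) ^ 2 ≤ 6 * ∑ e, Win e * (V e) ^ 2)
      (_ : ∀ V : E → ℝ, ∑ e, Wout e * |T V e| ≤ N * ∑ e, Win e * |V e|)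
      (_ : ∀ (V : E → ℝ) (M : ℝ) (_ : ∀ e', |V e'| ≤ M) (e : E), |T V e| ≤ N * M)
      (v : E → ℝ) (_ : T v = v) (l : ℕ) (_ : 1 ≤ l) (K : Finset ℤ),
      ∑ e, Wout e * ∑ k ∈ K, ((2 : ℝ) ^ k) ^ (-p) * |mainF l v k e - T (mainF l v k) e| ^ p ≤
        CL * Gf p N l * ∑ e, (Wout e + Win e) * |v e| ^ p

theorem levels (p : ℝ) (hp1 : 1 < p) (hp2 : p ≠ 2) : ∃ CL : ℝ, 0 < CL ∧ LevelBound p CL := by
  rcases lt_or_gt_of_ne hp2 with h | h
  · obtain ⟨C, hC, hC'⟩ := levels_lt_two p hp1 h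
    refine ⟨C, hC, ?_⟩
    intro E _ T Wout Win N hN h0 h0' hL2 hL1 _ v hv l hl K
    have := hC' E T Wout Win N hN h0 h0' hL2 hL1 v hv l hl K
    unfold Gf
    rw [if_pos h]
    exact this
  · obtain ⟨C, hC, hC'⟩ := levels_gt_two p h
    refine ⟨C, hC, ?_⟩
    intro E _ T Wout Win N hN h0 h0' hL2 _ hsup v hv l hl K
    have := hC' E T Wout Win N hN h0 h0' hL2 hsup v hv l hl K
    unfold Gf
    rw [if_neg (not_lt.mpr h.le), ← mul_assoc]
    exact this

lemma Gf_le {p : ℝ} (hp1 : 1 < p) {C1 N l : ℝ} (hC1 : 1 ≤ C1) (hN : 0 < N)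
    (hl : C1 * N ^ gam p ≤ l) : Gf p N l / l ≤ 1 / C1 := by
  have hC1' : 0 < C1 := by linarith
  have hl0 : 0 < l := lt_of_lt_of_le (mul_pos hC1' (Real.rpow_pos_of_pos hN _)) hl
  unfold Gf
  unfold gam at hl
  split_ifs at hl ⊢ with h
  · rw [div_le_div_iff₀ hl0 hC1']
    linarith
  · set x : ℝ := N ^ (1 - 2 / p) / l with hx
    have hx0 : 0 ≤ x := by positivity
    have hx1 : x ≤ 1 / C1 := by
      rw [hx, div_le_div_iff₀ hl0 hC1']
      linarith
    have hp0 : p ≠ 0 := by linarith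
    have key : N ^ (p - 2) * l ^ (1 - p) / l = x ^ p := by
      rw [hx, Real.div_rpow (Real.rpow_nonneg hN.le _) hl0.le, ← Real.rpow_mul hN.le]
      have h1 : (1 - 2 / p) * p = p - 2 := by field_simp
      rw [h1, Real.rpow_sub hl0, Real.rpow_one]
      field_simp
    rw [key]
    calc x ^ p ≤ x ^ (1 : ℝ) := by
          apply Real.rpow_le_rpow_of_exponent_ge' hx0 _ zero_le_one hp1.le
          exact hx1.trans (by rw [div_le_one hC1']; exact hC1)
      _ = x := Real.rpow_one x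
      _ ≤ 1 / C1 := hx1

/-! ### convexity -/

lemma convex_point {p : ℝ} (hp : 1 ≤ p) (a b u w : ℝ) (ha : 0 ≤ a) (hb : 0 ≤ b) (hab : a + b = 1) :
    |a * u + b * w| ^ p ≤ a * |u| ^ p + b * |w| ^ p := by
  have h1 : |a * u + b * w| ≤ a * |u| + b * |w| := by
    calc |a * u + b * w| ≤ |a * u| + |b * w| := abs_add_le _ _
      _ = a * |u| + b * |w| := by rw [abs_mul, abs_mul, abs_of_nonneg ha, abs_of_nonneg hb]
  calc |a * u + b * w| ^ p ≤ (a * |u| + b * |w|) ^ p :=
        Real.rpow_le_rpow (abs_nonneg _) h1 (by linarith)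
    _ ≤ a * |u| ^ p + b * |w| ^ p := by
        have := (convexOn_rpow hp).2 (Set.mem_Ici.mpr (abs_nonneg u)) (Set.mem_Ici.mpr (abs_nonneg w))
          ha hb hab
        simpa [smul_eq_mul] using this

/-- gradient as a linear map -/
noncomputable def gradL {X : Type*} (d : X → X → ℝ) : (X → ℝ) →ₗ[ℝ] (X × X → ℝ) where
  toFun f := fun e => grad d f e
  map_add' f g := by ext e; exact grad_add d f g e
  map_smul' c f := by ext e; simp only [grad_smul, Pi.smul_apply, smul_eq_mul, RingHom.id_apply]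

lemma gradL_apply {X : Type*} (d : X → X → ℝ) (f : X → ℝ) (e : X × X) : gradL d f e = grad d f e := rfl

lemma exists_K {A E : Type} [Fintype A] [Fintype E] (l : ℕ) (i : A → E → ℤ) :
    ∃ K : Finset ℤ, ∀ a e, Ioo (-(i a e)) (2 * (l : ℤ) - i a e) ⊆ K := by
  classical
  refine ⟨(univ : Finset (A × E)).biUnion
    (fun ae => Ioo (-(i ae.1 ae.2)) (2 * (l : ℤ) - i ae.1 ae.2)), ?_⟩
  intro a e k hk
  rw [mem_biUnion]
  exact ⟨(a, e), mem_univ _, hk⟩

/-- the core of T6, for a fixed window length `2 l` -/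
theorem core (p : ℝ) (hp1 : 1 < p) (ε : ℝ) (hε : 0 < ε) (CL : ℝ) (hCL : 0 < CL)
    (hlev : LevelBound p CL) (X : Type) [Fintype X] [DecidableEq X] (hn : 2 ≤ Fintype.card X)
    (d : X → X → ℝ) (hd : IsDist d) (A : Type) [Fintype A] (m : A → ℝ) (hm : ∀ a, 0 ≤ m a)
    (f : A → X → ℝ) (hf : ∀ x y, x ≠ y → ∑ a, m a * |f a x - f a y| ^ p = d x y ^ p)
    (l : ℕ) (hl : 1 ≤ l)
    (hlarge : 2 * 2 ^ p * CL * (Gf p (24 * Real.log (Fintype.card X)) l / l) ≤ ε / 4) :
    ∃ (Ω : Type) (_ : Fintype Ω) (μ : Ω → ℝ) (B : Ω → X × X → ℝ) (F : Ω → X → ℝ),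
      (∀ ω, 0 ≤ μ ω) ∧ ∀ x y, x ≠ y →
        (∑ ω, μ ω * |B ω (x, y)| ^ p = 1) ∧
        (∑ ω ∈ univ.filter (fun ω => B ω (x, y) ≠ 0), μ ω ≤ 2 * 2 ^ p) ∧
        (∑ ω, μ ω * |grad d (F ω) (x, y) - B ω (x, y)| ^ p ≤ ε) ∧
        (∑ ω, μ ω * (B ω (x, y)) ^ 2 ≤ 2 * 2 ^ p * 16 ^ l) ∧
        (∑ ω, μ ω * (grad d (F ω) (x, y)) ^ 2 ≤ 48 * 2 ^ p * 16 ^ l) ∧
        (∀ ω, |grad d (F ω) (x, y)| ≤ 13 * Real.log (Fintype.card X) * 4 ^ l) := by
  classical
  have hp0 : (0 : ℝ) < p := by linarith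
  have hl' : (0 : ℝ) < l := by exact_mod_cast hl
  set Lg : ℝ := Real.log (Fintype.card X) with hLg
  have hcard2 : (2 : ℝ) ≤ Fintype.card X := by exact_mod_cast hn
  have hLg2 : Real.log 2 ≤ Lg := Real.log_le_log (by norm_num) hcard2
  have hlog2 : (0.69 : ℝ) < Real.log 2 := by have := Real.log_two_gt_d9; linarith
  have hLg0 : 0 < Lg := by linarith
  have hN1 : 1 ≤ 24 * Lg := by linarith
  have : Nonempty X := Fintype.card_pos_iff.mp (by omega)
  -- the gradients of the coordinates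
  set v : A → X × X → ℝ := fun a e => grad d (f a) e with hv
  have hv1 : ∀ x y, x ≠ y → ∑ a, m a * |v a (x, y)| ^ p = 1 := by
    intro x y hxy
    have hdp : 0 < d x y := hd.pos x y hxy
    have hdp' : (0 : ℝ) < d x y ^ p := Real.rpow_pos_of_pos hdp _
    have : ∀ a, m a * |v a (x, y)| ^ p = (m a * |f a x - f a y| ^ p) / d x y ^ p := by
      intro a
      simp only [hv, grad]
      rw [abs_div, abs_of_pos hdp, Real.div_rpow (abs_nonneg _) hdp.le, mul_div_assoc]
    rw [sum_congr rfl (fun a _ => this a), ← sum_div, hf x y hxy, div_self hdp'.ne']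
  have hvle : ∀ e, ∑ a, m a * |v a e| ^ p ≤ 1 := by
    rintro ⟨x, y⟩
    by_cases hxy : x = y
    · subst hxy
      have : ∀ a, m a * |v a (x, x)| ^ p = 0 := by
        intro a
        simp only [hv, grad_diag, abs_zero]
        rw [Real.zero_rpow hp0.ne', mul_zero]
      rw [sum_congr rfl (fun a _ => this a)]
      simp
    · exact (hv1 x y hxy).le
  -- the amplitude indices
  obtain ⟨K, hKsub⟩ := exists_K l (fun (a : A) (e : X × X) => Int.log 2 |v a e|)
  set c : ℝ := cc p l with hc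
  have hc0 : 0 < c := cc_pos hp0.le hl
  have hcl : (l : ℝ) ≤ 2 ^ p * c := cc_lower' hp0.le hl
  set wt : A → ℤ → ℝ := fun a k => m a * ((2 : ℝ) ^ k) ^ (-p) / c with hwt
  have hwt0 : ∀ a k, 0 ≤ wt a k := by
    intro a k
    exact div_nonneg (mul_nonneg (hm a) (Real.rpow_nonneg (zpow_pos (by norm_num) _).le _)) hc0.le
  let Ω : Type := A × {k // k ∈ K}
  have sumΩ : ∀ G : A → ℤ → ℝ, ∑ ω : Ω, G ω.1 ω.2 = ∑ a, ∑ k ∈ K, G a k := by
    intro G
    rw [Fintype.sum_prod_type]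
    apply sum_congr rfl
    intro a _
    exact Finset.sum_coe_sort K (fun k => G a k)
  let μ : Ω → ℝ := fun ω => wt ω.1 ω.2
  let B : Ω → X × X → ℝ := fun ω => mainF l (v ω.1) ω.2
  have hμ0 : ∀ ω, 0 ≤ μ ω := fun ω => hwt0 _ _
  have hB4 : ∀ ω e, |B ω e| ≤ 4 ^ l := fun ω e => abs_mainF_le hl _ _ _
  -- (1) p-mass
  have h1 : ∀ e, ∑ ω, μ ω * |B ω e| ^ p = ∑ a, m a * |v a e| ^ p := by
    intro e
    rw [sumΩ (fun a k => wt a k * |mainF l (v a) k e| ^ p)]
    apply sum_congr rfl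
    intro a _
    have : ∀ k ∈ K, wt a k * |mainF l (v a) k e| ^ p =
        m a / c * |v a e| ^ p * tent l (Int.log 2 |v a e| + k) ^ p := by
      intro k _
      have := weight_mainF_rpow p l (v a) k e
      calc wt a k * |mainF l (v a) k e| ^ p
          = m a / c * (((2 : ℝ) ^ k) ^ (-p) * |mainF l (v a) k e| ^ p) := by
            simp only [hwt]; ring
        _ = _ := by rw [this]; ring
    rw [sum_congr rfl this, ← mul_sum, sum_tent_shift hp0 l _ K (hKsub a e), ← hc]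
    field_simp
  -- (2) activity
  have h2 : ∀ e, ∑ ω ∈ univ.filter (fun ω => B ω e ≠ 0), μ ω ≤ 2 * 2 ^ p := by
    intro e
    rw [sum_filter]
    have hrw := sumΩ (fun a k => if mainF l (v a) k e ≠ 0 then wt a k else 0)
    calc ∑ ω : Ω, (if B ω e ≠ 0 then μ ω else 0)
        = ∑ a, ∑ k ∈ K, (if mainF l (v a) k e ≠ 0 then wt a k else 0) := hrw
      _ ≤ ∑ a, (2 * l / c) * (m a * |v a e| ^ p) := by
          apply sum_le_sum
          intro a _
          rw [← sum_filter]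
          have hact := activity_le (l := l) hp0.le (v a) e K
          calc ∑ k ∈ K.filter (fun k => mainF l (v a) k e ≠ 0), wt a k
              = m a / c * ∑ k ∈ K.filter (fun k => mainF l (v a) k e ≠ 0), ((2 : ℝ) ^ k) ^ (-p) := by
                rw [mul_sum]
                apply sum_congr rfl
                intro k _
                simp only [hwt]; ring
            _ ≤ m a / c * (2 * l * |v a e| ^ p) :=
                mul_le_mul_of_nonneg_left hact (div_nonneg (hm a) hc0.le)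
            _ = (2 * l / c) * (m a * |v a e| ^ p) := by ring
      _ = (2 * l / c) * ∑ a, m a * |v a e| ^ p := by rw [mul_sum]
      _ ≤ (2 * l / c) * 1 := mul_le_mul_of_nonneg_left (hvle e) (by positivity)
      _ ≤ 2 * 2 ^ p := by
          rw [mul_one, div_le_iff₀ hc0]
          nlinarith [hcl]
  -- (4) second moment of the main field
  have h4 : ∀ e, ∑ ω, μ ω * (B ω e) ^ 2 ≤ 2 * 2 ^ p * 16 ^ l := by
    intro e
    calc ∑ ω, μ ω * (B ω e) ^ 2 ≤ ∑ ω, (if B ω e ≠ 0 then μ ω else 0) * 16 ^ l := by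
          apply sum_le_sum
          intro ω _
          by_cases h : B ω e = 0
          · rw [if_neg (not_not.mpr h), h]; simp
          · rw [if_pos h]
            apply mul_le_mul_of_nonneg_left _ (hμ0 ω)
            have h16 : (16 : ℝ) ^ l = (4 ^ l) ^ 2 := by
              rw [← pow_mul, mul_comm, pow_mul]; norm_num
            rw [h16, ← sq_abs]
            exact pow_le_pow_left₀ (abs_nonneg _) (hB4 ω e) 2
      _ = (∑ ω ∈ univ.filter (fun ω => B ω e ≠ 0), μ ω) * 16 ^ l := by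
          rw [sum_filter, sum_mul]
      _ ≤ 2 * 2 ^ p * 16 ^ l := mul_le_mul_of_nonneg_right (h2 e) (by positivity)
  -- minimax
  set R : ℝ := 48 * 2 ^ p * 16 ^ l with hR
  have hR0 : 0 < R := by positivity
  set M0 : ℝ := 13 * Lg * 4 ^ l with hM0
  let Ks : Set (Ω → X → ℝ) := {F | ∀ ω e, |grad d (F ω) e| ≤ M0}
  let φ : X × X → (Ω → X → ℝ) → ℝ := fun e F =>
    (∑ ω, μ ω * |grad d (F ω) e - B ω e| ^ p) / ε + (∑ ω, μ ω * (grad d (F ω) e) ^ 2) / R
  have hgc : ∀ (a b : ℝ) (F G : Ω → X → ℝ) (ω : Ω) (e : X × X),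
      grad d ((a • F + b • G) ω) e = a * grad d (F ω) e + b * grad d (G ω) e := by
    intro a b F G ω e
    have : (a • F + b • G) ω = a • F ω + b • G ω := rfl
    rw [this, grad_add, grad_smul, grad_smul]
  have hKs : Convex ℝ Ks := by
    intro F hF G hG a b ha hb hab ω e
    rw [hgc]
    calc |a * grad d (F ω) e + b * grad d (G ω) e|
        ≤ |a * grad d (F ω) e| + |b * grad d (G ω) e| := abs_add_le _ _
      _ = a * |grad d (F ω) e| + b * |grad d (G ω) e| := by
          rw [abs_mul, abs_mul, abs_of_nonneg ha, abs_of_nonneg hb]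
      _ ≤ a * M0 + b * M0 :=
          add_le_add (mul_le_mul_of_nonneg_left (hF ω e) ha) (mul_le_mul_of_nonneg_left (hG ω e) hb)
      _ = M0 := by rw [← add_mul, hab, one_mul]
  have hφ : ∀ e, ConvexOn ℝ Ks (φ e) := by
    intro e
    refine ⟨hKs, ?_⟩
    intro F _ G _ a b ha hb hab
    simp only [φ, smul_eq_mul]
    have hb1 : ∑ ω, μ ω * |grad d ((a • F + b • G) ω) e - B ω e| ^ p ≤
        a * ∑ ω, μ ω * |grad d (F ω) e - B ω e| ^ p +
          b * ∑ ω, μ ω * |grad d (G ω) e - B ω e| ^ p := by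
      rw [mul_sum, mul_sum, ← sum_add_distrib]
      apply sum_le_sum
      intro ω _
      rw [hgc]
      have h := convex_point hp1.le a b (grad d (F ω) e - B ω e) (grad d (G ω) e - B ω e) ha hb hab
      have h' : a * (grad d (F ω) e - B ω e) + b * (grad d (G ω) e - B ω e) =
          a * grad d (F ω) e + b * grad d (G ω) e - B ω e := by
        have : B ω e = (a + b) * B ω e := by rw [hab, one_mul]
        rw [this]
        have : (a + b) * B ω e = B ω e := by rw [hab, one_mul]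
        rw [this]
        linear_combination (-(B ω e)) * hab
      rw [h'] at h
      calc μ ω * |a * grad d (F ω) e + b * grad d (G ω) e - B ω e| ^ p
          ≤ μ ω * (a * |grad d (F ω) e - B ω e| ^ p + b * |grad d (G ω) e - B ω e| ^ p) :=
            mul_le_mul_of_nonneg_left h (hμ0 ω)
        _ = _ := by ring
    have hb2 : ∑ ω, μ ω * (grad d ((a • F + b • G) ω) e) ^ 2 ≤
        a * ∑ ω, μ ω * (grad d (F ω) e) ^ 2 + b * ∑ ω, μ ω * (grad d (G ω) e) ^ 2 := by
      rw [mul_sum, mul_sum, ← sum_add_distrib]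
      apply sum_le_sum
      intro ω _
      rw [hgc]
      have hb' : b = 1 - a := by linarith
      have : (a * grad d (F ω) e + b * grad d (G ω) e) ^ 2 ≤
          a * (grad d (F ω) e) ^ 2 + b * (grad d (G ω) e) ^ 2 := by
        have h0 : 0 ≤ a * b * (grad d (F ω) e - grad d (G ω) e) ^ 2 := by positivity
        have h1 : a * (grad d (F ω) e) ^ 2 + b * (grad d (G ω) e) ^ 2 -
          (a * grad d (F ω) e + b * grad d (G ω) e) ^ 2 =
            a * b * (grad d (F ω) e - grad d (G ω) e) ^ 2 := by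
          rw [hb']; ring
        linarith
      calc μ ω * (a * grad d (F ω) e + b * grad d (G ω) e) ^ 2
          ≤ μ ω * (a * (grad d (F ω) e) ^ 2 + b * (grad d (G ω) e) ^ 2) :=
            mul_le_mul_of_nonneg_left this (hμ0 ω)
        _ = _ := by ring
    calc (∑ ω, μ ω * |grad d ((a • F + b • G) ω) e - B ω e| ^ p) / ε +
          (∑ ω, μ ω * (grad d ((a • F + b • G) ω) e) ^ 2) / R
        ≤ (a * ∑ ω, μ ω * |grad d (F ω) e - B ω e| ^ p +
            b * ∑ ω, μ ω * |grad d (G ω) e - B ω e| ^ p) / ε +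
          (a * ∑ ω, μ ω * (grad d (F ω) e) ^ 2 + b * ∑ ω, μ ω * (grad d (G ω) e) ^ 2) / R :=
          add_le_add (div_le_div_of_nonneg_right hb1 hε.le) (div_le_div_of_nonneg_right hb2 hR0.le)
      _ = _ := by ring
  have havg : ∀ W : X × X → ℝ, (∀ e, 0 ≤ W e) → ∑ e, W e = 1 →
      ∃ F ∈ Ks, ∑ e, W e * φ e F ≤ 1 / 2 := by
    intro Wout hW0 hW1
    obtain ⟨S, Win, hWin0, hWin1, hSgrad, hS2, hS1, hSsup⟩ :=
      operator_exists hn d hd Wout hW0 hW1
    let T : (X × X → ℝ) →ₗ[ℝ] (X × X → ℝ) := (gradL d).comp S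
    have hT : ∀ V e, T V e = grad d (S V) e := fun V e => rfl
    have hTv : ∀ a, T (v a) = v a := by
      intro a
      ext e
      rw [hT]
      exact hSgrad (f a) e
    have hlevT := hlev (X × X) T Wout Win (24 * Lg) hN1 hW0 hWin0 hS2 hS1
      (by
        intro V M hM e
        have hM0 : 0 ≤ M := (abs_nonneg _).trans (hM e)
        refine (hSsup V M hM e).trans ?_
        apply mul_le_mul_of_nonneg_right _ hM0
        linarith)
    refine ⟨fun ω => S (B ω), ?_, ?_⟩
    · intro ω e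
      exact hSsup (B ω) (4 ^ l) (hB4 ω) e
    · -- first part
      have hfirst : ∑ e, Wout e * ∑ ω, μ ω * |grad d (S (B ω)) e - B ω e| ^ p ≤ ε / 4 := by
        have hrw : ∀ e, ∑ ω, μ ω * |grad d (S (B ω)) e - B ω e| ^ p =
            ∑ a, ∑ k ∈ K, wt a k * |T (mainF l (v a) k) e - mainF l (v a) k e| ^ p := by
          intro e
          exact sumΩ (fun a k => wt a k * |T (mainF l (v a) k) e - mainF l (v a) k e| ^ p)
        calc ∑ e, Wout e * ∑ ω, μ ω * |grad d (S (B ω)) e - B ω e| ^ p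
            = ∑ a, m a / c * ∑ e, Wout e * ∑ k ∈ K, ((2 : ℝ) ^ k) ^ (-p) *
                |mainF l (v a) k e - T (mainF l (v a) k) e| ^ p := by
              simp_rw [hrw, mul_sum]
              rw [sum_comm]
              apply sum_congr rfl
              intro a _
              apply sum_congr rfl
              intro e _
              apply sum_congr rfl
              intro k _
              rw [abs_sub_comm]
              simp only [hwt]
              ring
          _ ≤ ∑ a, m a / c * (CL * Gf p (24 * Lg) l * ∑ e, (Wout e + Win e) * |v a e| ^ p) := by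
              apply sum_le_sum
              intro a _
              exact mul_le_mul_of_nonneg_left (hlevT (v a) (hTv a) l hl K)
                (div_nonneg (hm a) hc0.le)
          _ = (CL * Gf p (24 * Lg) l / c) *
                ∑ e, (Wout e + Win e) * ∑ a, m a * |v a e| ^ p := by
              simp_rw [mul_sum]
              rw [sum_comm]
              apply sum_congr rfl
              intro e _
              apply sum_congr rfl
              intro a _
              ring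
          _ ≤ (CL * Gf p (24 * Lg) l / c) * ∑ e, (Wout e + Win e) * 1 := by
              apply mul_le_mul_of_nonneg_left
              · apply sum_le_sum
                intro e _
                exact mul_le_mul_of_nonneg_left (hvle e) (add_nonneg (hW0 e) (hWin0 e))
              · exact div_nonneg (mul_nonneg hCL.le (Gf_nonneg p (by linarith) hl'.le)) hc0.le
          _ ≤ (CL * Gf p (24 * Lg) l / c) * 2 := by
              apply mul_le_mul_of_nonneg_left
              · simp only [mul_one]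
                rw [sum_add_distrib]
                linarith
              · exact div_nonneg (mul_nonneg hCL.le (Gf_nonneg p (by linarith) hl'.le)) hc0.le
          _ ≤ 2 * 2 ^ p * CL * (Gf p (24 * Lg) l / l) := by
              have hG := Gf_nonneg p (N := 24 * Lg) (l := (l : ℝ)) (by linarith) hl'.le
              rw [div_mul_eq_mul_div, div_le_iff₀ hc0]
              have h5 : 2 * 2 ^ p * CL * (Gf p (24 * Lg) l / l) * c =
                  (2 * CL * Gf p (24 * Lg) l) * ((2 ^ p * c) / l) := by ring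
              rw [h5]
              have h6 : 1 ≤ (2 ^ p * c) / l := by rw [le_div_iff₀ hl']; linarith
              have h7 : 0 ≤ 2 * CL * Gf p (24 * Lg) l := by positivity
              nlinarith
          _ ≤ ε / 4 := hlarge
      have hsecond : ∑ e, Wout e * ∑ ω, μ ω * (grad d (S (B ω)) e) ^ 2 ≤ R / 4 := by
        calc ∑ e, Wout e * ∑ ω, μ ω * (grad d (S (B ω)) e) ^ 2
            = ∑ ω, μ ω * ∑ e, Wout e * (grad d (S (B ω)) e) ^ 2 := by
              simp_rw [mul_sum]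
              rw [sum_comm]
              apply sum_congr rfl
              intro ω _
              apply sum_congr rfl
              intro e _
              ring
          _ ≤ ∑ ω, μ ω * (6 * ∑ e, Win e * (B ω e) ^ 2) := by
              apply sum_le_sum
              intro ω _
              exact mul_le_mul_of_nonneg_left (hS2 (B ω)) (hμ0 ω)
          _ = 6 * ∑ e, Win e * ∑ ω, μ ω * (B ω e) ^ 2 := by
              simp_rw [mul_sum]
              rw [sum_comm]
              apply sum_congr rfl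
              intro e _
              apply sum_congr rfl
              intro ω _
              ring
          _ ≤ 6 * ∑ e, Win e * (2 * 2 ^ p * 16 ^ l) := by
              apply mul_le_mul_of_nonneg_left _ (by norm_num)
              apply sum_le_sum
              intro e _
              exact mul_le_mul_of_nonneg_left (h4 e) (hWin0 e)
          _ = 6 * ((∑ e, Win e) * (2 * 2 ^ p * 16 ^ l)) := by rw [sum_mul]
          _ ≤ 6 * (1 * (2 * 2 ^ p * 16 ^ l)) := by
              apply mul_le_mul_of_nonneg_left _ (by norm_num)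
              exact mul_le_mul_of_nonneg_right hWin1 (by positivity)
          _ = R / 4 := by rw [hR]; ring
      calc ∑ e, Wout e * φ e (fun ω => S (B ω))
          = (∑ e, Wout e * ∑ ω, μ ω * |grad d (S (B ω)) e - B ω e| ^ p) / ε +
              (∑ e, Wout e * ∑ ω, μ ω * (grad d (S (B ω)) e) ^ 2) / R := by
            rw [sum_div, sum_div, ← sum_add_distrib]
            apply sum_congr rfl
            intro e _
            simp only [φ]
            ring
        _ ≤ (ε / 4) / ε + (R / 4) / R :=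
            add_le_add (div_le_div_of_nonneg_right hfirst hε.le)
              (div_le_div_of_nonneg_right hsecond hR0.le)
        _ = 1 / 2 := by field_simp; norm_num
  obtain ⟨F, hFK, hF⟩ := exists_le_of_forall_weights Ks φ hφ (1 / 2) 1 (by norm_num) havg
  refine ⟨Ω, inferInstance, μ, B, F, hμ0, ?_⟩
  intro x y hxy
  have hnn1 : 0 ≤ ∑ ω, μ ω * |grad d (F ω) (x, y) - B ω (x, y)| ^ p :=
    sum_nonneg fun ω _ => mul_nonneg (hμ0 ω) (Real.rpow_nonneg (abs_nonneg _) _)
  have hnn2 : 0 ≤ ∑ ω, μ ω * (grad d (F ω) (x, y)) ^ 2 :=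
    sum_nonneg fun ω _ => mul_nonneg (hμ0 ω) (sq_nonneg _)
  have hFe := hF (x, y)
  simp only [φ] at hFe
  refine ⟨?_, h2 (x, y), ?_, h4 (x, y), ?_, fun ω => hFK ω (x, y)⟩
  · rw [h1 (x, y)]; exact hv1 x y hxy
  · have h3 : (∑ ω, μ ω * |grad d (F ω) (x, y) - B ω (x, y)| ^ p) / ε ≤ 1 := by
      have : 0 ≤ (∑ ω, μ ω * (grad d (F ω) (x, y)) ^ 2) / R := div_nonneg hnn2 hR0.le
      linarith
    rwa [div_le_one hε] at h3
  · have h3 : (∑ ω, μ ω * (grad d (F ω) (x, y)) ^ 2) / R ≤ 1 := by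
      have : 0 ≤ (∑ ω, μ ω * |grad d (F ω) (x, y) - B ω (x, y)| ^ p) / ε := div_nonneg hnn1 hε.le
      linarith
    rwa [div_le_one hR0] at h3

lemma gam_pos {p : ℝ} (hp1 : 1 < p) (hp2 : p ≠ 2) : 0 < gam p := by
  unfold gam
  split_ifs with h
  · linarith
  · have h2 : 2 < p := lt_of_le_of_ne (not_lt.mp h) (Ne.symm hp2)
    have : 2 / p < 1 := by rw [div_lt_one (by linarith)]; exact h2
    linarith

lemma gam_lt_one {p : ℝ} (hp1 : 1 < p) : gam p < 1 := by
  unfold gam
  split_ifs with h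
  · linarith
  · have : 0 < 2 / p := by positivity
    linarith

/-- T6 -/
theorem outer (p : ℝ) (hp1 : 1 < p) (hp2 : p ≠ 2) (ε : ℝ) (hε : 0 < ε) :
    ∃ C : ℝ, 0 < C ∧ ∀ (X : Type) [Fintype X] [DecidableEq X] (_ : 2 ≤ Fintype.card X)
      (d : X → X → ℝ) (_ : IsDist d) (A : Type) [Fintype A] (m : A → ℝ) (_ : ∀ a, 0 ≤ m a)
      (f : A → X → ℝ) (_ : ∀ x y, x ≠ y → ∑ a, m a * |f a x - f a y| ^ p = d x y ^ p),
      ∃ (Λ : ℝ) (Ω : Type) (_ : Fintype Ω) (μ : Ω → ℝ) (B : Ω → X × X → ℝ) (F : Ω → X → ℝ),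
        1 ≤ Λ ∧ Real.log (Fintype.card X) ≤ Λ ∧
        Λ ≤ Real.exp (C * Real.log (Fintype.card X) ^ gam p) ∧
        (∀ ω, 0 ≤ μ ω) ∧
        ∀ x y, x ≠ y →
          (∑ ω, μ ω * |B ω (x, y)| ^ p = 1) ∧
          (∑ ω ∈ univ.filter (fun ω => B ω (x, y) ≠ 0), μ ω ≤ Λ) ∧
          (∑ ω, μ ω * |grad d (F ω) (x, y) - B ω (x, y)| ^ p ≤ ε) ∧
          (∑ ω, μ ω * (grad d (F ω) (x, y) - B ω (x, y)) ^ 2 ≤ Λ) ∧
          (∑ ω, μ ω * (grad d (F ω) (x, y)) ^ 2 ≤ Λ) ∧
          (∀ ω, |grad d (F ω) (x, y)| ≤ Λ) := by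
  obtain ⟨CL, hCL, hlev⟩ := levels p hp1 hp2
  have hγ0 := gam_pos hp1 hp2
  have hγ1 := gam_lt_one hp1
  set γ := gam p with hγ
  have h2p : (1 : ℝ) ≤ (2 : ℝ) ^ p := Real.one_le_rpow (by norm_num) (by linarith)
  set C1 : ℝ := max 1 (8 * 2 ^ p * CL / ε) with hC1
  have hC1one : 1 ≤ C1 := le_max_left _ _
  have hC1big : 8 * 2 ^ p * CL / ε ≤ C1 := le_max_right _ _
  have hlog2 : (0 : ℝ) < Real.log 2 := Real.log_pos (by norm_num)
  set c0 : ℝ := (Real.log 2 ^ γ)⁻¹ with hc0
  have hc00 : 0 < c0 := inv_pos.mpr (Real.rpow_pos_of_pos hlog2 _)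
  have hl100 : 0 < Real.log 100 := Real.log_pos (by norm_num)
  have hl16 : 0 < Real.log 16 := Real.log_pos (by norm_num)
  set CC : ℝ := (Real.log 100 + p * Real.log 2) * c0 + (C1 * 24 ^ γ + c0) * Real.log 16 +
    (c0 + 1) / γ with hCC
  have hCC0 : 0 < CC := by positivity
  refine ⟨CC, hCC0, ?_⟩
  intro X _ _ hn d hd A _ m hm f hf
  have hcard2 : (2 : ℝ) ≤ Fintype.card X := by exact_mod_cast hn
  set t : ℝ := Real.log (Fintype.card X) with ht
  have ht2 : Real.log 2 ≤ t := Real.log_le_log (by norm_num) hcard2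
  have ht0 : 0 < t := by linarith
  set q : ℝ := t ^ γ with hq
  have hq0 : 0 < q := Real.rpow_pos_of_pos ht0 _
  have hcq : 1 ≤ c0 * q := by
    rw [hc0, inv_mul_eq_div, le_div_iff₀ (Real.rpow_pos_of_pos hlog2 _), one_mul]
    exact Real.rpow_le_rpow hlog2.le ht2 hγ0.le
  have hN0 : 0 < 24 * t := by linarith
  have hNγ : (24 * t) ^ γ = 24 ^ γ * q := Real.mul_rpow (by norm_num) ht0.le
  have hNγ0 : 0 < (24 * t) ^ γ := Real.rpow_pos_of_pos hN0 _
  set l : ℕ := ⌈C1 * (24 * t) ^ γ⌉₊ with hl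
  have hlge : C1 * (24 * t) ^ γ ≤ l := Nat.le_ceil _
  have hlle : (l : ℝ) ≤ C1 * (24 ^ γ * q) + 1 := by
    rw [← hNγ]
    exact (Nat.ceil_lt_add_one (by positivity)).le
  have hl1 : 1 ≤ l := Nat.one_le_ceil_iff.mpr (by positivity)
  have hlarge : 2 * 2 ^ p * CL * (Gf p (24 * t) l / l) ≤ ε / 4 := by
    have h1 := Gf_le hp1 hC1one hN0 hlge
    have hK : 0 ≤ 2 * 2 ^ p * CL := by positivity
    refine (mul_le_mul_of_nonneg_left h1 hK).trans ?_
    have hC10 : 0 < C1 := by linarith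
    rw [mul_one_div, div_le_div_iff₀ hC10 (by norm_num)]
    have := (div_le_iff₀ hε).mp hC1big
    linarith
  obtain ⟨Ω, hΩ, μ, B, F, hμ, hall⟩ :=
    core p hp1 ε hε CL hCL hlev X hn d hd A m hm f hf l hl1 hlarge
  have h16 : (1 : ℝ) ≤ 16 ^ l := one_le_pow₀ (by norm_num)
  have h4le : (4 : ℝ) ^ l ≤ 16 ^ l := pow_le_pow_left₀ (by norm_num) (by norm_num) l
  set Q : ℝ := 2 ^ p * 16 ^ l with hQ
  have hQ1 : 1 ≤ Q := by nlinarith
  have hQ2 : (16 : ℝ) ^ l ≤ Q := by nlinarith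
  have hQ3 : (2 : ℝ) ^ p ≤ Q := by nlinarith
  set Λ : ℝ := 100 * Q * (1 + t) with hΛ
  have hΛQ : 100 * Q ≤ Λ := by rw [hΛ]; nlinarith
  refine ⟨Λ, Ω, hΩ, μ, B, F, by linarith, ?_, ?_, hμ, ?_⟩
  · rw [hΛ]; nlinarith
  · -- size of Λ
    have hQ0 : 0 < Q := by linarith
    have hΛ0 : 0 < Λ := by positivity
    rw [← Real.log_le_iff_le_exp hΛ0]
    have hlogΛ : Real.log Λ = Real.log 100 + (p * Real.log 2 + l * Real.log 16) +
        Real.log (1 + t) := by
      rw [hΛ, Real.log_mul (by positivity) (by positivity), Real.log_mul (by norm_num) hQ0.ne', hQ,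
        Real.log_mul (by positivity) (by positivity), Real.log_rpow (by norm_num), Real.log_pow]
    have hlog1 : Real.log (1 + t) ≤ (c0 + 1) / γ * q := by
      have h1 := Real.log_le_rpow_div (x := 1 + t) (by positivity) hγ0
      have h2 : (1 + t) ^ γ ≤ 1 ^ γ + t ^ γ :=
        Real.rpow_add_le_add_rpow zero_le_one ht0.le hγ0.le hγ1.le
      rw [Real.one_rpow, ← hq] at h2
      calc Real.log (1 + t) ≤ (1 + t) ^ γ / γ := h1
        _ ≤ (1 + q) / γ := div_le_div_of_nonneg_right h2 hγ0.le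
        _ ≤ (c0 * q + q) / γ := div_le_div_of_nonneg_right (by linarith) hγ0.le
        _ = (c0 + 1) / γ * q := by ring
    have hpart1 : Real.log 100 + p * Real.log 2 ≤ (Real.log 100 + p * Real.log 2) * c0 * q := by
      have : 0 ≤ Real.log 100 + p * Real.log 2 := by positivity
      rw [mul_assoc]
      exact le_mul_of_one_le_right this hcq
    have hpart2 : (l : ℝ) * Real.log 16 ≤ (C1 * 24 ^ γ + c0) * Real.log 16 * q := by
      calc (l : ℝ) * Real.log 16 ≤ (C1 * (24 ^ γ * q) + c0 * q) * Real.log 16 :=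
            mul_le_mul_of_nonneg_right (by linarith) hl16.le
        _ = _ := by ring
    rw [hlogΛ, hCC]
    nlinarith
  · intro x y hxy
    obtain ⟨ha, hb, hc, hd', he, hf'⟩ := hall x y hxy
    refine ⟨ha, ?_, hc, ?_, ?_, ?_⟩
    · linarith
    · calc ∑ ω, μ ω * (grad d (F ω) (x, y) - B ω (x, y)) ^ 2
          ≤ ∑ ω, (2 * (μ ω * (grad d (F ω) (x, y)) ^ 2) + 2 * (μ ω * (B ω (x, y)) ^ 2)) := by
            apply sum_le_sum
            intro ω _
            have h1 : (grad d (F ω) (x, y) - B ω (x, y)) ^ 2 ≤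
                2 * (grad d (F ω) (x, y)) ^ 2 + 2 * (B ω (x, y)) ^ 2 := by
              nlinarith [sq_nonneg (grad d (F ω) (x, y) + B ω (x, y))]
            have := mul_le_mul_of_nonneg_left h1 (hμ ω)
            linarith
        _ = 2 * ∑ ω, μ ω * (grad d (F ω) (x, y)) ^ 2 + 2 * ∑ ω, μ ω * (B ω (x, y)) ^ 2 := by
            rw [sum_add_distrib, mul_sum, mul_sum]
        _ ≤ 2 * (48 * 2 ^ p * 16 ^ l) + 2 * (2 * 2 ^ p * 16 ^ l) := by linarith
        _ = 100 * Q := by rw [hQ]; ring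
        _ ≤ Λ := hΛQ
    · calc ∑ ω, μ ω * (grad d (F ω) (x, y)) ^ 2 ≤ 48 * 2 ^ p * 16 ^ l := he
        _ = 48 * Q := by rw [hQ]; ring
        _ ≤ Λ := by linarith
    · intro ω
      calc |grad d (F ω) (x, y)| ≤ 13 * t * 4 ^ l := hf' ω
        _ ≤ 13 * t * Q := mul_le_mul_of_nonneg_left (h4le.trans hQ2) (by positivity)
        _ ≤ Λ := by rw [hΛ]; nlinarith

end Crest.Agent.R232.T6
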