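import Crest.Agent.R232.T7b

/-! # R232 T7: moments of sparse sums. -/

set_option autoImplicit false

open Finset

namespace Crest.Agent.R232.X

/-- the error part -/
theorem err_part (p : ℝ) (hp1 : 1 < p) :
    ∃ Cp : ℝ, 1 ≤ Cp ∧ ∀ ε : ℝ, 0 < ε → ∃ C : ℝ, 1 ≤ C ∧ ∀ (Λ : ℝ) (_ : 1 ≤ Λ) (κ : ℝ)
      (_ : 0 < κ) (_ : κ ≤ (C * Λ) ^ (-C)) (l : List (ℝ × ℝ)) (_ : ∀ x ∈ l, 0 ≤ x.1 ∧ x.1 ≤ 1)
      (_ : mass p l ≤ κ * ε) (_ : qmass l ≤ κ * Λ),
      EE l (fun s => |s| ^ p) ≤ Cp * (κ * ε) := by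
  rcases le_or_gt p 2 with hp2 | hp2
  · refine ⟨1, le_refl _, fun ε _ => ⟨1, le_refl _, ?_⟩⟩
    intro Λ _ κ _ _ l hl h1 _
    rw [one_mul]
    exact (upper_le_two hp1 hp2 l hl).trans h1
  · set A : ℝ := 2 ^ p * p ^ 2 with hA
    have hA1 : 1 ≤ A := by
      have h1 : 1 ≤ (2 : ℝ) ^ p := Real.one_le_rpow (by norm_num) (by linarith)
      have h2 : 1 ≤ p ^ 2 := by nlinarith
      rw [hA]; nlinarith
    have hE1 : 1 ≤ Real.exp A := Real.one_le_exp (by linarith)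
    refine ⟨Real.exp A * (A * 2), by nlinarith, fun ε hε => ?_⟩
    set θ : ℝ := (p - 2) / 2 with hθ
    have hθ0 : 0 < θ := by rw [hθ]; linarith
    refine ⟨max (1 + 1 / θ) (1 / ε), le_trans ?_ (le_max_left _ _), ?_⟩
    · have : 0 < 1 / θ := by positivity
      linarith
    intro Λ hΛ κ hκ hκC l hl h1 h2
    set C : ℝ := max (1 + 1 / θ) (1 / ε) with hC
    have hCθ : 1 + 1 / θ ≤ C := le_max_left _ _
    have hCε : 1 / ε ≤ C := le_max_right _ _
    have hθi : 0 < 1 / θ := by positivity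
    have hC1 : 1 ≤ C := by linarith
    have hΛ0 : 0 < Λ := by linarith
    have hCΛ : 1 ≤ C * Λ := by nlinarith
    have hCΛ0 : 0 < C * Λ := by linarith
    have hκΛ0 : 0 < κ * Λ := by positivity
    -- `κ Λ ≤ (C Λ)^(-1/θ)`
    have k1 : κ ≤ (C * Λ)⁻¹ * (C * Λ) ^ (-(1 / θ)) := by
      calc κ ≤ (C * Λ) ^ (-C) := hκC
        _ ≤ (C * Λ) ^ (-1 + -(1 / θ)) :=
            Real.rpow_le_rpow_of_exponent_le hCΛ (by linarith)
        _ = (C * Λ)⁻¹ * (C * Λ) ^ (-(1 / θ)) := by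
            rw [Real.rpow_add hCΛ0, Real.rpow_neg_one]
    have k2 : κ * Λ ≤ (C * Λ) ^ (-(1 / θ)) := by
      have hpos : 0 ≤ (C * Λ) ^ (-(1 / θ)) := Real.rpow_nonneg hCΛ0.le _
      calc κ * Λ ≤ ((C * Λ)⁻¹ * (C * Λ) ^ (-(1 / θ))) * Λ :=
            mul_le_mul_of_nonneg_right k1 hΛ0.le
        _ = (1 / C) * (C * Λ) ^ (-(1 / θ)) := by
            have : C ≠ 0 := by linarith
            field_simp
        _ ≤ 1 * (C * Λ) ^ (-(1 / θ)) := by
            apply mul_le_mul_of_nonneg_right _ hpos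
            rw [div_le_one (by linarith)]
            exact hC1
        _ = (C * Λ) ^ (-(1 / θ)) := one_mul _
    have k3 : (κ * Λ) ^ θ ≤ (C * Λ)⁻¹ := by
      calc (κ * Λ) ^ θ ≤ ((C * Λ) ^ (-(1 / θ))) ^ θ := Real.rpow_le_rpow hκΛ0.le k2 hθ0.le
        _ = (C * Λ) ^ (-(1 / θ) * θ) := by rw [← Real.rpow_mul hCΛ0.le]
        _ = (C * Λ)⁻¹ := by
            have : -(1 / θ) * θ = -1 := by field_simp
            rw [this, Real.rpow_neg_one]
    have k4 : Λ * (κ * Λ) ^ θ ≤ ε := by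
      calc Λ * (κ * Λ) ^ θ ≤ Λ * (C * Λ)⁻¹ := mul_le_mul_of_nonneg_left k3 hΛ0.le
        _ = 1 / C := by
            have : C ≠ 0 := by linarith
            field_simp
        _ ≤ ε := by
            rw [div_le_iff₀ hε] at hCε
            rw [div_le_iff₀ (by linarith)]
            linarith
    -- apply the Rosenthal-type bound with `lam = √(κ Λ)`
    have hlam : 0 < Real.sqrt (κ * Λ) := Real.sqrt_pos.2 hκΛ0
    have hlam2 : Real.sqrt (κ * Λ) ^ 2 = κ * Λ := Real.sq_sqrt hκΛ0.le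
    have hlamp : Real.sqrt (κ * Λ) ^ (p - 2) = (κ * Λ) ^ θ := by
      rw [Real.sqrt_eq_rpow, ← Real.rpow_mul hκΛ0.le]
      congr 1
      rw [hθ]; ring
    have hmain := upper_two_le hp2.le hlam l hl
    rw [hlam2, hlamp, ← hA] at hmain
    have hQ := qmass_nonneg hl
    have hM := mass_nonneg p hl
    have hp0 : 0 ≤ (κ * Λ) ^ θ := Real.rpow_nonneg hκΛ0.le _
    have g1 : A * (qmass l / (κ * Λ)) ≤ A := by
      have : qmass l / (κ * Λ) ≤ 1 := by
        rw [div_le_one hκΛ0]; exact h2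
      nlinarith
    have g2 : Real.exp (A * (qmass l / (κ * Λ))) ≤ Real.exp A := Real.exp_le_exp.2 g1
    have g3 : qmass l * (κ * Λ) ^ θ ≤ κ * ε := by
      calc qmass l * (κ * Λ) ^ θ ≤ (κ * Λ) * (κ * Λ) ^ θ := mul_le_mul_of_nonneg_right h2 hp0
        _ = κ * (Λ * (κ * Λ) ^ θ) := by ring
        _ ≤ κ * ε := mul_le_mul_of_nonneg_left k4 hκ.le
    have g4 : A * (mass p l + qmass l * (κ * Λ) ^ θ) ≤ A * 2 * (κ * ε) := by
      have : mass p l + qmass l * (κ * Λ) ^ θ ≤ 2 * (κ * ε) := by linarith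
      nlinarith
    have g5 : 0 ≤ A * (mass p l + qmass l * (κ * Λ) ^ θ) := by positivity
    calc EE l (fun s => |s| ^ p)
        ≤ Real.exp (A * (qmass l / (κ * Λ))) * (A * (mass p l + qmass l * (κ * Λ) ^ θ)) := hmain
      _ ≤ Real.exp A * (A * 2 * (κ * ε)) := mul_le_mul g2 g4 g5 (Real.exp_pos _).le
      _ = Real.exp A * (A * 2) * (κ * ε) := by ring

theorem final_arith {x κ U B MR : ℝ} (hx0 : 0 < x) (hx1 : x < 1 / 8) (hκ : 0 < κ)
    (hMR : MR ≤ x * κ) (c1 : U ≤ (1 + x) * B + MR) (c2 : B ≤ (1 + x) * U + MR)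
    (hBup : B ≤ (1 + x) * ((1 + x) * κ)) (hBlow : (1 - x) * κ ≤ B) :
    (1 - 8 * x) * κ ≤ U ∧ U ≤ (1 + 8 * x) * κ := by
  have hx2 : x ^ 2 ≤ x / 8 := by nlinarith
  have hx3 : x ^ 3 ≤ x / 64 := by
    have : x ^ 3 = x * x ^ 2 := by ring
    rw [this]; nlinarith
  have h5 : 0 < x * κ := by positivity
  constructor
  · by_contra hcon
    push Not at hcon
    have h1 : (1 + x) * U ≤ (1 + x) * ((1 - 8 * x) * κ) :=
      mul_le_mul_of_nonneg_left hcon.le (by linarith)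
    have h2 : (1 + x) * ((1 - 8 * x) * κ) = κ - 7 * (x * κ) - 8 * (x ^ 2 * κ) := by ring
    have h3 : 0 ≤ x ^ 2 * κ := by positivity
    have h4 : (1 - x) * κ = κ - x * κ := by ring
    linarith
  · have h1 : (1 + x) * B ≤ (1 + x) * ((1 + x) * ((1 + x) * κ)) :=
      mul_le_mul_of_nonneg_left hBup (by linarith)
    have h2 : (1 + x) * ((1 + x) * ((1 + x) * κ)) =
        κ + 3 * (x * κ) + 3 * (x ^ 2 * κ) + x ^ 3 * κ := by ring
    have h3 : x ^ 2 * κ ≤ x / 8 * κ := mul_le_mul_of_nonneg_right hx2 hκ.le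
    have h4 : x ^ 3 * κ ≤ x / 64 * κ := mul_le_mul_of_nonneg_right hx3 hκ.le
    have h6 : (1 + 8 * x) * κ = κ + 8 * (x * κ) := by ring
    have h7 : x / 8 * κ = (x * κ) / 8 := by ring
    have h8 : x / 64 * κ = (x * κ) / 64 := by ring
    linarith

end Crest.Agent.R232.X

namespace Crest.Agent.R232

set_option maxHeartbeats 1000000 in
open X in
/-- T7: moments of sparse sums: list entries `(q, (b, a))`, `b` main part, `a` true value. -/
theorem moment (p : ℝ) (hp1 : 1 < p) (η : ℝ) (hη : 0 < η) (hη1 : η < 1) :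
    ∃ ε : ℝ, 0 < ε ∧ ∃ C : ℝ, 1 ≤ C ∧ ∀ (Λ : ℝ) (_ : 1 ≤ Λ) (κ : ℝ) (_ : 0 < κ)
      (_ : κ ≤ (C * Λ) ^ (-C)) (l : List (ℝ × (ℝ × ℝ))) (_ : ∀ x ∈ l, 0 ≤ x.1 ∧ x.1 ≤ 1)
      (_ : (l.map fun x => x.1 * |x.2.1| ^ p).sum = κ)
      (_ : ((l.filter fun x => x.2.1 ≠ 0).map fun x => x.1).sum ≤ κ * Λ)
      (_ : (l.map fun x => x.1 * |x.2.2 - x.2.1| ^ p).sum ≤ κ * ε)
      (_ : (l.map fun x => x.1 * (x.2.2 - x.2.1) ^ 2).sum ≤ κ * Λ),
      (1 - η) * κ ≤ EE l (fun s => |s.2| ^ p) ∧ EE l (fun s => |s.2| ^ p) ≤ (1 + η) * κ := by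
  obtain ⟨Cp, hCp, herr⟩ := err_part p hp1
  set x : ℝ := η / 8 with hx
  have hx0 : 0 < x := by rw [hx]; linarith
  have hx1 : x < 1 / 8 := by rw [hx]; linarith
  set t : ℝ := (1 + x) ^ (1 / (p - 1)) - 1 with ht
  have ht0 : 0 < t := by
    have : 1 < (1 + x) ^ (1 / (p - 1)) :=
      Real.one_lt_rpow (by linarith) (by
        have : 0 < p - 1 := by linarith
        positivity)
    rw [ht]; linarith
  have hT : (1 + t) ^ (p - 1) = 1 + x := by
    have e : 1 + t = (1 + x) ^ (1 / (p - 1)) := by rw [ht]; ring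
    rw [e, ← Real.rpow_mul (by linarith)]
    have : 1 / (p - 1) * (p - 1) = 1 := by
      have : p - 1 ≠ 0 := by linarith
      field_simp
    rw [this, Real.rpow_one]
  set M : ℝ := (1 + 1 / t) ^ (p - 1) with hM
  have hM1 : 1 ≤ M := by
    rw [hM]
    apply Real.one_le_rpow _ (by linarith)
    have : 0 < 1 / t := by positivity
    linarith
  have hM0 : 0 < M := by linarith
  have hCp0 : 0 < Cp := by linarith
  set ε : ℝ := x / (M * Cp) with hε
  have hε0 : 0 < ε := by positivity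
  obtain ⟨C₁, hC₁, hC₁'⟩ := herr ε hε0
  have hlog : 0 < Real.log (1 + x) := Real.log_pos (by linarith)
  set δ : ℝ := Real.log (1 + x) / M with hδ
  have hδ0 : 0 < δ := by positivity
  refine ⟨ε, hε0, max C₁ (max (1 / x) (1 / δ)), hC₁.trans (le_max_left _ _), ?_⟩
  intro Λ hΛ κ hκ hκC l hl hmass hact herrp herr2
  set C : ℝ := max C₁ (max (1 / x) (1 / δ)) with hC
  have hCC₁ : C₁ ≤ C := le_max_left _ _
  have hCx : 1 / x ≤ C := (le_max_left _ _).trans (le_max_right _ _)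
  have hCδ : 1 / δ ≤ C := (le_max_right _ _).trans (le_max_right _ _)
  have hC1 : 1 ≤ C := hC₁.trans hCC₁
  have hκ₁ : κ ≤ (C₁ * Λ) ^ (-C₁) := hκC.trans (small_mono hC₁ hCC₁ hΛ)
  have s1 : κ * Λ ≤ x := small_mul hC1 hx0 hCx hΛ hκC
  have s2 : κ * Λ ≤ δ := small_mul hC1 hδ0 hCδ hΛ hκC
  -- the three lists
  set lb : List (ℝ × ℝ) := l.map fun y => (y.1, AddMonoidHom.fst ℝ ℝ y.2) with hlb
  set lr : List (ℝ × ℝ) :=
    l.map fun y => (y.1, (AddMonoidHom.snd ℝ ℝ - AddMonoidHom.fst ℝ ℝ) y.2) with hlr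
  have hlb' : ∀ y ∈ lb, 0 ≤ y.1 ∧ y.1 ≤ 1 := by
    intro y hy
    rw [hlb, List.mem_map] at hy
    obtain ⟨z, hz, rfl⟩ := hy
    exact hl z hz
  have hlr' : ∀ y ∈ lr, 0 ≤ y.1 ∧ y.1 ≤ 1 := by
    intro y hy
    rw [hlr, List.mem_map] at hy
    obtain ⟨z, hz, rfl⟩ := hy
    exact hl z hz
  have hB : EE lb (fun s => |s| ^ p) = EE l (fun s => |s.1| ^ p) := by
    rw [hlb, EE_map]; rfl
  have hR : EE lr (fun s => |s| ^ p) = EE l (fun s => |s.2 - s.1| ^ p) := by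
    rw [hlr, EE_map]; rfl
  have hmb : mass p lb = κ := by
    rw [← hmass, mass, hlb, List.map_map]; rfl
  have hab : act lb ≤ κ * Λ := by
    refine le_trans (le_of_eq ?_) hact
    rw [act, hlb, List.filter_map, List.map_map]; rfl
  have hmr : mass p lr ≤ κ * ε := by
    refine le_trans (le_of_eq ?_) herrp
    rw [mass, hlr, List.map_map]; rfl
  have hqr : qmass lr ≤ κ * Λ := by
    refine le_trans (le_of_eq ?_) herr2
    rw [qmass, hlr, List.map_map]; rfl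
  have hRle := hC₁' Λ hΛ κ hκ hκ₁ lr hlr' hmr hqr
  rw [hR] at hRle
  have hBlow := lower hp1.le lb hlb'
  rw [hmb, hB] at hBlow
  have hBup := upper_main hp1.le ht0 lb hlb'
  rw [hmb, hB, hT, ← hM] at hBup
  set U := EE l (fun s => |s.2| ^ p) with hU
  set B := EE l (fun s => |s.1| ^ p) with hBdef
  set R := EE l (fun s => |s.2 - s.1| ^ p) with hRdef
  have hU0 : 0 ≤ U := EE_nonneg hl (fun s => Real.rpow_nonneg (abs_nonneg _) _)
  have hMR : M * R ≤ x * κ := by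
    calc M * R ≤ M * (Cp * (κ * ε)) := mul_le_mul_of_nonneg_left hRle hM0.le
      _ = x * κ := by rw [hε]; field_simp
  have c1 : U ≤ (1 + x) * B + M * R := by
    have h := EE_mono hl (fun s : ℝ × ℝ => abs_add_rpow_le_weighted s.1 (s.2 - s.1) hp1.le ht0)
    rw [EE_add, EE_const_mul, EE_const_mul, hT, ← hM] at h
    have e : ∀ s : ℝ × ℝ, s.1 + (s.2 - s.1) = s.2 := fun s => by ring
    simp only [e] at h
    exact h
  have c2 : B ≤ (1 + x) * U + M * R := by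
    have h := EE_mono hl (fun s : ℝ × ℝ => abs_add_rpow_le_weighted s.2 (-(s.2 - s.1)) hp1.le ht0)
    rw [EE_add, EE_const_mul, EE_const_mul, hT, ← hM] at h
    have e : ∀ s : ℝ × ℝ, s.2 + -(s.2 - s.1) = s.1 := fun s => by ring
    simp only [e, abs_neg] at h
    exact h
  have hexp : Real.exp (M * act lb) ≤ 1 + x := by
    have h1 : M * act lb ≤ Real.log (1 + x) := by
      calc M * act lb ≤ M * (κ * Λ) := mul_le_mul_of_nonneg_left hab hM0.le
        _ ≤ M * δ := mul_le_mul_of_nonneg_left s2 hM0.le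
        _ = Real.log (1 + x) := by rw [hδ]; field_simp
    calc Real.exp (M * act lb) ≤ Real.exp (Real.log (1 + x)) := Real.exp_le_exp.2 h1
      _ = 1 + x := Real.exp_log (by linarith)
  have hBup' : B ≤ (1 + x) * ((1 + x) * κ) :=
    hBup.trans (mul_le_mul_of_nonneg_right hexp (by positivity))
  have hBlow' : (1 - x) * κ ≤ B := by
    refine le_trans ?_ hBlow
    apply mul_le_mul_of_nonneg_right _ hκ.le
    linarith
  have hηx : η = 8 * x := by rw [hx]; ring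
  rw [hηx]
  exact final_arith hx0 hx1 hκ hMR c1 c2 hBup' hBlow'

end Crest.Agent.R232
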