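import Crest.Agent.R232.EEX

/-! # R232 T7, part 1: pointwise inequalities for `|·|^p`. -/

set_option autoImplicit false

open Finset

namespace Crest.Agent.R232.X

theorem conv2 {p u v a b : ℝ} (hp : 1 ≤ p) (hu : 0 ≤ u) (hv : 0 ≤ v) (ha : 0 ≤ a) (hb : 0 ≤ b)
    (hab : a + b = 1) : (a * u + b * v) ^ p ≤ a * u ^ p + b * v ^ p := by
  simpa using (convexOn_rpow hp).2 (Set.mem_Ici.2 hu) (Set.mem_Ici.2 hv) ha hb hab

theorem conc2 {p u v a b : ℝ} (hp0 : 0 ≤ p) (hp : p ≤ 1) (hu : 0 ≤ u) (hv : 0 ≤ v) (ha : 0 ≤ a)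
    (hb : 0 ≤ b) (hab : a + b = 1) : a * u ^ p + b * v ^ p ≤ (a * u + b * v) ^ p := by
  simpa using (Real.concaveOn_rpow hp0 hp).2 (Set.mem_Ici.2 hu) (Set.mem_Ici.2 hv) ha hb hab

/-- `(x + y)^p ≤ (1 + t)^(p-1) x^p + (1 + 1/t)^(p-1) y^p` -/
theorem add_rpow_le_weighted {p t x y : ℝ} (hp : 1 ≤ p) (ht : 0 < t) (hx : 0 ≤ x) (hy : 0 ≤ y) :
    (x + y) ^ p ≤ (1 + t) ^ (p - 1) * x ^ p + (1 + 1 / t) ^ (p - 1) * y ^ p := by
  have h1t : 0 < 1 + t := by linarith
  have h1t' : 0 < 1 + 1 / t := by positivity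
  have hconv := conv2 hp (u := (1 + t) * x) (v := (1 + 1 / t) * y)
    (by positivity) (by positivity)
    (a := 1 / (1 + t)) (b := t / (1 + t)) (by positivity) (by positivity)
    (by field_simp)
  have e1 : 1 / (1 + t) * ((1 + t) * x) + t / (1 + t) * ((1 + 1 / t) * y) = x + y := by
    field_simp
    ring
  rw [e1, Real.mul_rpow h1t.le hx, Real.mul_rpow h1t'.le hy] at hconv
  have e2 : 1 / (1 + t) * ((1 + t) ^ p * x ^ p) = (1 + t) ^ (p - 1) * x ^ p := by
    rw [Real.rpow_sub_one h1t.ne']; ring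
  have e3 : t / (1 + t) * ((1 + 1 / t) ^ p * y ^ p) = (1 + 1 / t) ^ (p - 1) * y ^ p := by
    rw [Real.rpow_sub_one h1t'.ne']
    have : 1 + 1 / t = (1 + t) / t := by field_simp; ring
    rw [this]
    field_simp
  rw [e2, e3] at hconv
  exact hconv

theorem abs_add_rpow_le_weighted {p t : ℝ} (x y : ℝ) (hp : 1 ≤ p) (ht : 0 < t) :
    |x + y| ^ p ≤ (1 + t) ^ (p - 1) * |x| ^ p + (1 + 1 / t) ^ (p - 1) * |y| ^ p :=
  (Real.rpow_le_rpow (abs_nonneg _) (abs_add_le x y) (by linarith)).trans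
    (add_rpow_le_weighted hp ht (abs_nonneg _) (abs_nonneg _))

/-- tangent line inequality -/
theorem rpow_sub_le_tangent {p x y : ℝ} (hp : 1 < p) (hx : 0 ≤ x) (hy : 0 ≤ y) :
    x ^ p - y ^ p ≤ p * x ^ (p - 1) * (x - y) := by
  rcases hx.eq_or_lt with h | h
  · subst h
    rw [Real.zero_rpow (by linarith), Real.zero_rpow (by linarith)]
    have := Real.rpow_nonneg hy p
    simp; exact this
  · have hB := one_add_mul_self_le_rpow_one_add (s := y / x - 1) (by
      have := div_nonneg hy h.le; linarith) hp.le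
    have e : 1 + (y / x - 1) = y / x := by ring
    rw [e, Real.div_rpow hy h.le] at hB
    have hxp : 0 < x ^ p := Real.rpow_pos_of_pos h p
    rw [le_div_iff₀ hxp] at hB
    rw [Real.rpow_sub_one h.ne']
    have e2 : p * (x ^ p / x) * (x - y) = - ((p * (y / x - 1)) * x ^ p) := by
      field_simp; ring
    rw [e2]
    nlinarith

/-- the two-point sum is symmetric in the signs -/
theorem abs_two_point (s a : ℝ) (p : ℝ) :
    |s + a| ^ p + |s - a| ^ p = (|s| + |a|) ^ p + |(|s| - |a|)| ^ p := by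
  have key : ∀ s a : ℝ, 0 ≤ s → |s + a| ^ p + |s - a| ^ p = (|s| + |a|) ^ p + |(|s| - |a|)| ^ p := by
    intro s a hs
    rcases le_total 0 a with ha | ha
    · rw [abs_of_nonneg hs, abs_of_nonneg ha, abs_of_nonneg (add_nonneg hs ha)]
    · rw [abs_of_nonneg hs, abs_of_nonpos ha, abs_of_nonneg (a := s - a) (by linarith)]
      have : s - -a = s + a := by ring
      rw [this, add_comm]
      congr 1
  rcases le_total 0 s with hs | hs
  · exact key s a hs
  · have h := key (-s) a (by linarith)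
    rw [abs_neg] at h
    rw [← h, add_comm]
    congr 1
    · rw [← abs_neg]; congr 2; ring
    · rw [← abs_neg]; congr 2; ring

/-- one step inequality (iii): `(|s+b|^p + |s-b|^p)/2 ≥ |b|^p`. -/
theorem two_point_lower {p : ℝ} (hp : 1 ≤ p) (s b : ℝ) :
    |b| ^ p ≤ (|s + b| ^ p + |s - b| ^ p) / 2 := by
  have hconv := conv2 hp (u := |s + b|) (v := |s - b|) (abs_nonneg _) (abs_nonneg _)
    (a := 1 / 2) (b := 1 / 2) (by norm_num) (by norm_num) (by norm_num)
  have h1 : |b| ≤ 1 / 2 * |s + b| + 1 / 2 * |s - b| := by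
    have h := abs_sub (s + b) (s - b)
    have e : s + b - (s - b) = 2 * b := by ring
    rw [e, abs_mul, abs_of_pos (by norm_num : (0:ℝ) < 2)] at h
    linarith
  have h2 := Real.rpow_le_rpow (abs_nonneg b) h1 (by linarith : (0:ℝ) ≤ p)
  linarith

/-- one step inequality (i) for `1 < p ≤ 2`. -/
theorem two_point_upper_le_two {p : ℝ} (hp : 1 < p) (hp2 : p ≤ 2) (s a : ℝ) :
    (|s + a| ^ p + |s - a| ^ p) / 2 ≤ |s| ^ p + |a| ^ p := by
  have hθ0 : 0 ≤ p / 2 := by linarith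
  have hθ1 : p / 2 ≤ 1 := by linarith
  have key : ∀ x : ℝ, |x| ^ p = (x ^ 2) ^ (p / 2) := by
    intro x
    rw [← sq_abs, ← Real.rpow_natCast, ← Real.rpow_mul (abs_nonneg x)]
    congr 1
    push_cast; ring
  have hconc := conc2 hθ0 hθ1 (u := (s + a) ^ 2) (v := (s - a) ^ 2) (sq_nonneg _) (sq_nonneg _)
    (a := 1 / 2) (b := 1 / 2) (by norm_num) (by norm_num) (by norm_num)
  have e : 1 / 2 * (s + a) ^ 2 + 1 / 2 * (s - a) ^ 2 = s ^ 2 + a ^ 2 := by ring
  rw [e] at hconc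
  have h2 := Real.rpow_add_le_add_rpow (sq_nonneg s) (sq_nonneg a) hθ0 hθ1
  rw [key, key, key, key]
  linarith

/-- one step inequality (ii) for `2 ≤ p`. -/
theorem two_point_upper_two_le {p : ℝ} (hp : 2 ≤ p) (s a : ℝ) :
    (|s + a| ^ p + |s - a| ^ p) / 2 ≤
      |s| ^ p + 2 ^ p * p ^ 2 * (|a| ^ p + a ^ 2 * |s| ^ (p - 2)) := by
  rw [abs_two_point, ← sq_abs a]
  generalize hx : |s| = x
  generalize hy : |a| = y
  have hx0 : 0 ≤ x := hx ▸ abs_nonneg s
  have hy0 : 0 ≤ y := hy ▸ abs_nonneg a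
  clear hx hy
  have hxp : 0 ≤ x ^ p := Real.rpow_nonneg hx0 p
  have hyp : 0 ≤ y ^ p := Real.rpow_nonneg hy0 p
  have hxp2 : 0 ≤ x ^ (p - 2) := Real.rpow_nonneg hx0 _
  have h2p : 1 ≤ (2 : ℝ) ^ p := Real.one_le_rpow (by norm_num) (by linarith)
  have hp2 : 1 ≤ p ^ 2 := by nlinarith
  rcases le_total y x with hyx | hyx
  · -- `y ≤ x`: tangent lines
    rw [abs_of_nonneg (sub_nonneg.2 hyx)]
    have hxy0 : 0 ≤ x + y := by linarith
    have hxy0' : 0 ≤ x - y := by linarith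
    have t1 := rpow_sub_le_tangent (p := p) (by linarith) hxy0 hx0
    have t2 := rpow_sub_le_tangent (p := p) (by linarith) hxy0' hx0
    have e1 : x + y - x = y := by ring
    have e2 : x - y - x = -y := by ring
    rw [e1] at t1
    rw [e2] at t2
    -- second tangent
    have t3 : (x + y) ^ (p - 1) - (x - y) ^ (p - 1) ≤ (p - 1) * (x + y) ^ (p - 2) * (2 * y) := by
      rcases eq_or_lt_of_le hp with h2 | h2
      · subst h2
        norm_num
        linarith
      · have := rpow_sub_le_tangent (p := p - 1) (by linarith) hxy0 hxy0'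
        have e3 : p - 1 - 1 = p - 2 := by ring
        have e4 : x + y - (x - y) = 2 * y := by ring
        rw [e3, e4] at this
        exact this
    have t4 : (x + y) ^ (p - 2) ≤ 2 ^ (p - 2) * x ^ (p - 2) := by
      rw [← Real.mul_rpow (by norm_num) hx0]
      exact Real.rpow_le_rpow hxy0 (by linarith) (by linarith)
    have h2p2 : (2 : ℝ) ^ (p - 2) = 2 ^ p / 4 := by
      rw [Real.rpow_sub (by norm_num)]
      norm_num
    have t5 : (x + y) ^ p + (x - y) ^ p - 2 * x ^ p ≤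
        p * y * ((x + y) ^ (p - 1) - (x - y) ^ (p - 1)) := by linarith
    have t6 : p * y * ((x + y) ^ (p - 1) - (x - y) ^ (p - 1)) ≤
        p * y * ((p - 1) * (2 ^ (p - 2) * x ^ (p - 2)) * (2 * y)) := by
      apply mul_le_mul_of_nonneg_left _ (by positivity)
      refine t3.trans ?_
      apply mul_le_mul_of_nonneg_right _ (by positivity)
      exact mul_le_mul_of_nonneg_left t4 (by linarith)
    have t7 : p * y * ((p - 1) * (2 ^ (p - 2) * x ^ (p - 2)) * (2 * y)) ≤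
        2 * (2 ^ p * p ^ 2 * (y ^ 2 * x ^ (p - 2))) := by
      rw [h2p2]
      have e : p * y * ((p - 1) * (2 ^ p / 4 * x ^ (p - 2)) * (2 * y)) =
        (p * (p - 1) / 2) * (2 ^ p * (y ^ 2 * x ^ (p - 2))) := by ring
      rw [e]
      have e' : 2 * (2 ^ p * p ^ 2 * (y ^ 2 * x ^ (p - 2))) =
        (2 * p ^ 2) * (2 ^ p * (y ^ 2 * x ^ (p - 2))) := by ring
      rw [e']
      apply mul_le_mul_of_nonneg_right _ (by positivity)
      nlinarith
    have h8 : 0 ≤ 2 ^ p * p ^ 2 * y ^ p := by positivity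
    nlinarith
  · -- `x ≤ y`
    have h1 : (x + y) ^ p ≤ 2 ^ p * y ^ p := by
      rw [← Real.mul_rpow (by norm_num) hy0]
      exact Real.rpow_le_rpow (by linarith) (by linarith) (by linarith)
    have h2 : |x - y| ^ p ≤ 2 ^ p * y ^ p := by
      rw [← Real.mul_rpow (by norm_num) hy0]
      refine Real.rpow_le_rpow (abs_nonneg _) ?_ (by linarith)
      rw [abs_of_nonpos (by linarith)]
      linarith
    have h3 : 2 ^ p * y ^ p ≤ 2 ^ p * p ^ 2 * y ^ p := by
      have : 0 ≤ (2 : ℝ) ^ p * y ^ p := by positivity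
      nlinarith
    have h4 : 0 ≤ 2 ^ p * p ^ 2 * (y ^ 2 * x ^ (p - 2)) := by positivity
    linarith

/-- one step inequality (iv): main part -/
theorem two_point_main {p t : ℝ} (hp : 1 ≤ p) (ht : 0 < t) (s b : ℝ) :
    (|s + b| ^ p + |s - b| ^ p) / 2 ≤
      (1 + t) ^ (p - 1) * |b| ^ p + (1 + 1 / t) ^ (p - 1) * |s| ^ p := by
  have h1 := abs_add_rpow_le_weighted b s hp ht
  have h2 := abs_add_rpow_le_weighted (-b) s hp ht
  rw [abs_neg] at h2
  rw [add_comm b s] at h1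
  have e : -b + s = s - b := by ring
  rw [e] at h2
  linarith

/-- interpolation: `x^(p-2) ≤ lam^(p-2) + lam^(-2) x^p` for `p ≥ 2` -/
theorem interp {p lam x : ℝ} (hp : 2 ≤ p) (hl : 0 < lam) (hx : 0 ≤ x) :
    x ^ (p - 2) ≤ lam ^ (p - 2) + x ^ p / lam ^ 2 := by
  rcases le_total x lam with h | h
  · have h1 : x ^ (p - 2) ≤ lam ^ (p - 2) := Real.rpow_le_rpow hx h (by linarith)
    have h2 : 0 ≤ x ^ p / lam ^ 2 := by positivity
    linarith
  · have hx' : 0 < x := lt_of_lt_of_le hl h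
    have h1 : x ^ (p - 2) = x ^ p / x ^ 2 := by
      rw [Real.rpow_sub hx']
      norm_num
    have h2 : x ^ p / x ^ 2 ≤ x ^ p / lam ^ 2 := by
      apply div_le_div_of_nonneg_left (by positivity) (by positivity)
      exact pow_le_pow_left₀ hl.le h 2
    have h3 : 0 ≤ lam ^ (p - 2) := by positivity
    linarith

end Crest.Agent.R232.X
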