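import Crest.Agent.R232.T7a

/-! # R232 T7, part 2: moments of sums along a list. -/

set_option autoImplicit false

open Finset

namespace Crest.Agent.R232.X

/-- activity -/
noncomputable def act (l : List (ℝ × ℝ)) : ℝ := ((l.filter fun x => x.2 ≠ 0).map fun x => x.1).sum

/-- `p`-mass -/
noncomputable def mass (p : ℝ) (l : List (ℝ × ℝ)) : ℝ := (l.map fun x => x.1 * |x.2| ^ p).sum

/-- quadratic mass -/
noncomputable def qmass (l : List (ℝ × ℝ)) : ℝ := (l.map fun x => x.1 * x.2 ^ 2).sum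

theorem mass_cons (p : ℝ) (x : ℝ × ℝ) (l : List (ℝ × ℝ)) :
    mass p (x :: l) = x.1 * |x.2| ^ p + mass p l := by simp [mass]

theorem qmass_cons (x : ℝ × ℝ) (l : List (ℝ × ℝ)) :
    qmass (x :: l) = x.1 * x.2 ^ 2 + qmass l := by simp [qmass]

theorem act_cons_zero (q : ℝ) (l : List (ℝ × ℝ)) : act ((q, 0) :: l) = act l := by
  simp [act]

theorem act_cons_ne (x : ℝ × ℝ) (hx : x.2 ≠ 0) (l : List (ℝ × ℝ)) :
    act (x :: l) = x.1 + act l := by
  simp [act, hx]

theorem act_nonneg {l : List (ℝ × ℝ)} (hl : ∀ x ∈ l, 0 ≤ x.1 ∧ x.1 ≤ 1) : 0 ≤ act l := by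
  apply List.sum_nonneg
  intro y hy
  simp only [List.mem_map, List.mem_filter] at hy
  obtain ⟨x, ⟨hx, _⟩, rfl⟩ := hy
  exact (hl x hx).1

theorem mass_nonneg (p : ℝ) {l : List (ℝ × ℝ)} (hl : ∀ x ∈ l, 0 ≤ x.1 ∧ x.1 ≤ 1) :
    0 ≤ mass p l := by
  apply List.sum_nonneg
  intro y hy
  simp only [List.mem_map] at hy
  obtain ⟨x, hx, rfl⟩ := hy
  exact mul_nonneg (hl x hx).1 (Real.rpow_nonneg (abs_nonneg _) _)

theorem qmass_nonneg {l : List (ℝ × ℝ)} (hl : ∀ x ∈ l, 0 ≤ x.1 ∧ x.1 ≤ 1) :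
    0 ≤ qmass l := by
  apply List.sum_nonneg
  intro y hy
  simp only [List.mem_map] at hy
  obtain ⟨x, hx, rfl⟩ := hy
  exact mul_nonneg (hl x hx).1 (sq_nonneg _)

theorem EE_abs_nonneg (p : ℝ) {l : List (ℝ × ℝ)} (hl : ∀ x ∈ l, 0 ≤ x.1 ∧ x.1 ≤ 1) :
    0 ≤ EE l (fun s => |s| ^ p) :=
  EE_nonneg hl (fun _ => Real.rpow_nonneg (abs_nonneg _) _)

/-- `EE` of `x :: l` in terms of the two-point average -/
theorem EE_cons_two (x : ℝ × ℝ) (l : List (ℝ × ℝ)) (g : ℝ → ℝ) :
    EE (x :: l) g =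
      (1 - x.1) * EE l g + x.1 * EE l (fun s => (g (s + x.2) + g (s - x.2)) / 2) := by
  rw [EE_cons, EE_div_const, EE_add]
  ring

theorem EE_cons_zero (q : ℝ) (l : List (ℝ × ℝ)) (g : ℝ → ℝ) :
    EE ((q, 0) :: l) g = EE l g := by
  rw [EE_cons]
  simp only [add_zero, sub_zero]
  ring

theorem lower {p : ℝ} (hp : 1 ≤ p) (l : List (ℝ × ℝ)) (hl : ∀ x ∈ l, 0 ≤ x.1 ∧ x.1 ≤ 1) :
    (1 - act l) * mass p l ≤ EE l (fun s => |s| ^ p) := by
  induction l with
  | nil => simp [act, mass, Real.zero_rpow (by linarith : p ≠ 0)]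
  | cons x l ih =>
    have hl' := IsProb.tail hl
    have hx := IsProb.head hl
    have ih' := ih hl'
    obtain ⟨q, b⟩ := x
    simp only at hx
    by_cases hb : b = 0
    · subst hb
      rw [act_cons_zero, EE_cons_zero, mass_cons]
      simp only [abs_zero, Real.zero_rpow (by linarith : p ≠ 0), mul_zero, zero_add]
      exact ih'
    · rw [act_cons_ne _ hb, EE_cons_two, mass_cons]
      simp only
      have h1 : |b| ^ p ≤ EE l (fun s => (|s + b| ^ p + |s - b| ^ p) / 2) :=
        const_le_EE hl' (fun s => two_point_lower hp s b)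
      have h2 := mul_le_mul_of_nonneg_left h1 hx.1
      have h3 := mul_le_mul_of_nonneg_left ih' (sub_nonneg.2 hx.2)
      have hA := act_nonneg hl'
      have hM := mass_nonneg p hl'
      have hbp : 0 ≤ |b| ^ p := Real.rpow_nonneg (abs_nonneg _) _
      have h4 : (1 - (q + act l)) * mass p l ≤ (1 - q) * ((1 - act l) * mass p l) := by
        have : 0 ≤ q * act l * mass p l := by
          have := hx.1; positivity
        nlinarith
      have h5 : (1 - (q + act l)) * (q * |b| ^ p) ≤ q * |b| ^ p := by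
        have hq := hx.1
        have : 0 ≤ (q + act l) * (q * |b| ^ p) := by positivity
        nlinarith
      nlinarith

theorem upper_main {p t : ℝ} (hp : 1 ≤ p) (ht : 0 < t) (l : List (ℝ × ℝ))
    (hl : ∀ x ∈ l, 0 ≤ x.1 ∧ x.1 ≤ 1) :
    EE l (fun s => |s| ^ p) ≤
      Real.exp ((1 + 1 / t) ^ (p - 1) * act l) * ((1 + t) ^ (p - 1) * mass p l) := by
  set M : ℝ := (1 + 1 / t) ^ (p - 1) with hM
  set T : ℝ := (1 + t) ^ (p - 1) with hT
  have hM0 : 0 ≤ M := by positivity
  have hT0 : 0 ≤ T := by positivity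
  induction l with
  | nil => simp [act, mass, Real.zero_rpow (by linarith : p ≠ 0)]
  | cons x l ih =>
    have hl' := IsProb.tail hl
    have hx := IsProb.head hl
    have ih' := ih hl'
    obtain ⟨q, b⟩ := x
    simp only at hx
    by_cases hb : b = 0
    · subst hb
      rw [act_cons_zero, EE_cons_zero, mass_cons]
      simp only [abs_zero, Real.zero_rpow (by linarith : p ≠ 0), mul_zero, zero_add]
      exact ih'
    · rw [act_cons_ne _ hb, EE_cons_two, mass_cons]
      simp only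
      have h1 : EE l (fun s => (|s + b| ^ p + |s - b| ^ p) / 2) ≤
          T * |b| ^ p + M * EE l (fun s => |s| ^ p) := by
        have h := EE_mono hl' (fun s => two_point_main hp ht s b)
        rw [EE_add, EE_const, EE_const_mul] at h
        exact h
      have h2 := mul_le_mul_of_nonneg_left h1 hx.1
      set Y := EE l (fun s => |s| ^ p) with hY
      have hY0 : 0 ≤ Y := EE_abs_nonneg p hl'
      have hq := hx.1
      have hA := act_nonneg hl'
      have hMa := mass_nonneg p hl'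
      have hbp : 0 ≤ |b| ^ p := Real.rpow_nonneg (abs_nonneg _) _
      have h3 : (1 + q * M) * Y ≤ Real.exp (M * q) * (Real.exp (M * act l) * (T * mass p l)) := by
        apply mul_le_mul _ ih' hY0 (Real.exp_pos _).le
        have := Real.add_one_le_exp (M * q)
        linarith
      have h4 : T * (q * |b| ^ p) ≤ Real.exp (M * (q + act l)) * (T * (q * |b| ^ p)) := by
        have : 1 ≤ Real.exp (M * (q + act l)) := Real.one_le_exp (by positivity)
        have h0 : 0 ≤ T * (q * |b| ^ p) := by positivity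
        nlinarith
      have h5 : Real.exp (M * (q + act l)) = Real.exp (M * q) * Real.exp (M * act l) := by
        rw [← Real.exp_add]; congr 1; ring
      have h6 : Real.exp (M * (q + act l)) * (T * (q * |b| ^ p + mass p l)) =
          Real.exp (M * (q + act l)) * (T * (q * |b| ^ p)) +
          Real.exp (M * q) * (Real.exp (M * act l) * (T * mass p l)) := by
        rw [h5]; ring
      rw [h6]
      have h7 : 0 ≤ q * Y := by positivity
      nlinarith

theorem upper_le_two {p : ℝ} (hp : 1 < p) (hp2 : p ≤ 2) (l : List (ℝ × ℝ))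
    (hl : ∀ x ∈ l, 0 ≤ x.1 ∧ x.1 ≤ 1) :
    EE l (fun s => |s| ^ p) ≤ mass p l := by
  induction l with
  | nil => simp [mass, Real.zero_rpow (by linarith : p ≠ 0)]
  | cons x l ih =>
    have hl' := IsProb.tail hl
    have hx := IsProb.head hl
    have ih' := ih hl'
    obtain ⟨q, b⟩ := x
    simp only at hx
    rw [EE_cons_two, mass_cons]
    simp only
    have h1 : EE l (fun s => (|s + b| ^ p + |s - b| ^ p) / 2) ≤
        EE l (fun s => |s| ^ p) + |b| ^ p := by
      have h := EE_mono hl' (fun s => two_point_upper_le_two hp hp2 s b)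
      rw [EE_add, EE_const] at h
      exact h
    have h2 := mul_le_mul_of_nonneg_left h1 hx.1
    linarith

theorem upper_two_le {p lam : ℝ} (hp : 2 ≤ p) (hlam : 0 < lam) (l : List (ℝ × ℝ))
    (hl : ∀ x ∈ l, 0 ≤ x.1 ∧ x.1 ≤ 1) :
    EE l (fun s => |s| ^ p) ≤
      Real.exp (2 ^ p * p ^ 2 * (qmass l / lam ^ 2)) *
        (2 ^ p * p ^ 2 * (mass p l + qmass l * lam ^ (p - 2))) := by
  set A : ℝ := 2 ^ p * p ^ 2 with hA
  have hA0 : 0 ≤ A := by positivity
  induction l with
  | nil => simp [mass, qmass, Real.zero_rpow (by linarith : p ≠ 0)]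
  | cons x l ih =>
    have hl' := IsProb.tail hl
    have hx := IsProb.head hl
    have ih' := ih hl'
    obtain ⟨q, b⟩ := x
    simp only at hx
    rw [EE_cons_two, mass_cons, qmass_cons]
    simp only
    set Y := EE l (fun s => |s| ^ p) with hY
    have hY0 : 0 ≤ Y := EE_abs_nonneg p hl'
    have hq := hx.1
    have hMa := mass_nonneg p hl'
    have hQ := qmass_nonneg hl'
    have hbp : 0 ≤ |b| ^ p := Real.rpow_nonneg (abs_nonneg _) _
    have hlp : 0 ≤ lam ^ (p - 2) := Real.rpow_nonneg hlam.le _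
    have h1 : EE l (fun s => (|s + b| ^ p + |s - b| ^ p) / 2) ≤
        Y + A * (|b| ^ p + b ^ 2 * (lam ^ (p - 2) + Y / lam ^ 2)) := by
      have hpt : ∀ s : ℝ, (|s + b| ^ p + |s - b| ^ p) / 2 ≤
          |s| ^ p + A * (|b| ^ p + b ^ 2 * (lam ^ (p - 2) + |s| ^ p / lam ^ 2)) := by
        intro s
        refine (two_point_upper_two_le hp s b).trans ?_
        have h := interp hp hlam (abs_nonneg s)
        have h' := mul_le_mul_of_nonneg_left h (sq_nonneg b)
        have : A * (|b| ^ p + b ^ 2 * |s| ^ (p - 2)) ≤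
            A * (|b| ^ p + b ^ 2 * (lam ^ (p - 2) + |s| ^ p / lam ^ 2)) :=
          mul_le_mul_of_nonneg_left (by linarith) hA0
        linarith
      have h := EE_mono hl' hpt
      refine h.trans (le_of_eq ?_)
      rw [EE_add, EE_const_mul, EE_add, EE_const, EE_const_mul, EE_add, EE_const, EE_div_const]
    have h2 := mul_le_mul_of_nonneg_left h1 hq
    -- abbreviations
    set v : ℝ := q * b ^ 2 / lam ^ 2 with hv
    have hv0 : 0 ≤ v := by positivity
    have e1 : (q * b ^ 2 + qmass l) / lam ^ 2 = v + qmass l / lam ^ 2 := by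
      rw [hv]; ring
    rw [e1]
    have h3 : (1 + A * v) * Y ≤ Real.exp (A * v) *
        (Real.exp (A * (qmass l / lam ^ 2)) * (A * (mass p l + qmass l * lam ^ (p - 2)))) := by
      apply mul_le_mul _ ih' hY0 (Real.exp_pos _).le
      have := Real.add_one_le_exp (A * v)
      linarith
    have h5 : Real.exp (A * (v + qmass l / lam ^ 2)) =
        Real.exp (A * v) * Real.exp (A * (qmass l / lam ^ 2)) := by
      rw [← Real.exp_add]; congr 1; ring
    have h4 : A * (q * |b| ^ p + q * b ^ 2 * lam ^ (p - 2)) ≤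
        Real.exp (A * (v + qmass l / lam ^ 2)) *
          (A * (q * |b| ^ p + q * b ^ 2 * lam ^ (p - 2))) := by
      have : 1 ≤ Real.exp (A * (v + qmass l / lam ^ 2)) := Real.one_le_exp (by positivity)
      have h0 : 0 ≤ A * (q * |b| ^ p + q * b ^ 2 * lam ^ (p - 2)) := by positivity
      nlinarith
    have h6 : Real.exp (A * (v + qmass l / lam ^ 2)) *
        (A * (q * |b| ^ p + mass p l + (q * b ^ 2 + qmass l) * lam ^ (p - 2))) =
        Real.exp (A * (v + qmass l / lam ^ 2)) *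
          (A * (q * |b| ^ p + q * b ^ 2 * lam ^ (p - 2))) +
        Real.exp (A * v) * (Real.exp (A * (qmass l / lam ^ 2)) *
          (A * (mass p l + qmass l * lam ^ (p - 2)))) := by
      rw [h5]; ring
    rw [h6]
    have h7 : q * (Y + A * (|b| ^ p + b ^ 2 * (lam ^ (p - 2) + Y / lam ^ 2))) =
        q * Y + A * (q * |b| ^ p + q * b ^ 2 * lam ^ (p - 2)) + A * v * Y := by
      rw [hv]; ring
    rw [h7] at h2
    linarith

/-- monotonicity of the smallness condition -/
theorem small_mono {C C' Λ : ℝ} (hC : 1 ≤ C) (hCC : C ≤ C') (hΛ : 1 ≤ Λ) :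
    (C' * Λ) ^ (-C') ≤ (C * Λ) ^ (-C) := by
  have h1 : 1 ≤ C' * Λ := by nlinarith
  calc (C' * Λ) ^ (-C') ≤ (C' * Λ) ^ (-C) := Real.rpow_le_rpow_of_exponent_le h1 (by linarith)
    _ ≤ (C * Λ) ^ (-C) := by
        apply Real.rpow_le_rpow_of_nonpos (by positivity) _ (by linarith)
        exact mul_le_mul_of_nonneg_right hCC (by linarith)

theorem small_mul {C Λ κ δ : ℝ} (hC : 1 ≤ C) (hδ : 0 < δ) (hCδ : 1 / δ ≤ C) (hΛ : 1 ≤ Λ)
    (hκ : κ ≤ (C * Λ) ^ (-C)) : κ * Λ ≤ δ := by
  have hCΛ : 1 ≤ C * Λ := by nlinarith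
  have h1 : (C * Λ) ^ (-C) ≤ (C * Λ) ^ (-1 : ℝ) :=
    Real.rpow_le_rpow_of_exponent_le hCΛ (by linarith)
  rw [Real.rpow_neg_one] at h1
  have h2 : κ * Λ ≤ (C * Λ)⁻¹ * Λ := mul_le_mul_of_nonneg_right (hκ.trans h1) (by linarith)
  have h3 : (C * Λ)⁻¹ * Λ = 1 / C := by
    have : Λ ≠ 0 := by linarith
    have : C ≠ 0 := by linarith
    field_simp
  have h4 : 1 / C ≤ δ := by
    rw [div_le_iff₀ hδ] at hCδ
    rw [div_le_iff₀ (by linarith)]
    linarith
  linarith

end Crest.Agent.R232.X
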