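import Crest.Agent.R232.Defs

/-! R232 T7c: exponential moments (helper507). -/

set_option autoImplicit false

namespace Crest.Agent.R232

theorem EE_add' {V : Type*} [AddCommGroup V] (l : List (ℝ × V)) (f g : V → ℝ) :
    EE l (fun s => f s + g s) = EE l f + EE l g := by
  induction l generalizing f g with
  | nil => rfl
  | cons x l ih =>
    obtain ⟨q, a⟩ := x
    simp only [EE]
    rw [ih, ih, ih]
    ring

theorem EE_const_mul' {V : Type*} [AddCommGroup V] (l : List (ℝ × V)) (c : ℝ) (f : V → ℝ) :
    EE l (fun s => c * f s) = c * EE l f := by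
  induction l generalizing f with
  | nil => rfl
  | cons x l ih =>
    obtain ⟨q, a⟩ := x
    simp only [EE]
    rw [ih, ih, ih]
    ring

theorem cosh_le_one_add_sq {x : ℝ} (hx : |x| ≤ 1) : Real.cosh x ≤ 1 + x ^ 2 := by
  have h1 := Real.cosh_le_exp_half_sq x
  have h2 : |x ^ 2 / 2| ≤ 1 := by
    rw [abs_of_nonneg (by positivity)]
    have : x ^ 2 ≤ 1 := by
      rw [← sq_abs]
      exact pow_le_one₀ (abs_nonneg x) hx
    linarith
  have h3 := Real.abs_exp_sub_one_le h2
  rw [abs_of_nonneg (by positivity : (0:ℝ) ≤ x ^ 2 / 2)] at h3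
  have h4 := le_abs_self (Real.exp (x ^ 2 / 2) - 1)
  linarith

/-- T7c: exponential moments. -/
theorem cosh_moment (l : List (ℝ × ℝ)) (hl : ∀ x ∈ l, 0 ≤ x.1 ∧ x.1 ≤ 1) (t : ℝ)
    (ht : ∀ x ∈ l, |t * x.2| ≤ 1) :
    EE l (fun s => Real.cosh (t * s)) ≤ Real.exp (t ^ 2 * (l.map fun x => x.1 * x.2 ^ 2).sum) := by
  induction l with
  | nil => simp [EE]
  | cons x l ih =>
    obtain ⟨q, a⟩ := x
    have ih' := ih (fun x hx => hl x (List.mem_cons_of_mem _ hx))
      (fun x hx => ht x (List.mem_cons_of_mem _ hx))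
    have hq := hl (q, a) (by simp)
    have ha := ht (q, a) (by simp)
    simp only at hq ha
    have key : EE ((q, a) :: l) (fun s => Real.cosh (t * s)) =
        (1 - q + q * Real.cosh (t * a)) * EE l (fun s => Real.cosh (t * s)) := by
      simp only [EE]
      have h1 : EE l (fun s => Real.cosh (t * (s + a))) + EE l (fun s => Real.cosh (t * (s - a))) =
          2 * Real.cosh (t * a) * EE l (fun s => Real.cosh (t * s)) := by
        rw [← EE_add', ← EE_const_mul']
        congr 1
        funext s
        rw [mul_add, mul_sub, Real.cosh_add, Real.cosh_sub]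
        ring
      linear_combination (q / 2) * h1
    have h0 : 0 ≤ 1 - q + q * Real.cosh (t * a) := by
      have := Real.cosh_pos (t * a)
      have := mul_nonneg hq.1 this.le
      linarith [hq.2]
    have h2 : 1 - q + q * Real.cosh (t * a) ≤ Real.exp (t ^ 2 * (q * a ^ 2)) := by
      have h3 := cosh_le_one_add_sq ha
      have h4 := Real.add_one_le_exp (t ^ 2 * (q * a ^ 2))
      have h5 := mul_le_mul_of_nonneg_left h3 hq.1
      nlinarith
    rw [key]
    simp only [List.map_cons, List.sum_cons]
    rw [mul_add, Real.exp_add]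
    exact (mul_le_mul_of_nonneg_left ih' h0).trans (mul_le_mul_of_nonneg_right h2 (Real.exp_pos _).le)

end Crest.Agent.R232
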