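import Crest.Agent.R232.EE

/-! T8: sampling by a potential function (R232). -/

set_option autoImplicit false

open Finset

namespace Crest.Agent.R232

section

variable {V : Type*} [AddCommGroup V] {E : Type*} [Fintype E]

/-- the potential -/
noncomputable def pot (t : ℝ) (Y : E → V → ℝ) (me : E → ℝ) (j : ℕ) (s : Fin j → V) : ℝ :=
  ∑ e, ((∏ i, (1 + t * Y e (s i))) * Real.exp (-(t * me e * j)) +
    (∏ i, (1 - t * Y e (s i))) * Real.exp (t * me e * j))

omit [AddCommGroup V] in
theorem pot_zero (t : ℝ) (Y : E → V → ℝ) (me : E → ℝ) (s : Fin 0 → V) :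
    pot t Y me 0 s = 2 * Fintype.card E := by
  simp only [pot, Finset.univ_eq_empty, Finset.prod_empty, Nat.cast_zero, mul_zero, neg_zero,
    Real.exp_zero, mul_one, Finset.sum_const, Finset.card_univ, nsmul_eq_mul]
  ring

omit [AddCommGroup V] in
theorem pot_pos (t : ℝ) (ht0 : 0 < t) (ht : t ≤ 1 / 2) (Y : E → V → ℝ) [Nonempty E]
    (hY0 : ∀ e s, 0 ≤ Y e s) (hY1 : ∀ e s, Y e s ≤ 1) (me : E → ℝ) (j : ℕ) (s : Fin j → V) :
    0 < pot t Y me j s := by
  apply Finset.sum_pos _ Finset.univ_nonempty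
  intro e _
  apply add_pos
  · apply mul_pos _ (Real.exp_pos _)
    apply Finset.prod_pos
    intro i _
    have := mul_nonneg ht0.le (hY0 e (s i))
    linarith
  · apply mul_pos _ (Real.exp_pos _)
    apply Finset.prod_pos
    intro i _
    have := mul_le_mul_of_nonneg_left (hY1 e (s i)) ht0.le
    linarith

theorem sampling_step (l : List (ℝ × V))
    (hl : ∀ x ∈ l, 0 ≤ x.1 ∧ x.1 ≤ 1) [Nonempty E] (Y : E → V → ℝ)
    (hY0 : ∀ e s, 0 ≤ Y e s) (hY1 : ∀ e s, Y e s ≤ 1) (b : V → ℝ) (hb : ∀ s, 0 ≤ b s)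
    (t : ℝ) (ht0 : 0 < t) (ht : t ≤ 1 / 2) (hβ : EE l b ≤ 1 / 4)
    (j : ℕ) (s : Fin j → V) :
    ∃ x : V, b x < 1 ∧
      pot t Y (fun e => EE l (Y e)) (j + 1) (Fin.snoc (α := fun _ => V) s x) ≤
        (1 + 2 * EE l b) * pot t Y (fun e => EE l (Y e)) j s := by
  set me : E → ℝ := fun e => EE l (Y e) with hme
  set P := pot t Y me j s with hP
  have hPpos : 0 < P := pot_pos t ht0 ht Y hY0 hY1 me j s
  set u : E → ℝ := fun e => (∏ i, (1 + t * Y e (s i))) * Real.exp (-(t * me e * j)) with hu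
  set w : E → ℝ := fun e => (∏ i, (1 - t * Y e (s i))) * Real.exp (t * me e * j) with hw
  have hu0 : ∀ e, 0 ≤ u e := by
    intro e
    apply mul_nonneg _ (Real.exp_pos _).le
    apply Finset.prod_nonneg
    intro i _
    have := mul_nonneg ht0.le (hY0 e (s i))
    linarith
  have hw0 : ∀ e, 0 ≤ w e := by
    intro e
    apply mul_nonneg _ (Real.exp_pos _).le
    apply Finset.prod_nonneg
    intro i _
    have := mul_le_mul_of_nonneg_left (hY1 e (s i)) ht0.le
    linarith
  have hsnoc : ∀ x, pot t Y me (j + 1) (Fin.snoc (α := fun _ => V) s x) =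
      ∑ e, (u e * Real.exp (-(t * me e)) * (1 + t * Y e x) +
        w e * Real.exp (t * me e) * (1 - t * Y e x)) := by
    intro x
    unfold pot
    apply Finset.sum_congr rfl
    intro e _
    rw [Fin.prod_univ_castSucc, Fin.prod_univ_castSucc]
    simp only [Fin.snoc_castSucc, Fin.snoc_last]
    have e1 : Real.exp (-(t * me e * ((j + 1 : ℕ) : ℝ))) =
        Real.exp (-(t * me e * j)) * Real.exp (-(t * me e)) := by
      rw [← Real.exp_add]; congr 1; push_cast; ring
    have e2 : Real.exp (t * me e * ((j + 1 : ℕ) : ℝ)) =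
        Real.exp (t * me e * j) * Real.exp (t * me e) := by
      rw [← Real.exp_add]; congr 1; push_cast; ring
    rw [e1, e2]
    simp only [hu, hw]
    ring
  have hexp : EE l (fun x => pot t Y me (j + 1) (Fin.snoc (α := fun _ => V) s x)) ≤ P := by
    simp only [hsnoc]
    rw [EE_sum]
    have hPsum : P = ∑ e, (u e + w e) := by rw [hP]; rfl
    rw [hPsum]
    apply Finset.sum_le_sum
    intro e _
    rw [EE_add, EE_smul, EE_smul, EE_add, EE_sub, EE_const, EE_smul]
    have h1 : 1 + t * me e ≤ Real.exp (t * me e) := by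
      have := Real.add_one_le_exp (t * me e); linarith
    have h2 : 1 - t * me e ≤ Real.exp (-(t * me e)) := by
      have := Real.add_one_le_exp (-(t * me e)); linarith
    have hpos1 : 0 < Real.exp (-(t * me e)) := Real.exp_pos _
    have hpos2 : 0 < Real.exp (t * me e) := Real.exp_pos _
    have hmul : Real.exp (-(t * me e)) * Real.exp (t * me e) = 1 := by
      rw [← Real.exp_add]; simp
    have k1 : u e * Real.exp (-(t * me e)) * (1 + t * me e) ≤ u e := by
      calc u e * Real.exp (-(t * me e)) * (1 + t * me e)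
          ≤ u e * Real.exp (-(t * me e)) * Real.exp (t * me e) :=
            mul_le_mul_of_nonneg_left h1 (mul_nonneg (hu0 e) hpos1.le)
        _ = u e := by rw [mul_assoc, hmul, mul_one]
    have k2 : w e * Real.exp (t * me e) * (1 - t * me e) ≤ w e := by
      calc w e * Real.exp (t * me e) * (1 - t * me e)
          ≤ w e * Real.exp (t * me e) * Real.exp (-(t * me e)) :=
            mul_le_mul_of_nonneg_left h2 (mul_nonneg (hw0 e) hpos2.le)
        _ = w e := by rw [mul_assoc, mul_comm (Real.exp (t * me e)), hmul, mul_one]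
    exact add_le_add k1 k2
  obtain ⟨x, hx⟩ := EE_exists_le l hl
    (fun x => pot t Y me (j + 1) (Fin.snoc (α := fun _ => V) s x) * P⁻¹ + 2 * b x)
  rw [EE_add, EE_mul_const, EE_smul] at hx
  have hle : EE l (fun x => pot t Y me (j + 1) (Fin.snoc (α := fun _ => V) s x)) * P⁻¹ ≤ 1 := by
    rw [← div_eq_mul_inv, div_le_one hPpos]; exact hexp
  have hx2 : pot t Y me (j + 1) (Fin.snoc (α := fun _ => V) s x) * P⁻¹ + 2 * b x ≤
      1 + 2 * EE l b := by linarith
  have hpp : 0 < pot t Y me (j + 1) (Fin.snoc (α := fun _ => V) s x) * P⁻¹ :=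
    mul_pos (pot_pos t ht0 ht Y hY0 hY1 me _ _) (inv_pos.mpr hPpos)
  refine ⟨x, by linarith, ?_⟩
  have hbx := hb x
  have h3 : pot t Y me (j + 1) (Fin.snoc (α := fun _ => V) s x) * P⁻¹ ≤ 1 + 2 * EE l b := by
    linarith
  rwa [← div_eq_mul_inv, div_le_iff₀ hPpos] at h3

theorem sampling_iter (l : List (ℝ × V))
    (hl : ∀ x ∈ l, 0 ≤ x.1 ∧ x.1 ≤ 1) [Nonempty E] (Y : E → V → ℝ)
    (hY0 : ∀ e s, 0 ≤ Y e s) (hY1 : ∀ e s, Y e s ≤ 1) (b : V → ℝ) (hb : ∀ s, 0 ≤ b s)
    (t : ℝ) (ht0 : 0 < t) (ht : t ≤ 1 / 2) (hβ : EE l b ≤ 1 / 4) (j : ℕ) :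
    ∃ s : Fin j → V, (∀ i, b (s i) < 1) ∧
      pot t Y (fun e => EE l (Y e)) j s ≤ (1 + 2 * EE l b) ^ j * (2 * Fintype.card E) := by
  induction j with
  | zero => exact ⟨Fin.elim0, fun i => i.elim0, by rw [pot_zero]; simp⟩
  | succ j ih =>
    obtain ⟨s, hs1, hs2⟩ := ih
    obtain ⟨x, hx1, hx2⟩ := sampling_step l hl Y hY0 hY1 b hb t ht0 ht hβ j s
    refine ⟨Fin.snoc (α := fun _ => V) s x, ?_, ?_⟩
    · intro i
      refine Fin.lastCases ?_ (fun i => ?_) i
      · simpa using hx1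
      · simpa using hs1 i
    · refine hx2.trans ?_
      have h0 : 0 ≤ 1 + 2 * EE l b := by
        have := EE_nonneg l hl b hb
        linarith
      calc (1 + 2 * EE l b) * pot t Y (fun e => EE l (Y e)) j s
          ≤ (1 + 2 * EE l b) * ((1 + 2 * EE l b) ^ j * (2 * Fintype.card E)) :=
            mul_le_mul_of_nonneg_left hs2 h0
        _ = (1 + 2 * EE l b) ^ (j + 1) * (2 * Fintype.card E) := by ring

end

theorem log_one_add_ge {x : ℝ} (hx : 0 ≤ x) : x - x ^ 2 / 2 ≤ Real.log (1 + x) := by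
  rw [Real.le_log_iff_exp_le (by linarith)]
  -- exp (x - x²/2) ≤ 1 + x
  have hmono : MonotoneOn (fun y : ℝ => (1 + y) * Real.exp (-(y - y ^ 2 / 2))) (Set.Ici 0) := by
    apply monotoneOn_of_deriv_nonneg (convex_Ici 0)
    · fun_prop
    · fun_prop
    · intro y hy
      rw [interior_Ici] at hy
      have hd : HasDerivAt (fun y : ℝ => (1 + y) * Real.exp (-(y - y ^ 2 / 2)))
          (1 * Real.exp (-(y - y ^ 2 / 2)) +
            (1 + y) * (Real.exp (-(y - y ^ 2 / 2)) * (-(1 - (2 * y) / 2)))) y := by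
        have h1 : HasDerivAt (fun y : ℝ => 1 + y) 1 y := by
          simpa using (hasDerivAt_id y).const_add 1
        have h2 : HasDerivAt (fun y : ℝ => -(y - y ^ 2 / 2)) (-(1 - (2 * y) / 2)) y := by
          have h3 : HasDerivAt (fun y : ℝ => y ^ 2 / 2) ((2 * y) / 2) y := by
            have := (hasDerivAt_pow 2 y).div_const 2
            simpa using this
          exact ((hasDerivAt_id y).sub h3).neg
        exact h1.mul h2.exp
      rw [hd.deriv]
      have hy0 : (0:ℝ) < y := hy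
      have : 1 * Real.exp (-(y - y ^ 2 / 2)) +
            (1 + y) * (Real.exp (-(y - y ^ 2 / 2)) * (-(1 - (2 * y) / 2))) =
          Real.exp (-(y - y ^ 2 / 2)) * y ^ 2 := by ring
      rw [this]
      positivity
  have h := hmono (Set.mem_Ici.mpr le_rfl) (Set.mem_Ici.mpr hx) hx
  simp only [add_zero, one_mul] at h
  have h0 : Real.exp (-((0:ℝ) - 0 ^ 2 / 2)) = 1 := by norm_num
  rw [h0] at h
  have hpos : 0 < Real.exp (x - x ^ 2 / 2) := Real.exp_pos _
  have hmul : Real.exp (-(x - x ^ 2 / 2)) * Real.exp (x - x ^ 2 / 2) = 1 := by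
    rw [← Real.exp_add]; simp
  calc Real.exp (x - x ^ 2 / 2) = 1 * Real.exp (x - x ^ 2 / 2) := by ring
    _ ≤ ((1 + x) * Real.exp (-(x - x ^ 2 / 2))) * Real.exp (x - x ^ 2 / 2) :=
        mul_le_mul_of_nonneg_right h hpos.le
    _ = 1 + x := by rw [mul_assoc, hmul, mul_one]

theorem neg_log_one_sub_le {x : ℝ} (hx : 0 ≤ x) (hx2 : x ≤ 1 / 2) :
    - Real.log (1 - x) ≤ x + x ^ 2 := by
  have h1 : 0 < 1 - x := by linarith
  rw [neg_le, Real.le_log_iff_exp_le h1]
  -- exp (-(x + x²)) ≤ 1 - x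
  have h2 : Real.exp (-(x + x ^ 2)) = (Real.exp (x + x ^ 2))⁻¹ := Real.exp_neg _
  rw [h2, inv_le_comm₀ (Real.exp_pos _) h1]
  have hq := Real.quadratic_le_exp_of_nonneg (x := x + x ^ 2) (by positivity)
  refine le_trans ?_ hq
  rw [inv_le_iff_one_le_mul₀ h1]
  have : (1 + (x + x ^ 2) + (x + x ^ 2) ^ 2 / 2) * (1 - x) - 1 =
    x ^ 2 * (1 / 2 - (1/2) * x ^ 1 - (1/2) * x ^ 2 - (1/2) * x ^ 3) := by ring
  have h3 : 0 ≤ x ^ 2 * (1 / 2 - (1/2) * x ^ 1 - (1/2) * x ^ 2 - (1/2) * x ^ 3) := by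
    apply mul_nonneg (sq_nonneg x)
    nlinarith [mul_nonneg hx hx, mul_nonneg (mul_nonneg hx hx) hx, mul_nonneg hx (sub_nonneg.mpr hx2),
      mul_nonneg (mul_nonneg hx hx) (sub_nonneg.mpr hx2)]
  linarith

set_option maxHeartbeats 1000000 in
/-- T8: sampling (derandomised Chernoff bound by a potential function). -/
theorem sampling {V : Type*} [AddCommGroup V] (l : List (ℝ × V))
    (hl : ∀ x ∈ l, 0 ≤ x.1 ∧ x.1 ≤ 1) {E : Type*} [Fintype E] [Nonempty E] (Y : E → V → ℝ)
    (hY0 : ∀ e s, 0 ≤ Y e s) (hY1 : ∀ e s, Y e s ≤ 1) (b : V → ℝ) (hb : ∀ s, 0 ≤ b s)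
    (η : ℝ) (hη : 0 < η) (hη1 : η ≤ 1) (m : ℝ) (hm : 0 < m) (hmY : ∀ e, m ≤ EE l (Y e))
    (D : ℕ) (hD0 : 0 < D) (hD : 4 * Real.log (4 * Fintype.card E) / (η ^ 2 * m) ≤ D)
    (hbD : EE l b ≤ 1 / (4 * D)) :
    ∃ s : Fin D → V, (∀ j, b (s j) < 1) ∧ ∀ e,
      (1 - η) * (D * EE l (Y e)) ≤ ∑ j, Y e (s j) ∧
        ∑ j, Y e (s j) ≤ (1 + η) * (D * EE l (Y e)) := by
  have hD1 : (1:ℝ) ≤ D := by exact_mod_cast hD0
  have hDpos : (0:ℝ) < D := by linarith
  have hb0 : 0 ≤ EE l b := EE_nonneg l hl b hb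
  have hβ : EE l b ≤ 1 / 4 := by
    refine hbD.trans ?_
    apply one_div_le_one_div_of_le (by norm_num)
    linarith
  set t := η / 2 with ht
  have ht0 : 0 < t := by positivity
  have ht2 : t ≤ 1 / 2 := by rw [ht]; linarith
  obtain ⟨s, hs1, hs2⟩ := sampling_iter l hl Y hY0 hY1 b hb t ht0 ht2 hβ D
  refine ⟨s, hs1, ?_⟩
  have hcard : (1:ℝ) ≤ Fintype.card E := by exact_mod_cast Fintype.card_pos
  -- bound of the final potential
  have hpot : pot t Y (fun e => EE l (Y e)) D s ≤ 4 * Fintype.card E := by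
    refine hs2.trans ?_
    have h1 : (1 + 2 * EE l b) ^ D ≤ 2 := by
      have h2 : (1 + 2 * EE l b) ^ D ≤ Real.exp (1 / 2) := by
        calc (1 + 2 * EE l b) ^ D ≤ (Real.exp (2 * EE l b)) ^ D := by
              apply pow_le_pow_left₀ (by linarith)
              have := Real.add_one_le_exp (2 * EE l b); linarith
          _ = Real.exp (D * (2 * EE l b)) := by rw [← Real.exp_nat_mul]
          _ ≤ Real.exp (1 / 2) := by
              apply Real.exp_le_exp.mpr
              have h3 : (D:ℝ) * EE l b ≤ D * (1 / (4 * D)) := mul_le_mul_of_nonneg_left hbD hDpos.le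
              have h4 : (D:ℝ) * (1 / (4 * D)) = 1 / 4 := by field_simp
              linarith
      have h5 : Real.exp (1 / 2) ≤ 2 := by
        have h6 : Real.exp (1 / 2) ^ 2 = Real.exp 1 := by
          rw [← Real.exp_nat_mul]; norm_num
        have h7 := Real.exp_one_lt_d9
        have h8 : Real.exp (1/2) ^ 2 ≤ 2 ^ 2 := by rw [h6]; linarith
        exact le_of_sq_le_sq h8 (by norm_num)
      linarith
    calc (1 + 2 * EE l b) ^ D * (2 * (Fintype.card E : ℝ)) ≤ 2 * (2 * Fintype.card E) := by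
          apply mul_le_mul_of_nonneg_right h1; positivity
      _ = 4 * Fintype.card E := by ring
  intro e
  set me := EE l (Y e) with hme
  have hme0 : 0 < me := lt_of_lt_of_le hm (hmY e)
  set Lg := Real.log (4 * Fintype.card E) with hLg
  have hLg0 : 0 < 4 * (Fintype.card E : ℝ) := by positivity
  -- each of the two products is bounded
  have hterm : (∏ i, (1 + t * Y e (s i))) * Real.exp (-(t * me * D)) +
      (∏ i, (1 - t * Y e (s i))) * Real.exp (t * me * D) ≤ 4 * Fintype.card E := by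
    refine le_trans ?_ hpot
    unfold pot
    refine Finset.single_le_sum (f := fun e => ((∏ i, (1 + t * Y e (s i))) *
      Real.exp (-(t * EE l (Y e) * D)) + (∏ i, (1 - t * Y e (s i))) *
      Real.exp (t * EE l (Y e) * D))) ?_ (Finset.mem_univ e)
    intro e' _
    apply add_nonneg
    · apply mul_nonneg _ (Real.exp_pos _).le
      apply Finset.prod_nonneg
      intro i _
      have := mul_nonneg ht0.le (hY0 e' (s i))
      linarith
    · apply mul_nonneg _ (Real.exp_pos _).le
      apply Finset.prod_nonneg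
      intro i _
      have := mul_le_mul_of_nonneg_left (hY1 e' (s i)) ht0.le
      linarith
  have hA0 : 0 < ∏ i, (1 + t * Y e (s i)) := by
    apply Finset.prod_pos
    intro i _
    have := mul_nonneg ht0.le (hY0 e (s i))
    linarith
  have hB0 : 0 < ∏ i, (1 - t * Y e (s i)) := by
    apply Finset.prod_pos
    intro i _
    have := mul_le_mul_of_nonneg_left (hY1 e (s i)) ht0.le
    linarith
  have hA : (∏ i, (1 + t * Y e (s i))) * Real.exp (-(t * me * D)) ≤ 4 * Fintype.card E := by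
    have := mul_pos hB0 (Real.exp_pos (t * me * D))
    linarith
  have hB : (∏ i, (1 - t * Y e (s i))) * Real.exp (t * me * D) ≤ 4 * Fintype.card E := by
    have := mul_pos hA0 (Real.exp_pos (-(t * me * D)))
    linarith
  have hA' : ∑ i, Real.log (1 + t * Y e (s i)) ≤ t * me * D + Lg := by
    have h1 := Real.log_le_log (mul_pos hA0 (Real.exp_pos _)) hA
    rw [Real.log_mul hA0.ne' (Real.exp_pos _).ne', Real.log_exp, Real.log_prod] at h1
    · linarith
    · intro i _
      have := mul_nonneg ht0.le (hY0 e (s i))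
      linarith
  have hB' : ∑ i, Real.log (1 - t * Y e (s i)) ≤ - (t * me * D) + Lg := by
    have h1 := Real.log_le_log (mul_pos hB0 (Real.exp_pos _)) hB
    rw [Real.log_mul hB0.ne' (Real.exp_pos _).ne', Real.log_exp, Real.log_prod] at h1
    · linarith
    · intro i _
      have := mul_le_mul_of_nonneg_left (hY1 e (s i)) ht0.le
      have h2 : 0 < 1 - t * Y e (s i) := by linarith
      exact h2.ne'
  -- the size of `log` with respect to `η`
  have hLgD : Lg ≤ η ^ 2 * me * D / 4 := by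
    have h1 : 4 * Lg ≤ D * (η ^ 2 * m) := by
      rwa [div_le_iff₀ (by positivity)] at hD
    have h2 : (D:ℝ) * (η ^ 2 * m) ≤ D * (η ^ 2 * me) := by
      apply mul_le_mul_of_nonneg_left _ hDpos.le
      apply mul_le_mul_of_nonneg_left (hmY e) (by positivity)
    linarith
  set S := ∑ j, Y e (s j) with hS
  have hS0 : 0 ≤ S := Finset.sum_nonneg fun i _ => hY0 e (s i)
  have hlow : t * (1 - t / 2) * S ≤ ∑ i, Real.log (1 + t * Y e (s i)) := by
    rw [hS, Finset.mul_sum]
    apply Finset.sum_le_sum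
    intro i _
    have hy0 := hY0 e (s i)
    have hy1 := hY1 e (s i)
    have h1 := log_one_add_ge (x := t * Y e (s i)) (by positivity)
    refine le_trans ?_ h1
    nlinarith [mul_nonneg hy0 (sub_nonneg.mpr hy1), mul_pos ht0 ht0]
  have hup : - ∑ i, Real.log (1 - t * Y e (s i)) ≤ t * (1 + t) * S := by
    rw [hS, Finset.mul_sum, ← Finset.sum_neg_distrib]
    apply Finset.sum_le_sum
    intro i _
    have hy0 := hY0 e (s i)
    have hy1 := hY1 e (s i)
    have hxt : t * Y e (s i) ≤ 1 / 2 := by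
      have := mul_le_mul_of_nonneg_left hy1 ht0.le
      linarith
    have h1 := neg_log_one_sub_le (x := t * Y e (s i)) (by positivity) hxt
    refine le_trans h1 ?_
    nlinarith [mul_nonneg hy0 (sub_nonneg.mpr hy1), mul_pos ht0 ht0]
  have hDm : 0 < D * me := by positivity
  constructor
  · -- lower bound
    have h1 : t * me * D - Lg ≤ t * (1 + t) * S := by linarith
    have h2 : t * me * D - η ^ 2 * me * D / 4 ≤ t * (1 + t) * S := by linarith
    have hηt : η = 2 * t := by rw [ht]; ring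
    have h3 : t * ((1 - t) * (D * me)) ≤ t * ((1 + t) * S) := by
      rw [hηt] at h2
      have e1 : t * ((1 - t) * (D * me)) = t * me * D - (2 * t) ^ 2 * me * D / 4 := by ring
      have e2 : t * ((1 + t) * S) = t * (1 + t) * S := by ring
      rw [e1, e2]; exact h2
    have h4 : (1 - t) * (D * me) ≤ (1 + t) * S := le_of_mul_le_mul_left h3 ht0
    rw [hηt]
    by_contra hcon
    push Not at hcon
    have h5 : (1 + t) * S < (1 + t) * ((1 - 2 * t) * (D * me)) :=
      mul_lt_mul_of_pos_left hcon (by linarith)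
    have h6 : (1 - t) * (D * me) < (1 + t) * ((1 - 2 * t) * (D * me)) := lt_of_le_of_lt h4 h5
    have h7 : (1 + t) * ((1 - 2 * t) * (D * me)) = (1 - t - 2 * t ^ 2) * (D * me) := by ring
    rw [h7] at h6
    have h8 := lt_of_mul_lt_mul_right h6 hDm.le
    nlinarith [mul_pos ht0 ht0]
  · -- upper bound
    have h1 : t * (1 - t / 2) * S ≤ t * me * D + Lg := by linarith
    have h2 : t * (1 - t / 2) * S ≤ t * me * D + η ^ 2 * me * D / 4 := by linarith
    have hηt : η = 2 * t := by rw [ht]; ring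
    have h3 : t * ((1 - t / 2) * S) ≤ t * ((1 + t) * (D * me)) := by
      rw [hηt] at h2
      have e1 : t * ((1 - t / 2) * S) = t * (1 - t / 2) * S := by ring
      have e2 : t * ((1 + t) * (D * me)) = t * me * D + (2 * t) ^ 2 * me * D / 4 := by ring
      rw [e1, e2]; exact h2
    have h4 : (1 - t / 2) * S ≤ (1 + t) * (D * me) := le_of_mul_le_mul_left h3 ht0
    rw [hηt]
    by_contra hcon
    push Not at hcon
    have h5 : (1 - t / 2) * ((1 + 2 * t) * (D * me)) < (1 - t / 2) * S :=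
      mul_lt_mul_of_pos_left hcon (by linarith)
    have h6 := lt_of_lt_of_le h5 h4
    have h7 : (1 - t / 2) * ((1 + 2 * t) * (D * me)) = (1 + (3/2) * t - t ^ 2) * (D * me) := by ring
    rw [h7] at h6
    have h8 := lt_of_mul_lt_mul_right h6 hDm.le
    nlinarith [mul_pos ht0 ht0]

end Crest.Agent.R232
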