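import Crest.Agent.R232.Defs
import Crest.Agent.R232.T7c
import Crest.Agent.R232.T8

/-! T9 (task 688): from the data of T6 to a map into `ℓ_p^D`. -/

set_option autoImplicit false

open Finset

namespace Crest.Agent.R232.T9

open Crest.Agent.R232

/-! ### Basic facts on `EE` -/

section EE

variable {V : Type*} [AddCommGroup V]

theorem EE_mono (l : List (ℝ × V)) (hl : ∀ x ∈ l, 0 ≤ x.1 ∧ x.1 ≤ 1) {g g' : V → ℝ} (h : ∀ s, g s ≤ g' s) :
    EE l g ≤ EE l g' := by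
  induction l generalizing g g' with
  | nil => exact h 0
  | cons x l ih =>
    obtain ⟨q, a⟩ := x
    have hq := hl (q, a) (List.mem_cons_self)
    have hl' : ∀ x ∈ l, 0 ≤ x.1 ∧ x.1 ≤ 1 := fun x hx => hl x (List.mem_cons_of_mem _ hx)
    simp only [EE]
    simp only at hq
    have h1 := ih hl' h
    have h2 := ih hl' (g := fun s => g (s + a)) (g' := fun s => g' (s + a)) (fun s => h _)
    have h3 := ih hl' (g := fun s => g (s - a)) (g' := fun s => g' (s - a)) (fun s => h _)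
    have h4 := mul_le_mul_of_nonneg_left h1 (sub_nonneg.2 hq.2)
    have h5 := mul_le_mul_of_nonneg_left h2 (half_pos_nonneg hq.1)
    have h6 := mul_le_mul_of_nonneg_left h3 (half_pos_nonneg hq.1)
    linarith
where
  half_pos_nonneg {q : ℝ} (h : 0 ≤ q) : 0 ≤ q / 2 := by linarith

theorem EE_add (l : List (ℝ × V)) (g g' : V → ℝ) : EE l (fun s => g s + g' s) = EE l g + EE l g' := by
  induction l generalizing g g' with
  | nil => rfl
  | cons x l ih =>
    obtain ⟨q, a⟩ := x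
    simp only [EE]
    rw [ih g g', ih (fun s => g (s + a)) (fun s => g' (s + a)), ih (fun s => g (s - a)) (fun s => g' (s - a))]
    ring

theorem EE_mul (l : List (ℝ × V)) (c : ℝ) (g : V → ℝ) : EE l (fun s => c * g s) = c * EE l g := by
  induction l generalizing g with
  | nil => rfl
  | cons x l ih =>
    obtain ⟨q, a⟩ := x
    simp only [EE]
    rw [ih g, ih (fun s => g (s + a)), ih (fun s => g (s - a))]
    ring

theorem EE_zero (l : List (ℝ × V)) : EE l (fun _ => (0 : ℝ)) = 0 := by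
  have := EE_mul l 0 (fun _ => (0 : ℝ))
  simpa using this

theorem EE_sum {ι : Type*} (l : List (ℝ × V)) (t : Finset ι) (g : ι → V → ℝ) :
    EE l (fun s => ∑ i ∈ t, g i s) = ∑ i ∈ t, EE l (g i) := by
  classical
  induction t using Finset.induction_on with
  | empty => simpa using EE_zero l
  | insert a t ha ih =>
    rw [Finset.sum_insert ha, ← ih, ← EE_add]
    congr 1
    funext s
    rw [Finset.sum_insert ha]

theorem EE_map {W : Type*} [AddCommGroup W] (A : V →+ W) (l : List (ℝ × V)) (g : W → ℝ) :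
    EE (l.map (fun x => (x.1, A x.2))) g = EE l (fun s => g (A s)) := by
  induction l generalizing g with
  | nil => simp [EE]
  | cons x l ih =>
    obtain ⟨q, a⟩ := x
    simp only [EE, List.map_cons]
    rw [ih g, ih (fun s => g (s + A a)), ih (fun s => g (s - A a))]
    simp only [map_add, map_sub]

end EE

/-! ### Real inequalities -/

theorem rpow_le_exp {a s x : ℝ} (ha : 0 < a) (hs : 0 < s) (hx : 0 ≤ x) :
    x ^ a ≤ (a / s) ^ a * Real.exp (s * x) := by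
  have h1 : s * x / a ≤ Real.exp (s * x / a) := by
    have := Real.add_one_le_exp (s * x / a)
    linarith
  have h2 : x ≤ (a / s) * Real.exp (s * x / a) := by
    have h3 : x = (a / s) * (s * x / a) := by field_simp
    calc x = (a / s) * (s * x / a) := h3
      _ ≤ _ := mul_le_mul_of_nonneg_left h1 (by positivity)
  calc x ^ a ≤ ((a / s) * Real.exp (s * x / a)) ^ a := Real.rpow_le_rpow hx h2 ha.le
    _ = (a / s) ^ a * Real.exp (s * x) := by
      rw [Real.mul_rpow (by positivity) (Real.exp_pos _).le, ← Real.exp_mul]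
      congr 2
      field_simp

theorem exp_abs_le_two_cosh (x : ℝ) : Real.exp |x| ≤ 2 * Real.cosh x := by
  rw [Real.cosh_eq]
  rcases abs_cases x with ⟨h, _⟩ | ⟨h, _⟩
  · rw [h]; have := Real.exp_pos (-x); linarith
  · rw [h]; have := Real.exp_pos x; linarith

/-- truncation costs an exponentially small multiple of `cosh` -/
theorem trunc_ge {p Λ R g : ℝ} (hp : 0 < p) (hΛ : 0 < Λ) (hR : 0 ≤ R) :
    |g| ^ p - 2 * (2 * p) ^ p * Λ ^ p * Real.exp (-(R / (2 * Λ))) * Real.cosh (g / Λ) ≤ (min |g| R) ^ p := by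
  have hcosh : 0 < Real.cosh (g / Λ) := Real.cosh_pos _
  rcases le_or_gt |g| R with h | h
  · rw [min_eq_left h]
    have : 0 ≤ 2 * (2 * p) ^ p * Λ ^ p * Real.exp (-(R / (2 * Λ))) * Real.cosh (g / Λ) := by positivity
    linarith
  · have h1 : |g| ^ p ≤ 2 * (2 * p) ^ p * Λ ^ p * Real.exp (-(R / (2 * Λ))) * Real.cosh (g / Λ) := by
      have h2 := rpow_le_exp (a := p) (s := 1 / 2) (x := |g| / Λ) hp (by norm_num) (by positivity)
      have h3 : |g| ^ p = Λ ^ p * (|g| / Λ) ^ p := by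
        rw [← Real.mul_rpow hΛ.le (by positivity)]
        congr 1; field_simp
      have h4 : p / (1 / 2) = 2 * p := by ring
      rw [h4] at h2
      have h5 : Real.exp (1 / 2 * (|g| / Λ)) ≤ Real.exp (-(R / (2 * Λ))) * Real.exp (|g| / Λ) := by
        rw [← Real.exp_add]
        apply Real.exp_le_exp.2
        have h6 : R / (2 * Λ) ≤ |g| / (2 * Λ) := by gcongr
        have h7 : |g| / (2 * Λ) = 1 / 2 * (|g| / Λ) := by field_simp
        have h8 : |g| / Λ = 1 / 2 * (|g| / Λ) + 1 / 2 * (|g| / Λ) := by ring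
        linarith
      have h6 : Real.exp (|g| / Λ) ≤ 2 * Real.cosh (g / Λ) := by
        have := exp_abs_le_two_cosh (g / Λ)
        rwa [abs_div, abs_of_pos hΛ] at this
      calc |g| ^ p = Λ ^ p * (|g| / Λ) ^ p := h3
        _ ≤ Λ ^ p * ((2 * p) ^ p * (Real.exp (-(R / (2 * Λ))) * (2 * Real.cosh (g / Λ)))) := by
          gcongr
          refine h2.trans ?_
          gcongr
          refine h5.trans ?_
          gcongr
        _ = _ := by ring
    have h2 : 0 ≤ (min |g| R) ^ p := by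
      apply Real.rpow_nonneg
      exact le_min (abs_nonneg g) hR
    linarith

/-- choice of the constant `c` in `R = c Λ²` -/
theorem consts (p C h : ℝ) (hp : 1 < p) (hC : 1 ≤ C) (h0 : 0 < h) (K : ℝ) (hK : 1 ≤ K) :
    ∃ c : ℝ, 6 ≤ c ∧
      (∀ Λ : ℝ, 1 ≤ Λ → 2 * (2 * p) ^ p * Λ ^ p * Real.exp (-(c * Λ ^ 2 / (2 * Λ))) * Real.exp 1 ≤
        h * (C * Λ) ^ (-C)) ∧
      (∀ Λ : ℝ, 1 ≤ Λ → ∀ D : ℝ, D ≤ K * c ^ p * Λ ^ (1 + 2 * p + C) →
        8 * Real.exp 1 * Real.exp (2 * Λ) * D ≤ Real.exp (c * Λ)) := by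
  have hp0 : 0 < p := by linarith
  have hC0 : 0 < C := by linarith
  set a : ℝ := p + C with ha
  set a2 : ℝ := 1 + 2 * p + C with ha2
  have ha0 : 0 < a := by positivity
  have ha20 : 0 < a2 := by positivity
  set K1 : ℝ := 2 * Real.exp 1 * (2 * p) ^ p * C ^ C * a ^ a / h with hK1
  set K4 : ℝ := 8 * Real.exp 1 * K * a2 ^ a2 * (2 * p) ^ p with hK4
  have hK10 : 0 < K1 := by positivity
  have hK40 : 0 < K4 := by positivity
  set c : ℝ := 6 + 2 * Real.log (K1 + K4 + 1) with hc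
  have hexp : Real.exp (c / 2 - 3) = K1 + K4 + 1 := by
    have : c / 2 - 3 = Real.log (K1 + K4 + 1) := by rw [hc]; ring
    rw [this, Real.exp_log (by positivity)]
  have hc6 : 6 ≤ c := by
    have : 0 ≤ Real.log (K1 + K4 + 1) := Real.log_nonneg (by linarith)
    linarith
  refine ⟨c, hc6, ?_, ?_⟩
  · intro Λ hΛ
    have hΛ0 : 0 < Λ := by linarith
    have h1 : Λ ^ a ≤ a ^ a * Real.exp Λ := by
      have := rpow_le_exp (a := a) (s := 1) (x := Λ) ha0 one_pos hΛ0.le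
      simpa using this
    have h2 : (C * Λ) ^ (-C) = (C ^ C * Λ ^ C)⁻¹ := by
      rw [Real.rpow_neg (by positivity), Real.mul_rpow hC0.le hΛ0.le]
    have h3 : c * Λ ^ 2 / (2 * Λ) = c / 2 * Λ := by field_simp
    have h4 : K1 ≤ Real.exp ((c / 2 - 1) * Λ) := by
      calc K1 ≤ K1 + K4 + 1 := by linarith
        _ = Real.exp (c / 2 - 3) := hexp.symm
        _ ≤ Real.exp ((c / 2 - 1) * Λ) := by
          apply Real.exp_le_exp.2
          nlinarith
    rw [h2, h3]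
    rw [← div_eq_mul_inv, le_div_iff₀ (by positivity)]
    have h5 : Λ ^ p * Λ ^ C = Λ ^ a := by rw [ha, Real.rpow_add hΛ0]
    calc 2 * (2 * p) ^ p * Λ ^ p * Real.exp (-(c / 2 * Λ)) * Real.exp 1 * (C ^ C * Λ ^ C)
        = (2 * Real.exp 1 * (2 * p) ^ p * C ^ C) * (Λ ^ p * Λ ^ C) * Real.exp (-(c / 2 * Λ)) := by ring
      _ ≤ (2 * Real.exp 1 * (2 * p) ^ p * C ^ C) * (a ^ a * Real.exp Λ) * Real.exp (-(c / 2 * Λ)) := by
          rw [h5]; gcongr
      _ = h * (K1 * (Real.exp Λ * Real.exp (-(c / 2 * Λ)))) := by rw [hK1]; field_simp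
      _ ≤ h * (Real.exp ((c / 2 - 1) * Λ) * (Real.exp Λ * Real.exp (-(c / 2 * Λ)))) := by gcongr
      _ = h := by
          rw [← Real.exp_add, ← Real.exp_add]
          have : (c / 2 - 1) * Λ + (Λ + -(c / 2 * Λ)) = 0 := by ring
          rw [this, Real.exp_zero, mul_one]
  · intro Λ hΛ D hD
    have hΛ0 : 0 < Λ := by linarith
    have hc0 : 0 < c := by linarith
    have h1 : Λ ^ a2 ≤ a2 ^ a2 * Real.exp Λ := by
      have := rpow_le_exp (a := a2) (s := 1) (x := Λ) ha20 one_pos hΛ0.le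
      simpa using this
    have h2 : c ^ p ≤ (2 * p) ^ p * Real.exp (c / 2) := by
      have := rpow_le_exp (a := p) (s := 1 / 2) (x := c) hp0 (by norm_num) hc0.le
      have h4 : p / (1 / 2) = 2 * p := by ring
      rw [h4] at this
      have h5 : 1 / 2 * c = c / 2 := by ring
      rwa [h5] at this
    have h3 : D ≤ K * ((2 * p) ^ p * Real.exp (c / 2)) * (a2 ^ a2 * Real.exp Λ) := by
      refine hD.trans ?_
      gcongr
    calc 8 * Real.exp 1 * Real.exp (2 * Λ) * D ≤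
        8 * Real.exp 1 * Real.exp (2 * Λ) * (K * ((2 * p) ^ p * Real.exp (c / 2)) * (a2 ^ a2 * Real.exp Λ)) := by
          gcongr
      _ = K4 * (Real.exp (2 * Λ) * Real.exp Λ * Real.exp (c / 2)) := by rw [hK4]; ring
      _ ≤ Real.exp (c / 2 - 3) * (Real.exp (2 * Λ) * Real.exp Λ * Real.exp (c / 2)) := by
          gcongr
          rw [hexp]; linarith
      _ = Real.exp (c - 3 + 3 * Λ) := by
          rw [← Real.exp_add, ← Real.exp_add, ← Real.exp_add]
          congr 1; ring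
      _ ≤ Real.exp (c * Λ) := by
          apply Real.exp_le_exp.2
          nlinarith

/-! ### The list of indices -/

/-- `M` copies of `Ω` -/
noncomputable def idx (Ω : Type) [Fintype Ω] : ℕ → List Ω
  | 0 => []
  | M + 1 => (univ : Finset Ω).toList ++ idx Ω M

theorem idx_sum {Ω : Type} [Fintype Ω] (M : ℕ) (f : Ω → ℝ) : ((idx Ω M).map f).sum = M * ∑ ω, f ω := by
  induction M with
  | zero => simp [idx]
  | succ M ih =>
    rw [idx, List.map_append, List.sum_append, ih, Finset.sum_map_toList]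
    push_cast; ring

theorem list_sum_filter {α : Type*} (l : List α) (P : α → Prop) [DecidablePred P] (f : α → ℝ) :
    ((l.filter P).map f).sum = (l.map (fun x => if P x then f x else 0)).sum := by
  induction l with
  | nil => simp
  | cons x l ih =>
    by_cases h : P x
    · simp [h, ih]
    · simp [h, ih]

/-! ### One pair -/

section Pair

variable {X : Type} {Ω : Type} [Fintype Ω] (d : X → X → ℝ)

/-- the gradient at `e` as an additive map -/
noncomputable def gradHom (e : X × X) : (X → ℝ) →+ ℝ where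
  toFun s := grad d s e
  map_zero' := by simp [grad]
  map_add' s t := grad_add d s t e

/-- the list of random summands -/
noncomputable def lst (κ : ℝ) (μ : Ω → ℝ) (F : Ω → X → ℝ) (M : ℕ) : List (ℝ × (X → ℝ)) :=
  (idx Ω M).map (fun ω => (κ * μ ω / M, F ω))

theorem lst_mem {κ : ℝ} {μ : Ω → ℝ} {F : Ω → X → ℝ} {M : ℕ} (hκ : 0 ≤ κ) (hμ : ∀ ω, 0 ≤ μ ω)
    (hM : ∀ ω, κ * μ ω / M ≤ 1) : ∀ x ∈ lst κ μ F M, 0 ≤ x.1 ∧ x.1 ≤ 1 := by
  intro x hx
  unfold lst at hx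
  obtain ⟨ω, _, rfl⟩ := List.mem_map.1 hx
  exact ⟨div_nonneg (mul_nonneg hκ (hμ ω)) (Nat.cast_nonneg M), hM ω⟩

theorem EE_lst {κ : ℝ} {μ : Ω → ℝ} {F : Ω → X → ℝ} {M : ℕ} (e : X × X) (B : Ω → ℝ) (g : ℝ → ℝ) :
    EE (lst κ μ F M) (fun s => g (grad d s e)) =
      EE ((idx Ω M).map (fun ω => (κ * μ ω / M, (B ω, grad d (F ω) e)))) (fun s => g s.2) := by
  have h1 := EE_map (gradHom d e) (lst κ μ F M) g
  have h2 := EE_map (AddMonoidHom.snd ℝ ℝ)
    ((idx Ω M).map (fun ω => (κ * μ ω / M, (B ω, grad d (F ω) e)))) g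
  have h3 : (lst κ μ F M).map (fun x => (x.1, gradHom d e x.2)) =
      ((idx Ω M).map (fun ω => (κ * μ ω / M, (B ω, grad d (F ω) e)))).map
        (fun x => (x.1, AddMonoidHom.snd ℝ ℝ x.2)) := by
    unfold lst
    rw [List.map_map, List.map_map]
    rfl
  rw [h3] at h1
  exact h1.symm.trans h2

theorem scaled_sum {κ : ℝ} {μ : Ω → ℝ} {M : ℕ} (hM : 0 < M) (φ : Ω → ℝ) :
    ((idx Ω M).map (fun ω => κ * μ ω / M * φ ω)).sum = κ * ∑ ω, μ ω * φ ω := by
  rw [idx_sum, Finset.mul_sum, Finset.mul_sum]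
  apply Finset.sum_congr rfl
  intro ω _
  have : (M : ℝ) ≠ 0 := by exact_mod_cast hM.ne'
  field_simp

theorem cosh_bound {κ Λ : ℝ} {μ : Ω → ℝ} {F : Ω → X → ℝ} {M : ℕ} (hκ : 0 ≤ κ) (hκ1 : κ ≤ 1) (hΛ : 1 ≤ Λ)
    (hμ : ∀ ω, 0 ≤ μ ω) (hM0 : 0 < M) (hM : ∀ ω, κ * μ ω / M ≤ 1) (e : X × X)
    (h5 : ∑ ω, μ ω * (grad d (F ω) e) ^ 2 ≤ Λ) (h6 : ∀ ω, |grad d (F ω) e| ≤ Λ) :
    EE (lst κ μ F M) (fun s => Real.cosh (grad d s e / Λ)) ≤ Real.exp 1 := by
  have hΛ0 : 0 < Λ := by linarith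
  have h1 := EE_map (gradHom d e) (lst κ μ F M) (fun x => Real.cosh (x / Λ))
  have h2 : EE (lst κ μ F M) (fun s => Real.cosh (grad d s e / Λ)) =
      EE ((lst κ μ F M).map (fun x => (x.1, gradHom d e x.2))) (fun x => Real.cosh (Λ⁻¹ * x)) := by
    have h3 : (fun x : ℝ => Real.cosh (Λ⁻¹ * x)) = (fun x => Real.cosh (x / Λ)) := by
      funext x; congr 1; field_simp
    rw [h3, h1]
    rfl
  rw [h2]
  refine (Crest.Agent.R232.cosh_moment _ ?_ Λ⁻¹ ?_).trans ?_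
  · intro x hx
    obtain ⟨y, hy, rfl⟩ := List.mem_map.1 hx
    exact lst_mem hκ hμ hM y hy
  · intro x hx
    obtain ⟨y, hy, rfl⟩ := List.mem_map.1 hx
    unfold lst at hy
    obtain ⟨ω, _, rfl⟩ := List.mem_map.1 hy
    show |Λ⁻¹ * grad d (F ω) e| ≤ 1
    rw [abs_mul, abs_of_pos (inv_pos.2 hΛ0)]
    calc Λ⁻¹ * |grad d (F ω) e| ≤ Λ⁻¹ * Λ := by gcongr; exact h6 ω
      _ = 1 := inv_mul_cancel₀ hΛ0.ne'
  · apply Real.exp_le_exp.2
    have h4 : (((lst κ μ F M).map (fun x => (x.1, gradHom d e x.2))).map fun x => x.1 * x.2 ^ 2).sum =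
        κ * ∑ ω, μ ω * (grad d (F ω) e) ^ 2 := by
      rw [← scaled_sum hM0]
      unfold lst
      rw [List.map_map, List.map_map]
      rfl
    rw [h4]
    calc Λ⁻¹ ^ 2 * (κ * ∑ ω, μ ω * (grad d (F ω) e) ^ 2) ≤ Λ⁻¹ ^ 2 * (1 * Λ) := by
          gcongr
          exact Finset.sum_nonneg fun ω _ => mul_nonneg (hμ ω) (sq_nonneg _)
      _ = Λ⁻¹ := by field_simp
      _ ≤ 1 := inv_le_one_of_one_le₀ hΛ

theorem moment_bound {p η ε C κ Λ : ℝ}
    (hmom : ∀ (Λ : ℝ) (_ : 1 ≤ Λ) (κ : ℝ) (_ : 0 < κ)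
      (_ : κ ≤ (C * Λ) ^ (-C)) (l : List (ℝ × (ℝ × ℝ))) (_ : ∀ x ∈ l, 0 ≤ x.1 ∧ x.1 ≤ 1)
      (_ : (l.map fun x => x.1 * |x.2.1| ^ p).sum = κ)
      (_ : ((l.filter fun x => x.2.1 ≠ 0).map fun x => x.1).sum ≤ κ * Λ)
      (_ : (l.map fun x => x.1 * |x.2.2 - x.2.1| ^ p).sum ≤ κ * ε)
      (_ : (l.map fun x => x.1 * (x.2.2 - x.2.1) ^ 2).sum ≤ κ * Λ),
      (1 - η) * κ ≤ EE l (fun s => |s.2| ^ p) ∧ EE l (fun s => |s.2| ^ p) ≤ (1 + η) * κ)
    {μ : Ω → ℝ} {F : Ω → X → ℝ} {M : ℕ} (hκ : 0 < κ) (hκ1 : κ ≤ (C * Λ) ^ (-C)) (hΛ : 1 ≤ Λ)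
    (hμ : ∀ ω, 0 ≤ μ ω) (hM0 : 0 < M) (hM : ∀ ω, κ * μ ω / M ≤ 1) (e : X × X) (B : Ω → ℝ)
    (h1 : ∑ ω, μ ω * |B ω| ^ p = 1)
    (h2 : ∑ ω ∈ univ.filter (fun ω => B ω ≠ 0), μ ω ≤ Λ)
    (h3 : ∑ ω, μ ω * |grad d (F ω) e - B ω| ^ p ≤ ε)
    (h4 : ∑ ω, μ ω * (grad d (F ω) e - B ω) ^ 2 ≤ Λ) :
    (1 - η) * κ ≤ EE (lst κ μ F M) (fun s => |grad d s e| ^ p) ∧
      EE (lst κ μ F M) (fun s => |grad d s e| ^ p) ≤ (1 + η) * κ := by
  have hE := EE_lst d (κ := κ) (μ := μ) (F := F) (M := M) e B (fun x => |x| ^ p)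
  rw [hE]
  apply hmom Λ hΛ κ hκ hκ1
  · intro x hx
    obtain ⟨ω, _, rfl⟩ := List.mem_map.1 hx
    exact ⟨div_nonneg (mul_nonneg hκ.le (hμ ω)) (Nat.cast_nonneg M), hM ω⟩
  · rw [List.map_map]
    have := scaled_sum (κ := κ) (μ := μ) hM0 (fun ω => |B ω| ^ p)
    rw [h1, mul_one] at this
    exact this
  · rw [list_sum_filter, List.map_map]
    have h5 := scaled_sum (κ := κ) (μ := μ) hM0 (fun ω => if B ω ≠ 0 then 1 else 0)
    have h6 : ((idx Ω M).map ((fun x : ℝ × (ℝ × ℝ) => if x.2.1 ≠ 0 then x.1 else 0) ∘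
        fun ω => (κ * μ ω / M, (B ω, grad d (F ω) e)))).sum = κ * ∑ ω, μ ω * (if B ω ≠ 0 then 1 else 0) := by
      rw [← h5]
      congr 1
      apply List.map_congr_left
      intro ω _
      simp only [Function.comp]
      split_ifs <;> simp
    refine le_of_eq_of_le h6 ?_
    have h7 : ∑ ω, μ ω * (if B ω ≠ 0 then 1 else 0) = ∑ ω ∈ univ.filter (fun ω => B ω ≠ 0), μ ω := by
      rw [Finset.sum_filter]
      apply Finset.sum_congr rfl
      intro ω _
      split_ifs <;> simp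
    rw [h7]
    gcongr
  · rw [List.map_map]
    have := scaled_sum (κ := κ) (μ := μ) hM0 (fun ω => |grad d (F ω) e - B ω| ^ p)
    refine le_of_eq_of_le this ?_
    gcongr
  · rw [List.map_map]
    have := scaled_sum (κ := κ) (μ := μ) hM0 (fun ω => (grad d (F ω) e - B ω) ^ 2)
    refine le_of_eq_of_le this ?_
    gcongr

end Pair

theorem final_lo {h η dp Rp κ D A S : ℝ} (h0 : 0 < h) (h1 : h < 1 / 4) (hη : η = 4 * h) (hdp : 0 < dp)
    (hRp : 0 < Rp) (hκ : 0 < κ) (hD : 0 < D) (k1 : (1 - 2 * h) * κ ≤ A)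
    (g1 : (1 - h) * (D * (Rp⁻¹ * A)) ≤ S) : (1 - η) * dp ≤ dp * (Rp / (κ * D)) * S := by
  have h2 : 0 < 1 - h := by linarith
  calc (1 - η) * dp ≤ ((1 - h) * (1 - 2 * h)) * dp := by
        apply mul_le_mul_of_nonneg_right _ hdp.le
        rw [hη]; nlinarith
    _ = dp * (Rp / (κ * D)) * ((1 - h) * (D * (Rp⁻¹ * ((1 - 2 * h) * κ)))) := by
        field_simp
    _ ≤ dp * (Rp / (κ * D)) * ((1 - h) * (D * (Rp⁻¹ * A))) := by
        apply mul_le_mul_of_nonneg_left _ (by positivity)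
        apply mul_le_mul_of_nonneg_left _ h2.le
        apply mul_le_mul_of_nonneg_left _ hD.le
        apply mul_le_mul_of_nonneg_left k1 (by positivity)
    _ ≤ _ := mul_le_mul_of_nonneg_left g1 (by positivity)

theorem final_up {h η dp Rp κ D A S : ℝ} (h0 : 0 < h) (h1 : h < 1 / 4) (hη : η = 4 * h) (hdp : 0 < dp)
    (hRp : 0 < Rp) (hκ : 0 < κ) (hD : 0 < D) (k1 : A ≤ (1 + h) * κ)
    (g1 : S ≤ (1 + h) * (D * (Rp⁻¹ * A))) : dp * (Rp / (κ * D)) * S ≤ (1 + η) * dp := by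
  have h2 : 0 < 1 + h := by linarith
  calc dp * (Rp / (κ * D)) * S ≤ dp * (Rp / (κ * D)) * ((1 + h) * (D * (Rp⁻¹ * A))) :=
        mul_le_mul_of_nonneg_left g1 (by positivity)
    _ ≤ dp * (Rp / (κ * D)) * ((1 + h) * (D * (Rp⁻¹ * ((1 + h) * κ)))) := by
        apply mul_le_mul_of_nonneg_left _ (by positivity)
        apply mul_le_mul_of_nonneg_left _ h2.le
        apply mul_le_mul_of_nonneg_left _ hD.le
        apply mul_le_mul_of_nonneg_left k1 (by positivity)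
    _ = ((1 + h) * (1 + h)) * dp := by field_simp
    _ ≤ (1 + η) * dp := by
        apply mul_le_mul_of_nonneg_right _ hdp.le
        rw [hη]; nlinarith

/-- off-diagonal pairs -/
abbrev OffD (X : Type) : Type := {e : X × X // e.1 ≠ e.2}

theorem sparse_of_moment (p : ℝ) (hp1 : 1 < p) (η : ℝ) (hη : 0 < η) (hη1 : η < 1)
    (hmoment : ∀ (η : ℝ) (_ : 0 < η) (_ : η < 1),
      ∃ ε : ℝ, 0 < ε ∧ ∃ C : ℝ, 1 ≤ C ∧ ∀ (Λ : ℝ) (_ : 1 ≤ Λ) (κ : ℝ) (_ : 0 < κ)
      (_ : κ ≤ (C * Λ) ^ (-C)) (l : List (ℝ × (ℝ × ℝ))) (_ : ∀ x ∈ l, 0 ≤ x.1 ∧ x.1 ≤ 1)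
      (_ : (l.map fun x => x.1 * |x.2.1| ^ p).sum = κ)
      (_ : ((l.filter fun x => x.2.1 ≠ 0).map fun x => x.1).sum ≤ κ * Λ)
      (_ : (l.map fun x => x.1 * |x.2.2 - x.2.1| ^ p).sum ≤ κ * ε)
      (_ : (l.map fun x => x.1 * (x.2.2 - x.2.1) ^ 2).sum ≤ κ * Λ),
      (1 - η) * κ ≤ EE l (fun s => |s.2| ^ p) ∧ EE l (fun s => |s.2| ^ p) ≤ (1 + η) * κ) :
    ∃ ε : ℝ, 0 < ε ∧ ∃ C : ℝ, 1 ≤ C ∧ ∀ (X : Type) [Fintype X] [DecidableEq X]
      (_ : 2 ≤ Fintype.card X) (d : X → X → ℝ) (_ : IsDist d) (Λ : ℝ) (Ω : Type) [Fintype Ω]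
      (μ : Ω → ℝ) (B : Ω → X × X → ℝ) (F : Ω → X → ℝ)
      (_ : 1 ≤ Λ) (_ : Real.log (Fintype.card X) ≤ Λ) (_ : ∀ ω, 0 ≤ μ ω)
      (_ : ∀ x y, x ≠ y →
          (∑ ω, μ ω * |B ω (x, y)| ^ p = 1) ∧
          (∑ ω ∈ univ.filter (fun ω => B ω (x, y) ≠ 0), μ ω ≤ Λ) ∧
          (∑ ω, μ ω * |grad d (F ω) (x, y) - B ω (x, y)| ^ p ≤ ε) ∧
          (∑ ω, μ ω * (grad d (F ω) (x, y) - B ω (x, y)) ^ 2 ≤ Λ) ∧
          (∑ ω, μ ω * (grad d (F ω) (x, y)) ^ 2 ≤ Λ) ∧
          (∀ ω, |grad d (F ω) (x, y)| ≤ Λ)),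
      ∃ (D : ℕ) (y : X → Fin D → ℝ), (D : ℝ) ≤ C * Λ ^ C ∧
        ∀ x x', x ≠ x' → (1 - η) * d x x' ^ p ≤ ∑ j, |y x j - y x' j| ^ p ∧
          ∑ j, |y x j - y x' j| ^ p ≤ (1 + η) * d x x' ^ p := by
  classical
  have hp0 : 0 < p := by linarith
  set h : ℝ := η / 4 with hh
  have h0 : 0 < h := by positivity
  have h4 : h < 1 / 4 := by rw [hh]; linarith
  obtain ⟨ε, hε, C, hC, hmom⟩ := hmoment h h0 (by linarith)
  have hC0 : 0 < C := by linarith
  set K : ℝ := 16 * C ^ C / (h ^ 2 * (1 - 2 * h)) + 1 with hK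
  have h2h : 0 < 1 - 2 * h := by linarith
  have hK1 : 1 ≤ K := by
    have : 0 ≤ 16 * C ^ C / (h ^ 2 * (1 - 2 * h)) := by positivity
    linarith
  obtain ⟨c, hc6, hcA, hcB⟩ := consts p C h hp1 hC h0 K hK1
  have hc0 : 0 < c := by linarith
  set a : ℝ := 1 + 2 * p + C with ha
  refine ⟨ε, hε, max (K * c ^ p) a, le_max_of_le_right (by rw [ha]; linarith), ?_⟩
  intro X _ _ hn d hd Λ Ω _ μ B F hΛ hlog hμ hdata
  have hΛ0 : 0 < Λ := by linarith
  set κ : ℝ := (C * Λ) ^ (-C) with hκ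
  have hCΛ : 1 ≤ C * Λ := by nlinarith
  have hκ0 : 0 < κ := by positivity
  have hκ1 : κ ≤ 1 := by
    rw [hκ, Real.rpow_neg (by positivity)]
    exact inv_le_one_of_one_le₀ (Real.one_le_rpow hCΛ hC0.le)
  have hκinv : κ⁻¹ = C ^ C * Λ ^ C := by
    rw [hκ, Real.rpow_neg (by positivity), inv_inv, Real.mul_rpow hC0.le hΛ0.le]
  -- number of copies
  obtain ⟨M, hM0, hM⟩ : ∃ M : ℕ, 0 < M ∧ ∀ ω, κ * μ ω / M ≤ 1 := by
    refine ⟨⌈κ * ∑ ω, μ ω⌉₊ + 1, Nat.succ_pos _, fun ω => ?_⟩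
    rw [div_le_one (by positivity)]
    have h1 : μ ω ≤ ∑ ω, μ ω := Finset.single_le_sum (f := μ) (fun i _ => hμ i) (Finset.mem_univ ω)
    have h2 : κ * μ ω ≤ κ * ∑ ω, μ ω := mul_le_mul_of_nonneg_left h1 hκ0.le
    have h3 := Nat.le_ceil (κ * ∑ ω, μ ω)
    push_cast
    linarith
  set l := lst κ μ F M with hl
  have hlm : ∀ x ∈ l, 0 ≤ x.1 ∧ x.1 ≤ 1 := lst_mem hκ0.le hμ hM
  have hmo : ∀ e : X × X, e.1 ≠ e.2 → (1 - h) * κ ≤ EE l (fun s => |grad d s e| ^ p) ∧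
      EE l (fun s => |grad d s e| ^ p) ≤ (1 + h) * κ := by
    intro e he
    obtain ⟨d1, d2, d3, d4, d5, d6⟩ := hdata e.1 e.2 he
    exact moment_bound d hmom hκ0 le_rfl hΛ hμ hM0 hM e (fun ω => B ω e) d1 d2 d3 d4
  have hco : ∀ e : X × X, e.1 ≠ e.2 → EE l (fun s => Real.cosh (grad d s e / Λ)) ≤ Real.exp 1 := by
    intro e he
    obtain ⟨d1, d2, d3, d4, d5, d6⟩ := hdata e.1 e.2 he
    exact cosh_bound d hκ0.le hκ1 hΛ hμ hM0 hM e d5 d6
  -- the truncation level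
  set R : ℝ := c * Λ ^ 2 with hR
  have hR0 : 0 < R := by positivity
  have hRp : 0 < R ^ p := by positivity
  set Y : OffD X → (X → ℝ) → ℝ := fun e s => (min |grad d s e.1| R / R) ^ p with hY
  have hY0 : ∀ e s, 0 ≤ Y e s := by
    intro e s
    apply Real.rpow_nonneg
    exact div_nonneg (le_min (abs_nonneg _) hR0.le) hR0.le
  have hY1 : ∀ e s, Y e s ≤ 1 := by
    intro e s
    apply Real.rpow_le_one
    · exact div_nonneg (le_min (abs_nonneg _) hR0.le) hR0.le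
    · rw [div_le_one hR0]; exact min_le_right _ _
    · exact hp0.le
  have hYR : ∀ e s, Y e s = (R ^ p)⁻¹ * (min |grad d s e.1| R) ^ p := by
    intro e s
    simp only [hY]
    rw [Real.div_rpow (le_min (abs_nonneg _) hR0.le) hR0.le]
    field_simp
  have hEY : ∀ e : OffD X, EE l (Y e) = (R ^ p)⁻¹ * EE l (fun s => (min |grad d s e.1| R) ^ p) := by
    intro e
    rw [← EE_mul]
    congr 1
    funext s
    exact hYR e s
  have hup : ∀ e : OffD X, EE l (fun s => (min |grad d s e.1| R) ^ p) ≤ (1 + h) * κ := by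
    intro e
    refine (EE_mono l hlm fun s => ?_).trans (hmo e.1 e.2).2
    exact Real.rpow_le_rpow (le_min (abs_nonneg _) hR0.le) (min_le_left _ _) hp0.le
  have hlo : ∀ e : OffD X, (1 - 2 * h) * κ ≤ EE l (fun s => (min |grad d s e.1| R) ^ p) := by
    intro e
    set c1 : ℝ := 2 * (2 * p) ^ p * Λ ^ p * Real.exp (-(R / (2 * Λ))) with hc1
    have h1 : EE l (fun s => |grad d s e.1| ^ p + (-c1) * Real.cosh (grad d s e.1 / Λ)) ≤
        EE l (fun s => (min |grad d s e.1| R) ^ p) := by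
      apply EE_mono l hlm
      intro s
      have := trunc_ge (p := p) (Λ := Λ) (R := R) (g := grad d s e.1) hp0 hΛ0 hR0.le
      linarith
    rw [EE_add l (fun s => |grad d s e.1| ^ p) (fun s => (-c1) * Real.cosh (grad d s e.1 / Λ)),
      EE_mul l (-c1) (fun s => Real.cosh (grad d s e.1 / Λ))] at h1
    have h2 := (hmo e.1 e.2).1
    have h3 := hco e.1 e.2
    have h5 : c1 * Real.exp 1 ≤ h * κ := hcA Λ hΛ
    have h6 : c1 * EE l (fun s => Real.cosh (grad d s e.1 / Λ)) ≤ c1 * Real.exp 1 :=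
      mul_le_mul_of_nonneg_left h3 (by positivity)
    linarith
  set m : ℝ := (R ^ p)⁻¹ * ((1 - 2 * h) * κ) with hm
  have hm0 : 0 < m := by positivity
  have hmY : ∀ e, m ≤ EE l (Y e) := by
    intro e
    rw [hEY e]
    exact mul_le_mul_of_nonneg_left (hlo e) (by positivity)
  -- cardinalities
  obtain ⟨x0, x1, hx01⟩ : ∃ x0 x1 : X, x0 ≠ x1 := by
    have : Nontrivial X := Fintype.one_lt_card_iff_nontrivial.1 (by omega)
    exact exists_pair_ne X
  have : Nonempty (OffD X) := ⟨⟨(x0, x1), hx01⟩⟩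
  set n : ℝ := (Fintype.card X : ℝ) with hnn
  have hn0 : 0 < n := by
    rw [hnn]; exact_mod_cast (by omega : 0 < Fintype.card X)
  have hE1 : 1 ≤ (Fintype.card (OffD X) : ℝ) := by
    exact_mod_cast Fintype.card_pos
  have hE2 : (Fintype.card (OffD X) : ℝ) ≤ n ^ 2 := by
    have h1 : Fintype.card (OffD X) ≤ Fintype.card (X × X) := Fintype.card_subtype_le _
    rw [Fintype.card_prod] at h1
    rw [hnn, sq]
    exact_mod_cast h1
  have hnexp : n ^ 2 ≤ Real.exp (2 * Λ) := by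
    have h1 : n = Real.exp (Real.log n) := (Real.exp_log hn0).symm
    rw [h1, ← Real.exp_nat_mul]
    apply Real.exp_le_exp.2
    push_cast
    linarith
  have hlogE : Real.log (4 * Fintype.card (OffD X)) ≤ 4 * Λ := by
    have h1 : Real.log (4 * Fintype.card (OffD X)) ≤ Real.log (4 * n ^ 2) := by
      apply Real.log_le_log (by positivity)
      linarith
    have h1' : Real.log (4 * n ^ 2) = Real.log 4 + 2 * Real.log n := by
      rw [Real.log_mul (by norm_num) (by positivity), Real.log_pow]; push_cast; ring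
    have h2 : Real.log 4 = 2 * Real.log 2 := by
      rw [show (4 : ℝ) = 2 ^ 2 by norm_num, Real.log_pow]; norm_num
    have h3 := Real.log_two_lt_d9
    linarith
  have hlogE0 : 0 < Real.log (4 * Fintype.card (OffD X)) := Real.log_pos (by linarith)
  -- the number of samples
  set t : ℝ := 4 * Real.log (4 * Fintype.card (OffD X)) / (h ^ 2 * m) with ht
  have ht0 : 0 < t := by positivity
  set D : ℕ := ⌈t⌉₊ with hD
  have hD0 : 0 < D := Nat.ceil_pos.2 ht0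
  have htD : t ≤ D := Nat.le_ceil _
  have hDK : (D : ℝ) ≤ K * c ^ p * Λ ^ a := by
    have h1 : (D : ℝ) ≤ t + 1 := (Nat.ceil_lt_add_one ht0.le).le
    have h2 : t ≤ 16 * C ^ C / (h ^ 2 * (1 - 2 * h)) * c ^ p * Λ ^ a := by
      have h3 : t = 4 * Real.log (4 * Fintype.card (OffD X)) * (R ^ p * κ⁻¹) / (h ^ 2 * (1 - 2 * h)) := by
        rw [ht, hm]; field_simp
      have h5 : R ^ p = c ^ p * Λ ^ (2 * p) := by
        rw [hR, Real.mul_rpow hc0.le (by positivity)]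
        congr 1
        rw [← Real.rpow_natCast Λ 2, ← Real.rpow_mul hΛ0.le]
        norm_num
      have h6 : Λ ^ a = Λ * Λ ^ (2 * p) * Λ ^ C := by
        rw [ha, Real.rpow_add hΛ0, Real.rpow_add hΛ0, Real.rpow_one]
      rw [h3, h5, h6, hκinv]
      calc 4 * Real.log (4 * Fintype.card (OffD X)) * (c ^ p * Λ ^ (2 * p) * (C ^ C * Λ ^ C)) / (h ^ 2 * (1 - 2 * h))
          ≤ 4 * (4 * Λ) * (c ^ p * Λ ^ (2 * p) * (C ^ C * Λ ^ C)) / (h ^ 2 * (1 - 2 * h)) := by gcongr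
        _ = _ := by ring
    have h3 : 1 ≤ c ^ p * Λ ^ a := by
      have h4 : 1 ≤ c ^ p := Real.one_le_rpow (by linarith) hp0.le
      have h5 : 1 ≤ Λ ^ a := Real.one_le_rpow hΛ (by positivity)
      nlinarith
    calc (D : ℝ) ≤ t + 1 := h1
      _ ≤ 16 * C ^ C / (h ^ 2 * (1 - 2 * h)) * c ^ p * Λ ^ a + c ^ p * Λ ^ a := by linarith
      _ = K * c ^ p * Λ ^ a := by rw [hK]; ring
  have hDfin : (D : ℝ) ≤ max (K * c ^ p) a * Λ ^ (max (K * c ^ p) a) := by
    refine hDK.trans ?_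
    apply mul_le_mul (le_max_left _ _) _ (by positivity) (by positivity)
    exact Real.rpow_le_rpow_of_exponent_le hΛ (le_max_right _ _)
  -- the exceptional function
  set b : (X → ℝ) → ℝ := fun s => ∑ e : OffD X, (Real.cosh (R / Λ))⁻¹ * Real.cosh (grad d s e.1 / Λ) with hb
  have hb0 : ∀ s, 0 ≤ b s := by
    intro s
    apply Finset.sum_nonneg
    intro e _
    have h1 := Real.cosh_pos (R / Λ)
    have h2 := Real.cosh_pos (grad d s e.1 / Λ)
    positivity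
  have hbsmall : ∀ s, b s < 1 → ∀ e : OffD X, |grad d s e.1| ≤ R := by
    intro s hs e
    by_contra hcon
    push Not at hcon
    have hcp := Real.cosh_pos (R / Λ)
    have h1 : (Real.cosh (R / Λ))⁻¹ * Real.cosh (grad d s e.1 / Λ) ≤ b s := by
      apply Finset.single_le_sum (f := fun e : OffD X => (Real.cosh (R / Λ))⁻¹ * Real.cosh (grad d s e.1 / Λ))
        (fun i _ => ?_) (Finset.mem_univ e)
      have h2 := Real.cosh_pos (grad d s i.1 / Λ)
      positivity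
    have h2 : Real.cosh (R / Λ) ≤ Real.cosh (grad d s e.1 / Λ) := by
      rw [Real.cosh_le_cosh, abs_of_pos (by positivity), abs_div, abs_of_pos hΛ0]
      gcongr
    have h3 : 1 ≤ (Real.cosh (R / Λ))⁻¹ * Real.cosh (grad d s e.1 / Λ) := by
      rw [inv_mul_eq_div, one_le_div hcp]
      exact h2
    linarith
  have hbD : EE l b ≤ 1 / (4 * D) := by
    have hcp := Real.cosh_pos (R / Λ)
    have h1 : EE l b = ∑ e : OffD X, (Real.cosh (R / Λ))⁻¹ * EE l (fun s => Real.cosh (grad d s e.1 / Λ)) := by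
      rw [hb, EE_sum l univ (fun (e : OffD X) s => (Real.cosh (R / Λ))⁻¹ * Real.cosh (grad d s e.1 / Λ))]
      apply Finset.sum_congr rfl
      intro e _
      exact EE_mul l _ _
    have h2 : EE l b ≤ ∑ e : OffD X, (Real.cosh (R / Λ))⁻¹ * Real.exp 1 := by
      rw [h1]
      apply Finset.sum_le_sum
      intro e _
      exact mul_le_mul_of_nonneg_left (hco e.1 e.2) (by positivity)
    rw [Finset.sum_const, Finset.card_univ, nsmul_eq_mul] at h2
    have h3 : Real.exp (c * Λ) ≤ 2 * Real.cosh (R / Λ) := by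
      have := exp_abs_le_two_cosh (R / Λ)
      rw [abs_of_pos (by positivity)] at this
      have h4 : R / Λ = c * Λ := by rw [hR]; field_simp
      rwa [h4] at this ⊢
    have h5 : 8 * Real.exp 1 * Real.exp (2 * Λ) * D ≤ 2 * Real.cosh (R / Λ) := (hcB Λ hΛ D hDK).trans h3
    have hDpos : (0 : ℝ) < D := by exact_mod_cast hD0
    refine h2.trans ?_
    rw [le_div_iff₀ (by positivity)]
    have h6 : (Fintype.card (OffD X) : ℝ) ≤ Real.exp (2 * Λ) := hE2.trans hnexp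
    calc (Fintype.card (OffD X) : ℝ) * ((Real.cosh (R / Λ))⁻¹ * Real.exp 1) * (4 * D)
        = (Real.cosh (R / Λ))⁻¹ * (4 * Real.exp 1 * (Fintype.card (OffD X) : ℝ) * D) := by ring
      _ ≤ (Real.cosh (R / Λ))⁻¹ * (4 * Real.exp 1 * Real.exp (2 * Λ) * D) := by gcongr
      _ ≤ (Real.cosh (R / Λ))⁻¹ * Real.cosh (R / Λ) := by
          gcongr
          linarith
      _ = 1 := inv_mul_cancel₀ hcp.ne'
  obtain ⟨s, hs1, hs2⟩ := Crest.Agent.R232.sampling l hlm Y hY0 hY1 b hb0 h h0 (by linarith) m hm0 hmY D hD0 htD hbD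
  -- conclusion
  have hDpos : (0 : ℝ) < D := by exact_mod_cast hD0
  have hκD : 0 < κ * D := by positivity
  refine ⟨D, fun x j => s j x / (κ * D) ^ (1 / p), hDfin, fun x x' hxx => ?_⟩
  have hdpos := hd.pos x x' hxx
  have hdp : 0 < d x x' ^ p := Real.rpow_pos_of_pos hdpos p
  set e : OffD X := ⟨(x, x'), hxx⟩ with he
  have key : ∀ j, |s j x / (κ * D) ^ (1 / p) - s j x' / (κ * D) ^ (1 / p)| ^ p =
      d x x' ^ p * (R ^ p / (κ * D)) * Y e (s j) := by
    intro j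
    have h1 : |grad d (s j) e.1| ≤ R := hbsmall (s j) (hs1 j) e
    rw [hYR, min_eq_left h1, ← sub_div, abs_div, Real.div_rpow (abs_nonneg _) (abs_nonneg _)]
    have h2 : |(κ * D) ^ (1 / p)| ^ p = κ * D := by
      rw [abs_of_pos (Real.rpow_pos_of_pos hκD _), ← Real.rpow_mul hκD.le]
      rw [one_div, inv_mul_cancel₀ hp0.ne', Real.rpow_one]
    have h3 : |s j x - s j x'| ^ p = d x x' ^ p * |grad d (s j) e.1| ^ p := by
      rw [← Real.mul_rpow hdpos.le (abs_nonneg _)]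
      congr 1
      show |s j x - s j x'| = d x x' * |(s j x - s j x') / d x x'|
      rw [abs_div, abs_of_pos hdpos]
      field_simp
    rw [h2, h3]
    field_simp
  simp only [key]
  rw [← Finset.mul_sum]
  obtain ⟨g1, g2⟩ := hs2 e
  rw [hEY e] at g1 g2
  have k1 := hlo e
  have k2 := hup e
  set A : ℝ := EE l (fun s => (min |grad d s e.1| R) ^ p) with hA
  exact ⟨final_lo h0 h4 (by rw [hh]; ring) hdp hRp hκ0 hDpos k1 g1,
    final_up h0 h4 (by rw [hh]; ring) hdp hRp hκ0 hDpos k2 g2⟩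

end Crest.Agent.R232.T9
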