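import Crest.Agent.R232.Defs

/-! R232 (S0358), T9: bookkeeping for sparse sums: basic facts on `EE`, copies of a weighted family,
truncation estimate, exponential bounds. -/

set_option autoImplicit false

open Finset

namespace Crest.Agent.R232.T9

open Crest.Agent.R232

variable {V W : Type*} [AddCommGroup V] [AddCommGroup W]

theorem EE_mono {l : List (ℝ × V)} (hl : ∀ x ∈ l, 0 ≤ x.1 ∧ x.1 ≤ 1) {g h : V → ℝ}
    (hgh : ∀ s, g s ≤ h s) : EE l g ≤ EE l h := by
  induction l generalizing g h with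
  | nil => exact hgh 0
  | cons x l ih =>
    obtain ⟨q, a⟩ := x
    have h1 := hl (q, a) (by simp)
    have h2 := fun y hy => hl y (List.mem_cons_of_mem _ hy)
    simp only [EE]
    have e1 := ih h2 hgh
    have e2 := ih h2 (g := fun s => g (s + a)) (h := fun s => h (s + a)) (fun s => hgh _)
    have e3 := ih h2 (g := fun s => g (s - a)) (h := fun s => h (s - a)) (fun s => hgh _)
    have q0 : 0 ≤ q := h1.1
    have q1 : 0 ≤ 1 - q := by linarith [h1.2]
    gcongr

theorem EE_add (l : List (ℝ × V)) (g h : V → ℝ) :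
    EE l (fun s => g s + h s) = EE l g + EE l h := by
  induction l generalizing g h with
  | nil => simp [EE]
  | cons x l ih =>
    obtain ⟨q, a⟩ := x
    simp only [EE]
    rw [ih, ih (fun s => g (s + a)) (fun s => h (s + a)),
      ih (fun s => g (s - a)) (fun s => h (s - a))]
    ring

theorem EE_const_mul (l : List (ℝ × V)) (c : ℝ) (g : V → ℝ) :
    EE l (fun s => c * g s) = c * EE l g := by
  induction l generalizing g with
  | nil => simp [EE]
  | cons x l ih =>
    obtain ⟨q, a⟩ := x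
    simp only [EE]
    rw [ih, ih (fun s => g (s + a)), ih (fun s => g (s - a))]
    ring

theorem EE_zero (l : List (ℝ × V)) : EE l (fun _ => (0 : ℝ)) = 0 := by
  have := EE_const_mul l 0 (fun _ => (0 : ℝ))
  simpa using this

theorem EE_sum {ι : Type*} (l : List (ℝ × V)) (s : Finset ι) (g : ι → V → ℝ) :
    EE l (fun v => ∑ i ∈ s, g i v) = ∑ i ∈ s, EE l (g i) := by
  classical
  induction s using Finset.induction_on with
  | empty => simp [EE_zero]
  | insert i s hi ih =>
    simp only [Finset.sum_insert hi]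
    rw [EE_add, ih]

theorem EE_map (A : V →+ W) (l : List (ℝ × V)) (g : W → ℝ) :
    EE (l.map fun x => (x.1, A x.2)) g = EE l (fun s => g (A s)) := by
  induction l generalizing g with
  | nil => simp [EE]
  | cons x l ih =>
    obtain ⟨q, a⟩ := x
    simp only [EE, List.map_cons]
    rw [ih, ih (fun s => g (s + A a)), ih (fun s => g (s - A a))]
    simp [map_add, map_sub]

/-- gradient at `e` as an additive map -/
noncomputable def gradHom {X : Type*} (d : X → X → ℝ) (e : X × X) : (X → ℝ) →+ ℝ where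
  toFun f := grad d f e
  map_zero' := by simp [grad]
  map_add' f g := grad_add d f g e

/-- `M` copies of the weighted family `μ`, with total weight `κ μ` -/
noncomputable def copies {Ω : Type*} [Fintype Ω] (κ : ℝ) (M : ℕ) (μ : Ω → ℝ) : List (ℝ × Ω) :=
  (List.replicate M ((univ : Finset Ω).toList.map fun ω => (κ * μ ω / M, ω))).flatten

theorem mem_copies {Ω : Type*} [Fintype Ω] {κ : ℝ} {M : ℕ} {μ : Ω → ℝ} {x : ℝ × Ω}
    (hx : x ∈ copies κ M μ) : x.1 = κ * μ x.2 / M := by
  simp only [copies, List.mem_flatten, List.mem_replicate] at hx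
  obtain ⟨l, ⟨-, rfl⟩, hx⟩ := hx
  simp only [List.mem_map, mem_toList] at hx
  obtain ⟨ω, -, rfl⟩ := hx
  rfl

theorem sum_copies {Ω : Type*} [Fintype Ω] {κ : ℝ} {M : ℕ} (hM : 0 < M) (μ : Ω → ℝ)
    (g : Ω → ℝ) :
    ((copies κ M μ).map fun x => x.1 * g x.2).sum = κ * ∑ ω, μ ω * g ω := by
  have key : ∀ (l : List (ℝ × Ω)) (n : ℕ), ((List.replicate n l).flatten.map
      fun x => x.1 * g x.2).sum = n * (l.map fun x => x.1 * g x.2).sum := by
    intro l n
    induction n with
    | zero => simp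
    | succ n ih =>
      rw [List.replicate_succ, List.flatten_cons, List.map_append, List.sum_append, ih]
      push_cast
      ring
  have hM' : (M : ℝ) ≠ 0 := by exact_mod_cast hM.ne'
  rw [copies, key, List.map_map]
  have : ((fun x : ℝ × Ω => x.1 * g x.2) ∘ fun ω => (κ * μ ω / M, ω)) =
      fun ω => κ * μ ω / M * g ω := rfl
  rw [this, Finset.sum_map_toList, Finset.mul_sum, Finset.mul_sum]
  refine Finset.sum_congr rfl fun ω _ => ?_
  field_simp

theorem sum_map_filter {α : Type*} (l : List α) (P : α → Prop) [DecidablePred P] (f : α → ℝ) :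
    ((l.filter fun x => P x).map f).sum = (l.map fun x => if P x then f x else 0).sum := by
  induction l with
  | nil => simp
  | cons x l ih =>
    by_cases h : P x
    · simp [h, ih]
    · simp [h, ih]

/-- `w^p ≤ (2p)^p e^{w/2}` -/
theorem rpow_le_exp_half {p w : ℝ} (hp : 0 < p) (hw : 0 ≤ w) :
    w ^ p ≤ (2 * p) ^ p * Real.exp (w / 2) := by
  have h1 : w / (2 * p) ≤ Real.exp (w / (2 * p)) := by
    have := Real.add_one_le_exp (w / (2 * p))
    linarith
  have h2 : w ≤ 2 * p * Real.exp (w / (2 * p)) := by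
    have h2p : 0 < 2 * p := by linarith
    rw [div_le_iff₀ h2p] at h1
    linarith
  calc w ^ p ≤ (2 * p * Real.exp (w / (2 * p))) ^ p := by
        apply Real.rpow_le_rpow hw h2 hp.le
    _ = (2 * p) ^ p * Real.exp (w / 2) := by
        rw [Real.mul_rpow (by linarith) (Real.exp_pos _).le, ← Real.exp_mul]
        congr 2
        field_simp

/-- truncation estimate -/
theorem rpow_trunc {p Λ R u : ℝ} (hp : 0 < p) (hΛ : 0 < Λ) (hR : 0 < R) :
    |u| ^ p ≤ R ^ p * (min |u| R / R) ^ p +
      2 * (2 * p) ^ p * Λ ^ p * Real.exp (-(R / (2 * Λ))) * Real.cosh (u / Λ) := by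
  have hK : 0 < (2 * p) ^ p := Real.rpow_pos_of_pos (by linarith) _
  have hΛp : 0 < Λ ^ p := Real.rpow_pos_of_pos hΛ _
  have hcosh : 0 < Real.cosh (u / Λ) := Real.cosh_pos _
  rcases le_total |u| R with h | h
  · rw [min_eq_left h, Real.div_rpow (abs_nonneg _) hR.le]
    have : R ^ p * (|u| ^ p / R ^ p) = |u| ^ p := by
      have : R ^ p ≠ 0 := (Real.rpow_pos_of_pos hR _).ne'
      field_simp
    rw [this]
    have : 0 ≤ 2 * (2 * p) ^ p * Λ ^ p * Real.exp (-(R / (2 * Λ))) * Real.cosh (u / Λ) := by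
      positivity
    linarith
  · have h1 : 0 ≤ R ^ p * (min |u| R / R) ^ p := by positivity
    have h2 : |u| ^ p = Λ ^ p * (|u| / Λ) ^ p := by
      rw [Real.div_rpow (abs_nonneg _) hΛ.le]
      field_simp
    have h3 := rpow_le_exp_half (p := p) (w := |u| / Λ) hp (by positivity)
    have h4 : Real.exp (|u| / Λ / 2) = Real.exp (-(|u| / (2 * Λ))) * Real.exp (|u| / Λ) := by
      rw [← Real.exp_add]
      congr 1
      field_simp
      ring
    have h5 : Real.exp (|u| / Λ) ≤ 2 * Real.cosh (u / Λ) := by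
      have : Real.cosh (u / Λ) = Real.cosh (|u| / Λ) := by
        rw [← Real.cosh_abs (u / Λ), abs_div, abs_of_pos hΛ]
      rw [this, Real.cosh_eq]
      have := Real.exp_pos (-(|u| / Λ))
      linarith
    have h6 : Real.exp (-(|u| / (2 * Λ))) ≤ Real.exp (-(R / (2 * Λ))) := by
      apply Real.exp_le_exp.mpr
      have : R / (2 * Λ) ≤ |u| / (2 * Λ) := by gcongr
      linarith
    calc |u| ^ p = Λ ^ p * (|u| / Λ) ^ p := h2
      _ ≤ Λ ^ p * ((2 * p) ^ p * (Real.exp (-(R / (2 * Λ))) * (2 * Real.cosh (u / Λ)))) := by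
          rw [h4] at h3
          have := mul_le_mul h6 h5 (Real.exp_pos _).le (Real.exp_pos _).le
          gcongr
          exact h3.trans (by gcongr)
      _ = 2 * (2 * p) ^ p * Λ ^ p * Real.exp (-(R / (2 * Λ))) * Real.cosh (u / Λ) := by ring
      _ ≤ _ := by linarith

theorem le_exp_mul {c Λ : ℝ} (hc : 0 ≤ c) (hΛ : 1 ≤ Λ) : c ≤ Real.exp (c * Λ) := by
  have := Real.add_one_le_exp (c * Λ)
  nlinarith

theorem rpow_le_exp_mul {s Λ : ℝ} (hs : 0 ≤ s) (hΛ : 1 ≤ Λ) : Λ ^ s ≤ Real.exp (s * Λ) := by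
  rw [mul_comm, Real.exp_mul]
  apply Real.rpow_le_rpow (by linarith) _ hs
  have := Real.add_one_le_exp Λ
  linarith

end Crest.Agent.R232.T9
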