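import Crest.Agent.R232.EE
import Crest.Agent.R232.T7c

/-!
# R232, T9a: auxiliary lemmas for the sparse superposition step (T9)
-/

set_option autoImplicit false

open Finset

namespace Crest.Agent.R232

/-! ### truncation -/

theorem rpow_le_exp_half (p : ℝ) (hp : 0 ≤ p) :
    ∃ C : ℝ, 1 ≤ C ∧ ∀ u : ℝ, 0 ≤ u → u ^ p ≤ C * Real.exp (u / 2) := by
  refine ⟨1 + 2 ^ ⌈p⌉₊ * (Nat.factorial ⌈p⌉₊ : ℝ), ?_, ?_⟩
  · have : (0 : ℝ) ≤ 2 ^ ⌈p⌉₊ * (Nat.factorial ⌈p⌉₊ : ℝ) := by positivity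
    linarith
  · intro u hu
    have h1 : (1 : ℝ) ≤ Real.exp (u / 2) := Real.one_le_exp (by positivity)
    have h2 := Real.pow_div_factorial_le_exp (u / 2) (by positivity) ⌈p⌉₊
    have h3 : u ^ ⌈p⌉₊ ≤ 2 ^ ⌈p⌉₊ * (Nat.factorial ⌈p⌉₊ : ℝ) * Real.exp (u / 2) := by
      rw [div_le_iff₀ (by positivity), div_pow, div_le_iff₀ (by positivity)] at h2
      calc u ^ ⌈p⌉₊ ≤ _ := h2
        _ = _ := by ring
    have h4 : u ^ p ≤ 1 + u ^ ⌈p⌉₊ := by
      rcases le_total u 1 with h | h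
      · have := Real.rpow_le_one hu h hp
        have : 0 ≤ u ^ ⌈p⌉₊ := by positivity
        linarith
      · have := Real.rpow_le_rpow_of_exponent_le h (Nat.le_ceil p)
        rw [Real.rpow_natCast] at this
        linarith
    calc u ^ p ≤ 1 + u ^ ⌈p⌉₊ := h4
      _ ≤ Real.exp (u / 2) + 2 ^ ⌈p⌉₊ * (Nat.factorial ⌈p⌉₊ : ℝ) * Real.exp (u / 2) := by
          linarith
      _ = _ := by ring

/-- large values are controlled by the exponential moment -/
theorem trunc_cosh (p : ℝ) (hp : 0 ≤ p) : ∃ C : ℝ, 1 ≤ C ∧ ∀ (L R s : ℝ) (_ : 0 < L)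
    (_ : R ≤ |s|),
    |s| ^ p ≤ C * L ^ p * Real.exp (-(R / (2 * L))) * Real.cosh (s / L) := by
  obtain ⟨C, hC1, hC⟩ := rpow_le_exp_half p hp
  refine ⟨2 * C, by linarith, ?_⟩
  intro L R s hL hR
  have hu : 0 ≤ |s| / L := by positivity
  have h1 := hC (|s| / L) hu
  have h2 : |s| ^ p = L ^ p * (|s| / L) ^ p := by
    rw [← Real.mul_rpow hL.le hu]
    congr 1
    field_simp
  have h3 : Real.cosh (s / L) = Real.cosh (|s| / L) := by
    rw [← Real.cosh_abs, abs_div, abs_of_pos hL]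
  have h4 : Real.exp (|s| / L / 2) ≤ Real.exp (-(R / (2 * L))) * (2 * Real.cosh (|s| / L)) := by
    have e1 : Real.exp (|s| / L) ≤ 2 * Real.cosh (|s| / L) := by
      rw [Real.cosh_eq]
      have := Real.exp_pos (-(|s| / L))
      linarith
    have e2 : Real.exp (|s| / L / 2) ≤ Real.exp (-(R / (2 * L))) * Real.exp (|s| / L) := by
      rw [← Real.exp_add]
      apply Real.exp_le_exp.2
      have : R / (2 * L) ≤ |s| / (2 * L) := by gcongr
      have e : |s| / L / 2 = |s| / (2 * L) := by field_simp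
      have e' : |s| / L = 2 * (|s| / (2 * L)) := by field_simp
      rw [e, e']
      linarith
    exact e2.trans (mul_le_mul_of_nonneg_left e1 (Real.exp_pos _).le)
  rw [h2, h3]
  calc L ^ p * (|s| / L) ^ p ≤ L ^ p * (C * Real.exp (|s| / L / 2)) := by
        apply mul_le_mul_of_nonneg_left h1 (by positivity)
    _ ≤ L ^ p * (C * (Real.exp (-(R / (2 * L))) * (2 * Real.cosh (|s| / L)))) := by
        apply mul_le_mul_of_nonneg_left _ (by positivity)
        exact mul_le_mul_of_nonneg_left h4 (by linarith)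
    _ = _ := by ring

/-- truncated `p`-th power, two-sided comparison -/
theorem trunc_bounds (p : ℝ) (hp : 0 ≤ p) : ∃ C : ℝ, 1 ≤ C ∧ ∀ (L R s : ℝ) (_ : 0 < L)
    (_ : 0 < R),
    |s| ^ p - C * L ^ p * Real.exp (-(R / (2 * L))) * Real.cosh (s / L) ≤
        R ^ p * (min |s| R / R) ^ p ∧
      R ^ p * (min |s| R / R) ^ p ≤ |s| ^ p := by
  obtain ⟨C, hC1, hC⟩ := trunc_cosh p hp
  refine ⟨C, hC1, ?_⟩
  intro L R s hL hR
  have hmin : 0 ≤ min |s| R := le_min (abs_nonneg _) hR.le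
  have e : R ^ p * (min |s| R / R) ^ p = (min |s| R) ^ p := by
    rw [← Real.mul_rpow hR.le (by positivity)]
    congr 1
    field_simp
  rw [e]
  refine ⟨?_, Real.rpow_le_rpow hmin (min_le_left _ _) hp⟩
  have hpos : 0 ≤ C * L ^ p * Real.exp (-(R / (2 * L))) * Real.cosh (s / L) := by
    have := (Real.cosh_pos (s / L)).le
    have : 0 ≤ C := by linarith
    positivity
  rcases le_total |s| R with h | h
  · rw [min_eq_left h]
    linarith
  · have := hC L R s hL h
    have h0 : 0 ≤ (min |s| R) ^ p := by positivity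
    linarith

/-- truncated moments of a sparse sum -/
theorem EE_trunc (p : ℝ) (hp : 0 ≤ p) : ∃ C : ℝ, 1 ≤ C ∧ ∀ (L R : ℝ) (_ : 0 < L) (_ : 0 < R)
    (l : List (ℝ × ℝ)) (_ : ∀ x ∈ l, 0 ≤ x.1 ∧ x.1 ≤ 1) (_ : ∀ x ∈ l, |x.2| ≤ L),
    EE l (fun s => |s| ^ p) - C * L ^ p * Real.exp (-(R / (2 * L))) *
        Real.exp ((l.map fun x => x.1 * x.2 ^ 2).sum / L ^ 2) ≤
        R ^ p * EE l (fun s => (min |s| R / R) ^ p) ∧
      R ^ p * EE l (fun s => (min |s| R / R) ^ p) ≤ EE l (fun s => |s| ^ p) := by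
  obtain ⟨C, hC1, hC⟩ := trunc_bounds p hp
  refine ⟨C, hC1, ?_⟩
  intro L R hL hR l hl hlL
  have hcosh : EE l (fun s => Real.cosh (s / L)) ≤
      Real.exp ((l.map fun x => x.1 * x.2 ^ 2).sum / L ^ 2) := by
    have := cosh_moment l hl (1 / L) (by
      intro x hx
      rw [abs_mul, abs_of_pos (by positivity : (0 : ℝ) < 1 / L), one_div, inv_mul_le_iff₀ hL,
        mul_one]
      exact hlL x hx)
    have e : (fun s : ℝ => Real.cosh (1 / L * s)) = fun s => Real.cosh (s / L) := by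
      funext s; congr 1; field_simp
    rw [e] at this
    refine this.trans (le_of_eq ?_)
    congr 1
    field_simp
  rw [← EE_const_mul]
  constructor
  · have h1 : EE l (fun s => |s| ^ p - C * L ^ p * Real.exp (-(R / (2 * L))) *
        Real.cosh (s / L)) ≤ EE l (fun s => R ^ p * (min |s| R / R) ^ p) :=
      EE_mono l hl fun s => (hC L R s hL hR).1
    rw [EE_sub, EE_const_mul] at h1
    have h2 : C * L ^ p * Real.exp (-(R / (2 * L))) * EE l (fun s => Real.cosh (s / L)) ≤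
        C * L ^ p * Real.exp (-(R / (2 * L))) *
          Real.exp ((l.map fun x => x.1 * x.2 ^ 2).sum / L ^ 2) := by
      apply mul_le_mul_of_nonneg_left hcosh
      have : 0 ≤ C := by linarith
      positivity
    linarith
  · exact EE_mono l hl fun s => (hC L R s hL hR).2

/-! ### the bad event -/

theorem cosh_div_lt_one_imp {L R a : ℝ} (hL : 0 < L) (hR : 0 ≤ R)
    (h : Real.cosh (a / L) / Real.cosh (R / L) < 1) : |a| < R := by
  rw [div_lt_one (Real.cosh_pos _)] at h
  have := Real.cosh_lt_cosh.1 h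
  rw [abs_div, abs_div, abs_of_pos hL, abs_of_nonneg hR] at this
  exact (div_lt_div_iff_of_pos_right hL).1 this

theorem inv_cosh_le (x : ℝ) : 1 / Real.cosh x ≤ 2 * Real.exp (-x) := by
  rw [div_le_iff₀ (Real.cosh_pos _), Real.cosh_eq]
  have h1 : Real.exp (-x) * Real.exp x = 1 := by rw [← Real.exp_add]; simp
  have h2 : 0 ≤ Real.exp (-x) * Real.exp (-x) := by positivity
  nlinarith

/-! ### splitting of the index set into copies -/

theorem sum_map_flatMap {Ω W : Type*} (Ls : List Ω) (g : Ω → List W) (f : W → ℝ) :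
    ((Ls.flatMap g).map f).sum = (Ls.map fun ω => ((g ω).map f).sum).sum := by
  induction Ls with
  | nil => simp
  | cons a Ls ih =>
    simp only [List.flatMap_cons, List.map_append, List.sum_append, List.map_cons, List.sum_cons,
      ih]

theorem split_list {Ω W : Type*} [Fintype Ω] (μ : Ω → ℝ) (hμ : ∀ ω, 0 ≤ μ ω) (κ : ℝ)
    (hκ : 0 ≤ κ) (G : Ω → W) :
    ∃ l : List (ℝ × W), (∀ x ∈ l, 0 ≤ x.1 ∧ x.1 ≤ 1) ∧ (∀ x ∈ l, ∃ ω, x.2 = G ω) ∧
      ∀ h : W → ℝ, (l.map fun x => x.1 * h x.2).sum = κ * ∑ ω, μ ω * h (G ω) := by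
  classical
  set m : Ω → ℕ := fun ω => ⌈κ * μ ω⌉₊ + 1 with hm
  have hm0 : ∀ ω, (0 : ℝ) < m ω := fun ω => by rw [hm]; positivity
  refine ⟨(univ : Finset Ω).toList.flatMap fun ω =>
    List.replicate (m ω) (κ * μ ω / m ω, G ω), ?_, ?_, ?_⟩
  · intro x hx
    obtain ⟨ω, -, hω⟩ := List.mem_flatMap.1 hx
    rw [List.eq_of_mem_replicate hω]
    constructor
    · have := hμ ω
      have := (hm0 ω).le
      positivity
    · rw [div_le_one (hm0 ω), hm]
      push_cast
      have := Nat.le_ceil (κ * μ ω)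
      linarith
  · intro x hx
    obtain ⟨ω, -, hω⟩ := List.mem_flatMap.1 hx
    exact ⟨ω, by rw [List.eq_of_mem_replicate hω]⟩
  · intro h
    rw [sum_map_flatMap, Finset.sum_map_toList, Finset.mul_sum]
    refine Finset.sum_congr rfl fun ω _ => ?_
    rw [List.map_replicate, List.sum_replicate, nsmul_eq_mul]
    have := (hm0 ω).ne'
    field_simp

theorem sum_filter_map {W : Type*} (l : List (ℝ × W)) (P : W → Prop) [DecidablePred P] :
    ((l.filter fun x => P x.2).map fun x => x.1).sum =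
      (l.map fun x => x.1 * (if P x.2 then 1 else 0)).sum := by
  induction l with
  | nil => simp
  | cons x l ih =>
    by_cases h : P x.2
    · rw [List.filter_cons_of_pos (by simpa using h)]
      simp only [List.map_cons, List.sum_cons, ih, h, if_true, mul_one]
    · rw [List.filter_cons_of_neg (by simpa using h)]
      simp only [List.map_cons, List.sum_cons, ih, h, if_false, mul_zero, zero_add]

end Crest.Agent.R232
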